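import Vale.Agent.P254.Sym.Defs

/-!
# P254: affine invariance of the isotropic constant
-/

open MeasureTheory Set Matrix

namespace Vale.Agent.P254.Unc

variable {n : ℕ}

/-- The affine map `x ↦ b + A x`. -/
noncomputable def affMap (A : Matrix (Fin n) (Fin n) ℝ) (b x : Fin n → ℝ) : Fin n → ℝ := b + A *ᵥ x

theorem setIntegral_affMap {A : Matrix (Fin n) (Fin n) ℝ} (hA : A.det ≠ 0) (b : Fin n → ℝ)
    {K : Set (Fin n → ℝ)} (hK : MeasurableSet K) (g : (Fin n → ℝ) → ℝ) :
    ∫ x in affMap A b '' K, g x = |A.det| * ∫ x in K, g (affMap A b x) := by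
  have hd : ∀ x ∈ K, HasFDerivWithinAt (affMap A b)
      (LinearMap.toContinuousLinearMap (Matrix.toLin' A)) K x := fun x _ =>
    (((LinearMap.toContinuousLinearMap (Matrix.toLin' A)).hasFDerivAt.const_add b
      ).hasFDerivWithinAt).congr (fun y _ => by simp [affMap]) (by simp [affMap])
  have hinj : InjOn (affMap A b) K := fun x _ y _ h =>
    Matrix.mulVec_injective_iff_isUnit.2
      ((Matrix.isUnit_iff_isUnit_det A).2 (isUnit_iff_ne_zero.2 hA)) (add_left_cancel h)
  rw [integral_image_eq_integral_abs_det_fderiv_smul volume hK hd hinj, ← integral_const_mul]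
  simp [smul_eq_mul, ContinuousLinearMap.det, LinearMap.det_toLin']

/-- **Affine invariance.** -/
theorem isotropicConst_affMap {A : Matrix (Fin n) (Fin n) ℝ} (hA : A.det ≠ 0) (b : Fin n → ℝ)
    {K : Set (Fin n → ℝ)} (hK : IsCompact K) (hV : (volume K).toReal ≠ 0) :
    Sym.isotropicConst (affMap A b '' K) = Sym.isotropicConst K := by
  have hm := hK.measurableSet
  obtain ⟨V, hVd⟩ : ∃ V, (volume K).toReal = V := ⟨_, rfl⟩
  rw [hVd] at hV
  have hint : ∀ F : (Fin n → ℝ) → ℝ, Continuous F → IntegrableOn F K := fun F hF =>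
    hF.continuousOn.integrableOn_compact hK
  have hdet : |A.det| ≠ 0 := abs_ne_zero.2 hA
  have hvol : (volume (affMap A b '' K)).toReal = |A.det| * V := by
    rw [← hVd]
    simpa [setIntegral_const, measureReal_def, smul_eq_mul] using
      setIntegral_affMap hA b hm (fun _ => (1 : ℝ))
  have hc : ∀ i, Sym.centroid (affMap A b '' K) i = b i + ∑ a, A i a * Sym.centroid K a := by
    intro i
    rw [Sym.centroid, hvol, setIntegral_affMap hA b hm (fun x => x i)]
    simp only [affMap, Pi.add_apply, Matrix.mulVec, dotProduct]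
    rw [integral_add (hint _ continuous_const) (hint _ (by fun_prop)),
      integral_finsetSum _ fun a _ => hint _ (by fun_prop), setIntegral_const, measureReal_def,
      smul_eq_mul]
    simp only [integral_const_mul, Sym.centroid, hVd]
    rw [show V⁻¹ = 1 / V from (one_div V).symm]
    simp only [mul_add, Finset.mul_sum]
    congr 1
    · field_simp
    · exact Finset.sum_congr rfl fun a _ => by field_simp
  have hcov : Sym.covMatrix (affMap A b '' K) = A * Sym.covMatrix K * Aᵀ := by
    ext i j
    have hT : ∀ x : Fin n → ℝ, ∀ i, affMap A b x i - Sym.centroid (affMap A b '' K) i =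
        ∑ a, A i a * (x a - Sym.centroid K a) := fun x i => by
      simp [hc, affMap, Matrix.mulVec, dotProduct, mul_sub, Finset.sum_sub_distrib]
    simp only [Sym.covMatrix, Matrix.of_apply, Matrix.mul_apply, Matrix.transpose_apply, hvol]
    rw [setIntegral_affMap hA b hm]
    simp only [hT, Finset.sum_mul_sum]
    rw [integral_finsetSum _ fun a _ => hint _ (by fun_prop)]
    simp only [Finset.mul_sum, Finset.sum_mul]
    conv_rhs => rw [Finset.sum_comm]
    refine Finset.sum_congr rfl fun a _ => ?_
    rw [integral_finsetSum _ fun c _ => hint _ (by fun_prop), Finset.mul_sum, Finset.mul_sum]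
    refine Finset.sum_congr rfl fun c _ => ?_
    rw [show (fun x : Fin n → ℝ =>
        A i a * (x a - Sym.centroid K a) * (A j c * (x c - Sym.centroid K c))) = fun x =>
        A i a * A j c * ((x a - Sym.centroid K a) * (x c - Sym.centroid K c)) from
      funext fun x => by ring, integral_const_mul, mul_inv]
    rw [hVd]
    field_simp
  rw [Sym.isotropicConst, Sym.isotropicConst, hvol, hcov, Matrix.det_mul, Matrix.det_mul,
    Matrix.det_transpose, mul_pow, sq_abs, hVd]
  congr 1
  field_simp

end Vale.Agent.P254.Unc
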