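import Vale.Agent.P254.Unc.OneDimShape

/-!
# P254: log-variance, entropy and weighted curvature in the variables `z`, `r`, `β`

With `F = 1 - S` and `R = ln x - ln F`, the variable `ln F` has variance one and `R` increases, so
`Var (ln x) - 1` is twice a nonnegative covariance plus `Var R`.
-/

open MeasureTheory Set Real intervalIntegral

namespace Vale.Agent.P254.Unc

variable {L : ℝ} {g : ℝ → ℝ}

/-- The density of the upper bound on `Var (ln x) - 1`, in `z` and `r`. -/
noncomputable def Omega (z r : ℝ) : ℝ :=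
  2 * -Real.log (1 - exp (-z)) * ((1 - exp (-z)) / (exp (-z) * r) - 1) +
    z * (1 / r - exp (-z) / (1 - exp (-z))) ^ 2

/-- `ln x - ln F`, continuous up to zero. -/
noncomputable def lnRatio (L : ℝ) (g : ℝ → ℝ) (x : ℝ) : ℝ := -Real.log (dslope (cdf L g) 0 x)

/-- Its derivative inside the interval. -/
noncomputable def lnRatio' (L : ℝ) (g : ℝ → ℝ) (x : ℝ) : ℝ := 1 / x - dens L g x / cdf L g x

theorem Marg.cdf_zero (h : Marg L g) : cdf L g 0 = 0 := by simp [cdf, h.tail_zero]

theorem cdf_top : cdf L g L = 1 := by simp [cdf, tail_top]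

theorem Marg.log_eq (h : Marg L g) {x : ℝ} (hx : 0 < x) :
    Real.log x = Real.log (cdf L g x) + lnRatio L g x := by
  have e : dslope (cdf L g) 0 x = cdf L g x / x := by
    rw [dslope_of_ne _ hx.ne', slope_def_field, h.cdf_zero, sub_zero, sub_zero]
  rw [lnRatio, e, Real.log_div (h.cdf_pos hx).ne' hx.ne']
  ring

theorem Marg.cont_lnRatio (h : Marg L g) : ContinuousOn (lnRatio L g) (Icc 0 L) := by
  refine (ContinuousOn.log (fun x hx => ?_) fun x hx => ?_).neg
  · rcases eq_or_ne x 0 with rfl | hx0
    · exact (continuousAt_dslope_same.2 (h.hasDerivAt_cdf 0).differentiableAt).continuousWithinAt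
    · exact ((continuousAt_dslope_of_ne hx0).2 h.cont_cdf.continuousAt).continuousWithinAt
  · rcases hx.1.eq_or_lt with rfl | hx0
    · rw [dslope_same, (h.hasDerivAt_cdf 0).deriv]; exact (h.dens_pos 0).ne'
    · rw [dslope_of_ne _ hx0.ne', slope_def_field, h.cdf_zero, sub_zero, sub_zero]
      exact (div_pos (h.cdf_pos hx0) hx0).ne'

theorem Marg.hasDerivAt_lnRatio (h : Marg L g) {x : ℝ} (hx : 0 < x) :
    HasDerivAt (lnRatio L g) (lnRatio' L g x) x := by
  have := (Real.hasDerivAt_log hx.ne').fun_sub ((h.hasDerivAt_cdf x).log (h.cdf_pos hx).ne')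
  refine (this.congr_deriv (by rw [lnRatio', one_div])).congr_of_eventuallyEq ?_
  filter_upwards [isOpen_Ioi.mem_nhds hx] with y hy
  linarith [h.log_eq hy]

theorem Marg.cont_lnRatio' (h : Marg L g) : ContinuousOn (lnRatio' L g) (Ioo 0 L) :=
  (continuousOn_const.div continuousOn_id fun _ hx => hx.1.ne').sub
    (h.cont_dens.continuousOn.div h.cont_cdf.continuousOn fun _ hx => (h.cdf_pos hx.1).ne')

theorem Marg.lnRatio'_nonneg (h : Marg L g) {x : ℝ} (hx : x ∈ Ioo 0 L) : 0 ≤ lnRatio' L g x := by
  rw [lnRatio', div_sub_div _ _ hx.1.ne' (h.cdf_pos hx.1).ne']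
  exact div_nonneg (by linarith [h.mul_dens_le_cdf (Ioo_subset_Icc_self hx)])
    (mul_nonneg hx.1.le (h.cdf_pos hx.1).le)

theorem Marg.lnRatio'_le (h : Marg L g) {x : ℝ} (hx : x ∈ Ioo 0 L) :
    lnRatio' L g x ≤ deriv g L * dens L g 0 / dens L g L := by
  have hL := right_mem_Icc.2 h.pos.le
  have h0 := left_mem_Icc.2 h.pos.le
  have hxI := Ioo_subset_Icc_self hx
  have e1 : cdf L g x ≤ x * dens L g 0 := by
    rw [← h.integral_dens_upto]
    calc ∫ t in (0 : ℝ)..x, dens L g t ≤ ∫ _ in (0 : ℝ)..x, dens L g 0 :=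
          integral_mono_on hx.1.le (h.dens_int _ _) (continuous_const.intervalIntegrable _ _)
            fun t ht => h.dens_anti h0 ⟨ht.1, ht.2.trans hx.2.le⟩ ht.1
      _ = x * dens L g 0 := by simp
  have e2 : dens L g 0 - dens L g x ≤ x * (deriv g L * dens L g 0) := by
    rw [← h.integral_deriv_mul_dens]
    calc ∫ t in (0 : ℝ)..x, deriv g t * dens L g t ≤ ∫ _ in (0 : ℝ)..x, deriv g L * dens L g 0 :=
          integral_mono_on hx.1.le ((h.cont_deriv.mul h.cont_dens).intervalIntegrable _ _)
            (continuous_const.intervalIntegrable _ _) fun t ht =>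
              mul_le_mul (h.deriv_mono ⟨ht.1, ht.2.trans hx.2.le⟩ hL (ht.2.trans hx.2.le))
                (h.dens_anti h0 ⟨ht.1, ht.2.trans hx.2.le⟩ ht.1) (h.dens_pos _).le (h.deriv_nonneg hL)
      _ = x * (deriv g L * dens L g 0) := by simp; ring
  have e3 : x * dens L g L ≤ cdf L g x :=
    (mul_le_mul_of_nonneg_left (h.dens_anti hxI hL hx.2.le) hx.1.le).trans (h.mul_dens_le_cdf hxI)
  have hd := h.deriv_nonneg hL
  rw [lnRatio', div_sub_div _ _ hx.1.ne' (h.cdf_pos hx.1).ne',
    div_le_div_iff₀ (mul_pos hx.1 (h.cdf_pos hx.1)) (h.dens_pos L), one_mul]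
  have e4 : cdf L g x - x * dens L g x ≤ x * (x * (deriv g L * dens L g 0)) := by
    have := mul_le_mul_of_nonneg_left e2 hx.1.le
    linarith
  calc (cdf L g x - x * dens L g x) * dens L g L
      ≤ x * (x * (deriv g L * dens L g 0)) * dens L g L :=
        mul_le_mul_of_nonneg_right e4 (h.dens_pos L).le
    _ = x * (deriv g L * dens L g 0) * (x * dens L g L) := by ring
    _ ≤ x * (deriv g L * dens L g 0) * cdf L g x :=
        mul_le_mul_of_nonneg_left e3 (mul_nonneg hx.1.le (mul_nonneg hd (h.dens_pos 0).le))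
    _ = deriv g L * dens L g 0 * (x * cdf L g x) := by ring

theorem Marg.abs_lnRatio'_le (h : Marg L g) {x : ℝ} (hx : x ∈ Ioo 0 L) :
    |lnRatio' L g x| ≤ deriv g L * dens L g 0 / dens L g L := by
  rw [abs_of_nonneg (h.lnRatio'_nonneg hx)]; exact h.lnRatio'_le hx

theorem Marg.dens_mul_log_cdf (h : Marg L g) :
    IntervalIntegrable (fun x => dens L g x * Real.log (cdf L g x)) volume 0 L ∧
      ∫ x in (0 : ℝ)..L, dens L g x * Real.log (cdf L g x) = -1 := by
  obtain ⟨hi, he⟩ := integral_deriv_of_nonneg (φ := fun x => -(dens L g x * Real.log (cdf L g x)))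
    (Φ := fun x => cdf L g x - cdf L g x * Real.log (cdf L g x)) h.pos.le
    (h.cont_cdf.sub (continuous_mul_log.comp h.cont_cdf)).continuousOn
    (fun x hx => ((h.hasDerivAt_cdf x).fun_sub ((h.hasDerivAt_cdf x).fun_mul
      ((h.hasDerivAt_cdf x).log (h.cdf_pos hx.1).ne'))).congr_deriv (by
        rw [mul_div_cancel₀ _ (h.cdf_pos hx.1).ne']; ring))
    (fun x hx => neg_nonneg.2 (mul_nonpos_of_nonneg_of_nonpos (h.dens_pos x).le
      (log_nonpos (h.cdf_pos hx.1).le (cdf_le_one_of h hx.2.le))))
  refine ⟨intervalIntegrable_congr_Ioo h.pos.le hi.neg fun x _ => (neg_neg _).symm, ?_⟩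
  rw [intervalIntegral.integral_neg] at he
  simp [cdf_top, h.cdf_zero] at he
  linarith

theorem Marg.dens_mul_log_cdf_sq (h : Marg L g) :
    IntervalIntegrable (fun x => dens L g x * Real.log (cdf L g x) ^ 2) volume 0 L ∧
      ∫ x in (0 : ℝ)..L, dens L g x * Real.log (cdf L g x) ^ 2 = 2 := by
  have hc : ContinuousOn (fun x => cdf L g x * (Real.log (cdf L g x) ^ 2 -
      2 * Real.log (cdf L g x) + 2)) (Icc 0 L) := by
    have c : Continuous fun x => (2 * (√(cdf L g x) * Real.log √(cdf L g x))) ^ 2 -
        2 * (cdf L g x * Real.log (cdf L g x)) + 2 * cdf L g x :=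
      (((continuous_const.mul (continuous_mul_log.comp h.cont_cdf.sqrt)).pow 2).sub
        (continuous_const.mul (continuous_mul_log.comp h.cont_cdf))).add
        (continuous_const.mul h.cont_cdf)
    refine c.continuousOn.congr fun x hx => ?_
    have hF : 0 ≤ cdf L g x := by
      rcases hx.1.eq_or_lt with rfl | h0
      · exact h.cdf_zero.ge
      · exact (h.cdf_pos h0).le
    simp only [Real.log_sqrt hF, mul_pow, sq_sqrt hF]
    ring
  obtain ⟨hi, he⟩ := integral_deriv_of_nonneg h.pos.le hc
    (φ := fun x => dens L g x * Real.log (cdf L g x) ^ 2)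
    (fun x hx => by
      have hl := (h.hasDerivAt_cdf x).log (h.cdf_pos hx.1).ne'
      refine ((h.hasDerivAt_cdf x).fun_mul
        (((hl.fun_pow 2).fun_sub (hl.const_mul 2)).add_const 2)).congr_deriv ?_
      have := (h.cdf_pos hx.1).ne'
      push_cast
      field_simp
      ring)
    (fun x _ => mul_nonneg (h.dens_pos x).le (sq_nonneg _))
  exact ⟨hi, by rw [he]; simp [cdf_top, h.cdf_zero]⟩

theorem Marg.dens_mul_log (h : Marg L g) :
    IntervalIntegrable (fun x => dens L g x * Real.log x) volume 0 L := by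
  refine intervalIntegrable_congr_Ioo h.pos.le ((h.dens_mul_log_cdf.1).add
    ((h.cont_dens.continuousOn.mul h.cont_lnRatio).intervalIntegrable_of_Icc h.pos.le)) fun x hx => ?_
  simp only [Pi.mul_apply, h.log_eq hx.1]
  ring

/-- The covariance density `-F ln F · R'`. -/
noncomputable def covD (L : ℝ) (g : ℝ → ℝ) (x : ℝ) : ℝ :=
  -(cdf L g x * Real.log (cdf L g x)) * lnRatio' L g x

theorem Marg.covD_int (h : Marg L g) : IntervalIntegrable (covD L g) volume 0 L := by
  have hb : IntervalIntegrable (lnRatio' L g) volume 0 L :=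
    intervalIntegrable_of_bounded h.pos.le h.cont_lnRatio' fun x hx => h.abs_lnRatio'_le hx
  exact hb.continuousOn_mul (continuous_mul_log.comp h.cont_cdf).neg.continuousOn

theorem Marg.weight_eq (L : ℝ) (g : ℝ → ℝ) (x : ℝ) :
    weight L g x = -(tail L g x * (tail L g x * Real.log (tail L g x))) / dens L g x := by
  rw [weight]; ring

theorem Marg.cont_weight (h : Marg L g) : Continuous (weight L g) := by
  rw [show weight L g = _ from funext (Marg.weight_eq L g)]
  exact (h.cont_tail.mul (continuous_mul_log.comp h.cont_tail)).neg.div h.cont_dens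
    fun x => (h.dens_pos x).ne'

theorem Marg.weight_sq_int (h : Marg L g) :
    IntervalIntegrable (fun x => weight L g x * lnRatio' L g x ^ 2) volume 0 L := by
  refine (intervalIntegrable_of_bounded h.pos.le (h.cont_lnRatio'.pow 2)
    (B := (deriv g L * dens L g 0 / dens L g L) ^ 2) fun x hx => ?_).continuousOn_mul
      h.cont_weight.continuousOn
  rw [Pi.pow_apply, abs_of_nonneg (sq_nonneg _)]
  exact sq_le_sq' (abs_le.1 (h.abs_lnRatio'_le hx)).1 (h.lnRatio'_le hx)

theorem Marg.dens_mul_Omega (h : Marg L g) {x : ℝ} (hx : x ∈ Ioo 0 L) :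
    dens L g x * Omega (clock L g x) (reach L g x) =
      2 * covD L g x + weight L g x * lnRatio' L g x ^ 2 := by
  have hS := (h.tail_pos hx.2).ne'
  have hf := (h.dens_pos x).ne'
  have hF := (h.cdf_pos hx.1).ne'
  have hx0 := hx.1.ne'
  rw [Omega, h.exp_neg_clock hx.2, show 1 - tail L g x = cdf L g x from rfl]
  simp only [covD, lnRatio', weight, reach, clock]
  field_simp

theorem Marg.Omega_int (h : Marg L g) :
    IntervalIntegrable (fun x => dens L g x * Omega (clock L g x) (reach L g x)) volume 0 L :=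
  intervalIntegrable_congr_Ioo h.pos.le ((h.covD_int.const_mul 2).add h.weight_sq_int)
    fun _ hx => h.dens_mul_Omega hx

/-- `Var (ln x) - 1 = 2 Cov + Var R`. -/
theorem Marg.logExcess_eq (h : Marg L g) :
    logExcess L g = 2 * (∫ x in (0 : ℝ)..L, covD L g x) +
      ((∫ x in (0 : ℝ)..L, dens L g x * lnRatio L g x ^ 2) -
        (∫ x in (0 : ℝ)..L, dens L g x * lnRatio L g x) ^ 2) := by
  obtain ⟨i1, e1⟩ := h.dens_mul_log_cdf
  obtain ⟨i2, e2⟩ := h.dens_mul_log_cdf_sq
  have cR := h.cont_lnRatio
  have hL := h.pos.le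
  have iR : IntervalIntegrable (fun x => dens L g x * lnRatio L g x) volume 0 L :=
    (h.cont_dens.continuousOn.mul cR).intervalIntegrable_of_Icc hL
  have iR2 : IntervalIntegrable (fun x => dens L g x * lnRatio L g x ^ 2) volume 0 L :=
    (h.cont_dens.continuousOn.mul (cR.pow 2)).intervalIntegrable_of_Icc hL
  have iFR : IntervalIntegrable (fun x => dens L g x * Real.log (cdf L g x) * lnRatio L g x)
      volume 0 L := i1.mul_continuousOn (by rwa [uIcc_of_le hL])
  have cov : (∫ x in (0 : ℝ)..L, dens L g x * Real.log (cdf L g x) * lnRatio L g x) +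
      ∫ x in (0 : ℝ)..L, dens L g x * lnRatio L g x = ∫ x in (0 : ℝ)..L, covD L g x := by
    have e := integral_eq_sub_of_hasDerivAt_of_le hL
      (f := fun x => cdf L g x * Real.log (cdf L g x) * lnRatio L g x)
      (f' := fun x => dens L g x * Real.log (cdf L g x) * lnRatio L g x +
        dens L g x * lnRatio L g x - covD L g x)
      ((continuous_mul_log.comp h.cont_cdf).continuousOn.mul cR)
      (fun x hx => (((h.hasDerivAt_cdf x).fun_mul ((h.hasDerivAt_cdf x).log
        (h.cdf_pos hx.1).ne')).fun_mul (h.hasDerivAt_lnRatio hx.1)).congr_deriv (by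
          rw [mul_div_cancel₀ _ (h.cdf_pos hx.1).ne', covD]; ring))
      ((iFR.add iR).sub h.covD_int)
    rw [intervalIntegral.integral_sub (iFR.add iR) h.covD_int,
      intervalIntegral.integral_add iFR iR] at e
    simp [cdf_top, h.cdf_zero] at e
    linarith
  have m1 : logMean L g = -1 + ∫ x in (0 : ℝ)..L, dens L g x * lnRatio L g x := by
    rw [logMean, ← e1, ← intervalIntegral.integral_add i1 iR]
    exact integral_congr_Ioo hL fun x hx => by simp only [h.log_eq hx.1]; ring
  have m2 : ∫ x in (0 : ℝ)..L, dens L g x * Real.log x ^ 2 =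
      2 + 2 * (∫ x in (0 : ℝ)..L, dens L g x * Real.log (cdf L g x) * lnRatio L g x) +
        ∫ x in (0 : ℝ)..L, dens L g x * lnRatio L g x ^ 2 := by
    rw [integral_congr_Ioo hL (G := fun x => dens L g x * Real.log (cdf L g x) ^ 2 +
        2 * (dens L g x * Real.log (cdf L g x) * lnRatio L g x) + dens L g x * lnRatio L g x ^ 2)
        fun x hx => by simp only [h.log_eq hx.1]; ring,
      intervalIntegral.integral_add (i2.add (iFR.const_mul 2)) iR2,
      intervalIntegral.integral_add i2 (iFR.const_mul 2), intervalIntegral.integral_const_mul, e2]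
  rw [logExcess, m1, m2]
  nlinarith [cov]

theorem Marg.var_lnRatio_nonneg (h : Marg L g) :
    0 ≤ (∫ x in (0 : ℝ)..L, dens L g x * lnRatio L g x ^ 2) -
      (∫ x in (0 : ℝ)..L, dens L g x * lnRatio L g x) ^ 2 := by
  set m := ∫ x in (0 : ℝ)..L, dens L g x * lnRatio L g x with hm
  have iR : IntervalIntegrable (fun x => dens L g x * lnRatio L g x) volume 0 L :=
    (h.cont_dens.continuousOn.mul h.cont_lnRatio).intervalIntegrable_of_Icc h.pos.le
  have iR2 : IntervalIntegrable (fun x => dens L g x * lnRatio L g x ^ 2) volume 0 L :=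
    (h.cont_dens.continuousOn.mul (h.cont_lnRatio.pow 2)).intervalIntegrable_of_Icc h.pos.le
  have h0 : 0 ≤ ∫ x in (0 : ℝ)..L, dens L g x * (lnRatio L g x - m) ^ 2 :=
    intervalIntegral.integral_nonneg h.pos.le fun x _ => mul_nonneg (h.dens_pos x).le (sq_nonneg _)
  rw [show (fun x => dens L g x * (lnRatio L g x - m) ^ 2) = fun x => dens L g x * lnRatio L g x ^ 2 -
      2 * m * (dens L g x * lnRatio L g x) + m ^ 2 * dens L g x from funext fun x => by ring,
    intervalIntegral.integral_add (iR2.sub (iR.const_mul _)) ((h.dens_int 0 L).const_mul _),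
    intervalIntegral.integral_sub iR2 (iR.const_mul _), intervalIntegral.integral_const_mul,
    intervalIntegral.integral_const_mul, h.integral_dens, ← hm] at h0
  nlinarith

/-- The variance of `ln x` is at least one. -/
theorem Marg.excess_nonneg (h : Marg L g) : 0 ≤ logExcess L g := by
  rw [h.logExcess_eq]
  refine add_nonneg (mul_nonneg zero_le_two ?_) h.var_lnRatio_nonneg
  rw [integral_of_le h.pos.le, integral_Ioc_eq_integral_Ioo]
  refine setIntegral_nonneg measurableSet_Ioo fun x hx => mul_nonneg (neg_nonneg.2 ?_) (h.lnRatio'_nonneg hx)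
  exact mul_nonpos_of_nonneg_of_nonpos (h.cdf_pos hx.1).le
    (log_nonpos (h.cdf_pos hx.1).le (cdf_le_one_of h hx.2.le))

/-- The log-variance bound. -/
theorem logExcess_le (h : Marg L g) :
    logExcess L g ≤ ∫ x in (0 : ℝ)..L, dens L g x * Omega (clock L g x) (reach L g x) := by
  rw [h.logExcess_eq, integral_congr_Ioo h.pos.le fun x hx => h.dens_mul_Omega hx,
    intervalIntegral.integral_add (h.covD_int.const_mul 2) h.weight_sq_int,
    intervalIntegral.integral_const_mul]
  linarith [weightedPoincare_of_bdd h h.cont_lnRatio (fun x hx => h.hasDerivAt_lnRatio hx.1)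
    h.cont_lnRatio' fun x hx => h.abs_lnRatio'_le hx]

theorem Marg.log_reach (h : Marg L g) {x : ℝ} (hx : x ∈ Ioo 0 L) :
    dens L g x * Real.log (reach L g x) =
      dens L g x * Real.log x - dens L g x * (g x + Real.log (mass L g)) +
        dens L g x * clock L g x := by
  rw [reach, Real.log_div (mul_ne_zero hx.1.ne' (h.dens_pos x).ne') (h.tail_pos hx.2).ne',
    Real.log_mul hx.1.ne' (h.dens_pos x).ne', clock]
  simp only [dens, Real.log_div (exp_pos (-g x)).ne' h.mass_pos.ne', Real.log_exp]
  ring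

theorem Marg.log_reach_int (h : Marg L g) :
    IntervalIntegrable (fun x => dens L g x * Real.log (reach L g x)) volume 0 L :=
  intervalIntegrable_congr_Ioo h.pos.le ((h.dens_mul_log.sub
    ((h.cont_dens.mul (h.cont.add continuous_const)).intervalIntegrable 0 L)).add h.dens_mul_clock.1)
    fun _ hx => h.log_reach hx

/-- Entropy against log-mean. -/
theorem entropy_sub_logMean (h : Marg L g) :
    entropy L g - logMean L g - 1 =
      -∫ x in (0 : ℝ)..L, dens L g x * Real.log (reach L g x) := by
  have ie : IntervalIntegrable (fun x => dens L g x * (g x + Real.log (mass L g))) volume 0 L :=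
    (h.cont_dens.mul (h.cont.add continuous_const)).intervalIntegrable 0 L
  rw [integral_congr_Ioo h.pos.le fun x hx => h.log_reach hx,
    intervalIntegral.integral_add (h.dens_mul_log.sub ie) h.dens_mul_clock.1,
    intervalIntegral.integral_sub h.dens_mul_log ie, h.dens_mul_clock.2]
  simp only [entropy, logMean]
  ring

theorem Marg.step_term_int (h : Marg L g) :
    IntervalIntegrable (fun x => dens L g x * (betaF L g x - clock L g x * betaF L g x ^ 2))
      volume 0 L := by
  refine intervalIntegrable_congr_Ioo h.pos.le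
    (((h.cont_dens.mul h.cont_betaF).intervalIntegrable 0 L).sub
      (h.dens_mul_clock.1.mul_continuousOn (h.cont_betaF.pow 2).continuousOn)) fun x _ => ?_
  simp only [Pi.mul_apply, Pi.pow_apply]
  ring

/-- The weighted curvature in `z` and `β`. -/
theorem curvI_eq (h : Marg L g) :
    curvI L g =
      ∫ x in (0 : ℝ)..L, dens L g x * (betaF L g x - clock L g x * betaF L g x ^ 2) := by
  have iw : IntervalIntegrable (fun x => weight L g x * deriv (deriv g) x) volume 0 L :=
    (h.cont_weight.mul h.cont_deriv2).intervalIntegrable 0 L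
  have e := integral_eq_sub_of_hasDerivAt_of_le h.pos.le
    (f := fun x => -(tail L g x * Real.log (tail L g x)) *
      (tail L g x * deriv g x / dens L g x - 1))
    (f' := fun x => weight L g x * deriv (deriv g) x -
      dens L g x * (betaF L g x - clock L g x * betaF L g x ^ 2))
    ((continuous_mul_log.comp h.cont_tail).neg.mul (((h.cont_tail.mul h.cont_deriv).div h.cont_dens
      fun x => (h.dens_pos x).ne').sub continuous_const)).continuousOn
    (fun x hx => by
      have hS := (h.tail_pos hx.2).ne'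
      have hf := (h.dens_pos x).ne'
      refine (((h.hasDerivAt_tail x).fun_mul ((h.hasDerivAt_tail x).log hS)).fun_neg.fun_mul
        ((((h.hasDerivAt_tail x).fun_mul (h.hasDerivAt_deriv x)).fun_div (h.hasDerivAt_dens x)
          hf).sub_const 1)).congr_deriv ?_
      simp only [weight, betaF, clock]
      field_simp
      ring)
    (iw.sub h.step_term_int)
  rw [intervalIntegral.integral_sub iw h.step_term_int] at e
  simp [tail_top, h.tail_zero] at e
  simp only [curvI]
  linarith

end Vale.Agent.P254.Unc
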