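import Vale.Agent.P254.Unc.Approx
import Vale.Agent.P254.Unc.OneDimLog
import Vale.Agent.P254.Sym.Body
import Vale.Agent.P254.Sym.Simplex

/-!
# P254: unconditional bodies beat the simplex, from the one-variable inequalities

For the positive part `A` of an unconditional body the conversion inequality, coordinate by
coordinate, and the slicing inequality give `∏ᵢ E xᵢ² ≤ (2 / e)²ⁿ e⁻²ⁿᵐ |A|²`; Stirling's bound
compares this with the simplex.
-/

open MeasureTheory Set Filter
open scoped Topology

namespace Vale.Agent.P254.Unc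

variable {n : ℕ} {L m : ℝ} {ψ s : ℝ → ℝ}

/-- The conversion inequality for one coordinate of a smooth potential. -/
theorem conv_potential (hC : ConvIneq ψ m) (hL : 0 < L) {W : (Fin n → ℝ) → ℝ}
    (hW : Potential L W) (i : Fin n) :
    Real.log (pMean L W fun x => x i ^ 2) / 2 + 1 - Real.log 2 + m ≤
      lnMean L W i + ψ (lnExcess L W i) := by
  obtain _ | k := n
  · exact i.elim0
  have hc := hW.smooth.continuous.neg.rexp.continuousOn (s := box 0 L (k + 1))
  have hi : IntegrableOn (fun x : Fin (k + 1) → ℝ => Real.exp (-W x) * x i ^ 2) (box 0 L (k + 1)) :=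
    (hc.mul ((continuous_apply i).pow 2).continuousOn).integrableOn_compact (isCompact_box _)
  have hs : ∀ t, Continuous (sliceAt W i t) := fun t =>
    (hW.contDiff_sliceFamily i).continuous.comp (continuous_const.prodMk continuous_id)
  have e := (hW.pMean_eq i hL hi).2
  simp only [Fin.insertNth_apply_same, pMean_const hL (hs _)] at e
  obtain ⟨e1, e2⟩ := pMean_coord hW hL i
  rw [e1, e2, e]
  exact hC L _ (hW.marg hL i)

theorem AntiBody.sq_pos {A : Set (Fin n → ℝ)} (hA : AntiBody A) (i : Fin n) :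
    0 < ∫ x in A, x i ^ 2 := by
  have hint : IntegrableOn (fun x : Fin n → ℝ => x i ^ 2) A :=
    ((continuous_apply i).pow 2).continuousOn.integrableOn_compact hA.compact
  refine (setIntegral_pos_iff_support_of_nonneg_ae
    (Eventually.of_forall fun x => sq_nonneg _) hint).2 ?_
  refine lt_of_lt_of_le (ENNReal.toReal_pos_iff.1 hA.vol_pos).1 (le_of_eq (measure_congr ?_))
  filter_upwards [Sym.ae_ne_zero n] with x hx
  exact propext ⟨fun h => ⟨by simpa using hx i, h⟩, fun h => h.2⟩

/-- Second moments of an anti-blocking body against its volume. -/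
theorem AntiBody.moment_bound {A : Set (Fin n → ℝ)} (hA : AntiBody A) (hP : Pot ψ s)
    (hS : StepIneq ψ s) (hC : ConvIneq ψ m) :
    ∑ i, (Real.log ((∫ x in A, x i ^ 2) / volume.real A) / 2 + 1 - Real.log 2 + m) ≤
      Real.log (volume.real A) := by
  obtain ⟨L, hL, hsub⟩ := hA.exists_box
  have hne := hA.vol_pos.ne'
  have hW := fun k => hA.potential k L
  have hZ : Tendsto (fun k => part L (bodyPot A k)) atTop (𝓝 (volume.real A)) := by
    have h := tendsto_box_integral hA hsub (g := fun _ => (1 : ℝ))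
      (continuous_const.continuousOn.integrableOn_compact (isCompact_box n))
    simpa [part] using h
  have hE : Tendsto (fun k => energy L (bodyPot A k)) atTop (𝓝 (Real.log (volume.real A))) := by
    have h := ((tendsto_box_energy hA L).div hZ hne).add (hZ.log hne)
    rw [zero_div, zero_add] at h
    exact h
  refine le_of_tendsto_of_tendsto' (tendsto_finsetSum _ fun i _ => ?_) hE fun k =>
    (Finset.sum_le_sum fun i _ => conv_potential hC hL (hW k) i).trans
      (Unc.potential_bound hP hS (fun _ _ h => Marg.excess_nonneg h) n L hL _ (hW k))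
  have hQ : Tendsto (fun k => pMean L (bodyPot A k) fun x => x i ^ 2) atTop
      (𝓝 ((∫ x in A, x i ^ 2) / volume.real A)) :=
    (tendsto_box_integral hA hsub
      (((continuous_apply i).pow 2).continuousOn.integrableOn_compact (isCompact_box n))).div hZ hne
  exact ((((hQ.log (div_pos (hA.sq_pos i) hA.vol_pos).ne').div_const 2).add_const 1).sub_const
    (Real.log 2)).add_const m

theorem antiBody_orth {K : Set (Fin n → ℝ)} (h : Sym.Unc K) : AntiBody (K ∩ Sym.orth n) where
  convex := h.conv.inter (Sym.convex_orth n)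
  compact := h.cpt.inter_right (by
    simpa only [Sym.orth, ofPred_forall] using
      isClosed_iInter fun i : Fin n => isClosed_le continuous_const (continuous_apply i))
  nonneg _ hx := hx.2
  down x hx y hy hyx := ⟨h.down hx.1 fun i => by
    rw [abs_of_nonneg (hy i), abs_of_nonneg (hx.2 i)]; exact hyx i, hy⟩
  vol_pos := h.volA_pos

theorem covMatrix_eq_diagonal {K : Set (Fin n → ℝ)} (h : Sym.Unc K) :
    Sym.covMatrix K = Matrix.diagonal fun i =>
      (∫ x in K ∩ Sym.orth n, x i ^ 2) / volume.real (K ∩ Sym.orth n) := by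
  have hc : ∀ i, Sym.centroid K i = 0 := fun i => by
    rw [Sym.centroid, h.setIntegral_odd (φ := fun x => x i) i (fun x => by simp), mul_zero]
  ext i j
  simp only [Sym.covMatrix, Matrix.of_apply, hc, sub_zero]
  by_cases hij : i = j
  · subst hij
    rw [Matrix.diagonal_apply_eq, h.volume_eq, measureReal_def]
    have e := h.setIntegral_eq (φ := fun x => x i ^ 2) (by fun_prop) fun x y hxy => by
      rw [← sq_abs (y i), hxy i, sq_abs]
    simp only [← pow_two, e]
    field_simp
  · rw [Matrix.diagonal_apply_ne _ hij,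
      h.setIntegral_odd (φ := fun x => x i * x j) i (fun x => by simp [Ne.symm hij]), mul_zero]

/-- The value of the simplex exceeds `exp (-2 n (1 + m))`. -/
theorem exp_lt_simplex_value (hn : 30 ≤ n) (hm : 3 / 5 ≤ m * n) :
    Real.exp (-(2 * n * (1 + m))) < (n.factorial : ℝ) ^ 2 / ((n + 1) ^ (n + 1) * (n + 2) ^ n) := by
  have hn' : (30 : ℝ) ≤ n := by exact_mod_cast hn
  have hn0 : (0 : ℝ) < n := by linarith
  rw [lt_div_iff₀ (by positivity)]
  have hfac : 2 * Real.pi * n * ((n : ℝ) ^ n) ^ 2 * Real.exp (-(2 * n)) ≤ (n.factorial : ℝ) ^ 2 := by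
    refine le_of_eq_of_le ?_ (pow_le_pow_left₀ (by positivity) (Stirling.le_factorial_stirling n) 2)
    rw [mul_pow, Real.sq_sqrt (by positivity), div_pow, div_pow, ← Real.exp_nat_mul,
      ← Real.exp_nat_mul, Real.exp_neg, div_eq_mul_inv]
    push_cast
    ring_nf
  have h1 : ∀ c : ℝ, 0 ≤ c → ((n : ℝ) + c) ^ n ≤ (n : ℝ) ^ n * Real.exp c := fun c hc => by
    rw [show (n : ℝ) + c = n * (1 + c / n) by field_simp, mul_pow]
    refine mul_le_mul_of_nonneg_left ?_ (by positivity)
    refine (pow_le_pow_left₀ (by positivity) (add_comm (1 : ℝ) _ ▸ Real.add_one_le_exp (c / n)) n).trans_eq ?_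
    rw [← Real.exp_nat_mul]
    congr 1
    field_simp
  have hden : ((n : ℝ) + 1) ^ (n + 1) * ((n : ℝ) + 2) ^ n ≤
      ((n : ℝ) + 1) * ((n : ℝ) ^ n) ^ 2 * Real.exp 3 := by
    rw [pow_succ, show Real.exp 3 = Real.exp 1 * Real.exp 2 by rw [← Real.exp_add]; norm_num]
    calc ((n : ℝ) + 1) ^ n * (n + 1) * (n + 2) ^ n
        ≤ (n : ℝ) ^ n * Real.exp 1 * (n + 1) * ((n : ℝ) ^ n * Real.exp 2) := by
          gcongr
          · exact h1 1 zero_le_one
          · exact h1 2 zero_le_two
      _ = _ := by ring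
  have hkey : Real.exp (-(2 * n * m)) * Real.exp 3 * ((n : ℝ) + 1) < 2 * Real.pi * n := by
    have hb : Real.exp (-(2 * n * m)) * Real.exp 3 ≤ (2.7182818286 : ℝ) ^ 2 / (1.22 : ℝ) := by
      rw [← Real.exp_add]
      refine (Real.exp_le_exp.2 (show -(2 * n * m) + 3 ≤ (2 : ℕ) * 1 + -(1 / 5 : ℝ) by
        push_cast; nlinarith)).trans ?_
      rw [Real.exp_add, Real.exp_nat_mul, Real.exp_neg, ← div_eq_mul_inv]
      refine div_le_div₀ (by norm_num) (pow_le_pow_left₀ (Real.exp_nonneg _)
        Real.exp_one_lt_d9.le 2) (by norm_num) ?_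
      exact le_trans (by norm_num) (Real.quadratic_le_exp_of_nonneg (by norm_num))
    calc Real.exp (-(2 * n * m)) * Real.exp 3 * ((n : ℝ) + 1)
        ≤ (2.7182818286 : ℝ) ^ 2 / (1.22 : ℝ) * ((n : ℝ) + 1) :=
          mul_le_mul_of_nonneg_right hb (by linarith)
      _ < 2 * 3.1415 * n := by norm_num; linarith
      _ ≤ 2 * Real.pi * n := by
          have := Real.pi_gt_d4
          nlinarith
  calc Real.exp (-(2 * n * (1 + m))) * (((n : ℝ) + 1) ^ (n + 1) * ((n : ℝ) + 2) ^ n)
      ≤ Real.exp (-(2 * n * (1 + m))) * (((n : ℝ) + 1) * ((n : ℝ) ^ n) ^ 2 * Real.exp 3) :=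
        mul_le_mul_of_nonneg_left hden (Real.exp_nonneg _)
    _ = Real.exp (-(2 * n)) * ((n : ℝ) ^ n) ^ 2 *
          (Real.exp (-(2 * n * m)) * Real.exp 3 * ((n : ℝ) + 1)) := by
        rw [show -(2 * (n : ℝ) * (1 + m)) = -(2 * n) + -(2 * n * m) by ring, Real.exp_add]
        ring
    _ < Real.exp (-(2 * n)) * ((n : ℝ) ^ n) ^ 2 * (2 * Real.pi * n) :=
        mul_lt_mul_of_pos_left hkey (by positivity)
    _ = 2 * Real.pi * n * ((n : ℝ) ^ n) ^ 2 * Real.exp (-(2 * n)) := by ring
    _ ≤ _ := hfac

/-- **Unconditional bodies beat the simplex**, from the one-variable inequalities with margin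
`m`, in every dimension `n ≥ 30` with `m n ≥ 3/5`. -/
theorem isotropicConst_lt_simplex (hP : Pot ψ s) (hS : StepIneq ψ s) (hC : ConvIneq ψ m)
    (hn : 30 ≤ n) (hnm : 3 / 5 ≤ m * n) {K : Set (Fin n → ℝ)} (hK : Sym.Unc K) :
    Sym.isotropicConst K < Sym.isotropicConst (Sym.simplex n) := by
  set A := K ∩ Sym.orth n
  have hA : AntiBody A := antiBody_orth hK
  have hV : 0 < volume.real A := hA.vol_pos
  set q : Fin n → ℝ := fun i => (∫ x in A, x i ^ 2) / volume.real A
  have hq : ∀ i, 0 < q i := fun i => div_pos (hA.sq_pos i) hV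
  have hsum : ∑ i, (Real.log (q i) / 2 + 1 - Real.log 2 + m) ≤ Real.log (volume.real A) :=
    hA.moment_bound hP hS hC
  simp only [Finset.sum_add_distrib, Finset.sum_sub_distrib, ← Finset.sum_div, Finset.sum_const,
    Finset.card_univ, Fintype.card_fin, nsmul_eq_mul] at hsum
  rw [← Real.log_prod fun i _ => (hq i).ne'] at hsum
  rw [Sym.isotropicConst_simplex_eq, Sym.isotropicConst, covMatrix_eq_diagonal hK,
    Matrix.det_diagonal, hK.volume_eq]
  change ((∏ i, q i) / (2 ^ n * volume.real A) ^ 2) ^ _ < _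
  have hprod : 0 < ∏ i, q i := Finset.prod_pos fun i _ => hq i
  refine Real.rpow_lt_rpow (by positivity) (lt_of_le_of_lt ?_ (exp_lt_simplex_value hn hnm))
    (by positivity)
  refine (Real.log_le_iff_le_exp (by positivity)).1 ?_
  rw [Real.log_div hprod.ne' (by positivity), Real.log_pow,
    Real.log_mul (by positivity) hV.ne', Real.log_pow]
  push_cast
  linarith

end Vale.Agent.P254.Unc
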