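import Vale.Agent.P254.Unc.Affine
import Vale.Agent.P254.Unc.Final
import Vale.Agent.P254.Main

/-!
# P254: affine images of unconditional bodies against arbitrary simplices
-/

open MeasureTheory Set Matrix

namespace Vale.Agent.P254.Unc

variable {n : ℕ}

theorem isoConst_eq (K : Set (Fin n → ℝ)) : isoConst K = Sym.isotropicConst K := rfl

theorem isotropicConst_simplex_eq_isoConst {S : Set (Fin n → ℝ)} (hS : IsSimplex S) :
    Sym.isotropicConst (Sym.simplex n) = isoConst S := by
  obtain ⟨p, hp, rfl⟩ := hS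
  rw [isoConst_simplex p hp, Sym.isotropicConst_simplex_eq]
  congr 1
  have h2 : ((n + 2).factorial : ℝ) = ((n : ℝ) + 2) * (((n : ℝ) + 1) * n.factorial) := by
    rw [Nat.factorial_succ, Nat.factorial_succ]; push_cast; ring
  have hf : (n.factorial : ℝ) ≠ 0 := Nat.cast_ne_zero.2 n.factorial_ne_zero
  rw [simplexVal, h2, mul_pow, mul_pow, pow_succ ((n : ℝ) + 2) n,
    show n + 3 = (n + 1) + 2 from rfl, pow_add (n.factorial : ℝ) (n + 1) 2]
  field_simp

/-- From one-variable inequalities with margin `m` to affine images of unconditional bodies. -/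
theorem isoConst_image_lt {ψ s : ℝ → ℝ} {m : ℝ} (hP : Pot ψ s) (hS : StepIneq ψ s)
    (hC : ConvIneq ψ m) (hn : 30 ≤ n) (hnm : 3 / 5 ≤ m * n) {K : Set (Fin n → ℝ)} (hK : Sym.Unc K)
    (A : Matrix (Fin n) (Fin n) ℝ) (hA : A.det ≠ 0) (b : Fin n → ℝ) {S : Set (Fin n → ℝ)}
    (hSx : IsSimplex S) : isoConst ((fun x => b + A *ᵥ x) '' K) < isoConst S := by
  have hv : (volume K).toReal ≠ 0 := by
    rw [hK.volume_eq]
    exact mul_ne_zero (pow_ne_zero _ two_ne_zero) hK.volA_pos.ne'
  rw [← isotropicConst_simplex_eq_isoConst hSx, isoConst_eq]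
  exact (isotropicConst_affMap hA b hK.cpt hv).trans_lt
    (isotropicConst_lt_simplex hP hS hC hn hnm hK)

end Vale.Agent.P254.Unc
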