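import Vale.Agent.P254.Unc.Induction

/-!
# P254: from smooth potentials on boxes to convex anti-blocking bodies

The potentials `W_k = (k + 1) * mollified distance to the downward closure of a body` are smooth,
convex and nondecreasing, and `exp (-W_k)` tends to the indicator of the body on the box, so every
inequality between logarithmic moments, entropy and partition function passes to the uniform law
on the body.
-/

open MeasureTheory Set Filter ContinuousLinearMap
open scoped Topology Convolution ContDiff

namespace Vale.Agent.P254.Unc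

variable {n : ℕ}

/-- A compact convex anti-blocking set in the closed orthant, of positive volume. -/
structure AntiBody (A : Set (Fin n → ℝ)) : Prop where
  convex : Convex ℝ A
  compact : IsCompact A
  nonneg : ∀ x ∈ A, ∀ i, 0 ≤ x i
  down : ∀ x ∈ A, ∀ y : Fin n → ℝ, (∀ i, 0 ≤ y i) → y ≤ x → y ∈ A
  vol_pos : 0 < volume.real A

/-- The mean of `ln xᵢ` for the uniform law on a set. -/
noncomputable def bodyLnMean (A : Set (Fin n → ℝ)) (i : Fin n) : ℝ :=
  (∫ x in A, Real.log (x i)) / volume.real A

/-- The excess of the variance of `ln xᵢ` over one, for the uniform law on a set. -/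
noncomputable def bodyLnExcess (A : Set (Fin n → ℝ)) (i : Fin n) : ℝ :=
  (∫ x in A, Real.log (x i) ^ 2) / volume.real A - bodyLnMean A i ^ 2 - 1

theorem Pot.continuousOn {ψ s : ℝ → ℝ} (h : Pot ψ s) : ContinuousOn ψ (Ici 0) := by
  intro u (hu : 0 ≤ u)
  have hb : ∀ v ∈ Icc (0 : ℝ) (u + 1), |ψ v - ψ u| ≤ s (u + 1) * |v - u| := by
    intro v hv
    have h1 := h.support u v hu hv.1
    have h2 := h.support v u hv.1 hu
    have hs : ∀ w ∈ Icc (0 : ℝ) (u + 1), |s w| ≤ s (u + 1) := fun w hw => by
      rw [abs_of_nonneg (h.slope_nonneg w hw.1)]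
      exact h.slope_mono hw.1 (show (0 : ℝ) ≤ u + 1 by linarith) hw.2
    have a1 : |s u * (v - u)| ≤ s (u + 1) * |v - u| := by
      rw [abs_mul]; exact mul_le_mul_of_nonneg_right (hs u ⟨hu, by linarith⟩) (abs_nonneg _)
    have a2 : |s v * (u - v)| ≤ s (u + 1) * |v - u| := by
      rw [abs_mul, abs_sub_comm u v]; exact mul_le_mul_of_nonneg_right (hs v hv) (abs_nonneg _)
    rw [abs_le]
    constructor <;> linarith [(abs_le.1 a1).1, (abs_le.1 a2).1]
  refine tendsto_iff_norm_sub_tendsto_zero.2
    (squeeze_zero' (g := fun v => s (u + 1) * |v - u|)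
      (Eventually.of_forall fun _ => norm_nonneg _) ?_ ?_)
  · filter_upwards [self_mem_nhdsWithin, nhdsWithin_le_nhds (Iio_mem_nhds (lt_add_one u))]
      with v hv hv'
    exact hb v ⟨hv, le_of_lt hv'⟩
  · exact tendsto_nhdsWithin_of_tendsto_nhds
      ((by fun_prop : Continuous fun v => s (u + 1) * |v - u|).tendsto' u 0 (by simp))

/-- The downward closure. -/
def lowerHull (A : Set (Fin n → ℝ)) : Set (Fin n → ℝ) := {x | ∃ a ∈ A, x ≤ a}

/-- The distance to the downward closure. -/
noncomputable def hullDist (A : Set (Fin n → ℝ)) (x : Fin n → ℝ) : ℝ :=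
  Metric.infDist x (lowerHull A)

theorem lipschitzWith_hullDist (A : Set (Fin n → ℝ)) : LipschitzWith 1 (hullDist A) :=
  Metric.lipschitz_infDist_pt _

theorem hullDist_nonneg (A : Set (Fin n → ℝ)) (x : Fin n → ℝ) : 0 ≤ hullDist A x :=
  Metric.infDist_nonneg

namespace AntiBody

variable {A : Set (Fin n → ℝ)}

theorem measurableSet (hA : AntiBody A) : MeasurableSet A := hA.compact.measurableSet

theorem nonempty (hA : AntiBody A) : A.Nonempty := by
  by_contra h
  rw [not_nonempty_iff_eq_empty] at h
  simpa [h] using hA.vol_pos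

theorem lowerHull_nonempty (hA : AntiBody A) : (lowerHull A).Nonempty :=
  hA.nonempty.mono fun a ha => show a ∈ lowerHull A from ⟨a, ha, le_rfl⟩

theorem hullDist_eq_zero (_hA : AntiBody A) {x : Fin n → ℝ} (hx : x ∈ A) : hullDist A x = 0 :=
  Metric.infDist_zero_of_mem ⟨x, hx, le_rfl⟩

theorem hullDist_pos (hA : AntiBody A) {x : Fin n → ℝ} (hx0 : ∀ i, 0 ≤ x i) (hx : x ∉ A) :
    0 < hullDist A x := by
  refine (hullDist_nonneg A x).lt_of_ne fun h => hx ?_
  rw [← hA.compact.isClosed.closure_eq, Metric.mem_closure_iff]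
  intro ε hε
  obtain ⟨c, ⟨a, ha, hca⟩, hc⟩ := (Metric.infDist_lt_iff hA.lowerHull_nonempty).1
    (show hullDist A x < ε / 2 by rw [← h]; linarith)
  refine ⟨fun i => max 0 (x i - ε / 2), hA.down a ha _ (fun i => le_max_left _ _) fun i => ?_,
    lt_of_le_of_lt ((dist_pi_le_iff (by linarith : (0 : ℝ) ≤ ε / 2)).2 fun i => ?_) (by linarith)⟩
  · refine max_le (hA.nonneg a ha i) ?_
    have := (abs_le.1 ((dist_le_pi_dist x c i).trans hc.le)).2
    linarith [hca i]
  · rw [Real.dist_eq, abs_le]
    constructor <;>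
      linarith [le_max_left (0 : ℝ) (x i - ε / 2), le_max_right (0 : ℝ) (x i - ε / 2),
        max_le (hx0 i) (by linarith : x i - ε / 2 ≤ x i)]

theorem convex_lowerHull (hA : AntiBody A) : Convex ℝ (lowerHull A) :=
  fun x ⟨a, ha, hxa⟩ y ⟨b, hb, hyb⟩ s t hs ht hst =>
    ⟨s • a + t • b, hA.convex ha hb hs ht hst, fun i => by
      simp only [Pi.add_apply, Pi.smul_apply, smul_eq_mul]
      exact add_le_add (mul_le_mul_of_nonneg_left (hxa i) hs)
        (mul_le_mul_of_nonneg_left (hyb i) ht)⟩

theorem convexOn_hullDist (hA : AntiBody A) : ConvexOn ℝ univ (hullDist A) := by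
  refine ⟨convex_univ, fun x _ y _ s t hs ht hst => le_of_forall_pos_le_add fun ε hε => ?_⟩
  obtain ⟨c, hc, hxc⟩ := (Metric.infDist_lt_iff hA.lowerHull_nonempty).1
    (show hullDist A x < hullDist A x + ε by linarith)
  obtain ⟨d, hd, hyd⟩ := (Metric.infDist_lt_iff hA.lowerHull_nonempty).1
    (show hullDist A y < hullDist A y + ε by linarith)
  calc hullDist A (s • x + t • y) ≤ dist (s • x + t • y) (s • c + t • d) :=
        Metric.infDist_le_dist_of_mem (hA.convex_lowerHull hc hd hs ht hst)
    _ ≤ dist (s • x) (s • c) + dist (t • y) (t • d) := dist_add_add_le _ _ _ _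
    _ = s * dist x c + t * dist y d := by
        rw [dist_smul₀, dist_smul₀, Real.norm_of_nonneg hs, Real.norm_of_nonneg ht]
    _ ≤ s * (hullDist A x + ε) + t * (hullDist A y + ε) :=
        add_le_add (mul_le_mul_of_nonneg_left hxc.le hs) (mul_le_mul_of_nonneg_left hyd.le ht)
    _ = s • hullDist A x + t • hullDist A y + ε := by
        simp only [smul_eq_mul]; linear_combination ε * hst

theorem monotone_hullDist (hA : AntiBody A) : Monotone (hullDist A) := by
  intro x y hxy
  refine (Metric.le_infDist hA.lowerHull_nonempty).2 fun c hc => ?_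
  obtain ⟨a, ha, hca⟩ := hc
  have hmem : c + (x - y) ∈ lowerHull A := ⟨a, ha, fun i => by
    simp only [Pi.add_apply, Pi.sub_apply]; linarith [hca i, hxy i]⟩
  refine (Metric.infDist_le_dist_of_mem hmem).trans_eq ?_
  rw [dist_eq_norm, dist_eq_norm]
  congr 1; abel

theorem exists_box (hA : AntiBody A) : ∃ L : ℝ, 0 < L ∧ A ⊆ box 0 L n := by
  obtain ⟨R, hR, hsub⟩ := hA.compact.isBounded.subset_closedBall_lt 0 0
  refine ⟨R, hR, fun x hx i _ => ⟨hA.nonneg x hx i, ?_⟩⟩
  have := (norm_le_pi_norm x i).trans (mem_closedBall_zero_iff.1 (hsub hx))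
  exact (le_abs_self _).trans this

end AntiBody

/-! ### Mollified distances -/

/-- The mollifiers. -/
noncomputable def hullBump (n k : ℕ) : ContDiffBump (0 : Fin n → ℝ) where
  rIn := 1 / (2 * ((k : ℝ) + 1) ^ 2)
  rOut := 1 / ((k : ℝ) + 1) ^ 2
  rIn_pos := by positivity
  rIn_lt_rOut := one_div_lt_one_div_of_lt (by positivity)
    (lt_mul_of_one_lt_left (by positivity) one_lt_two)

/-- The smooth potentials of a body. -/
noncomputable def bodyPot (A : Set (Fin n → ℝ)) (k : ℕ) (x : Fin n → ℝ) : ℝ :=
  ((k : ℝ) + 1) *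
    ((hullBump n k).normed volume ⋆[lsmul ℝ ℝ, (volume : Measure (Fin n → ℝ))] hullDist A) x

theorem bodyPot_apply (A : Set (Fin n → ℝ)) (k : ℕ) (x : Fin n → ℝ) : bodyPot A k x =
    ((k : ℝ) + 1) * ∫ t, (hullBump n k).normed volume t * hullDist A (x - t) := rfl

theorem integrable_hullDist_mul (A : Set (Fin n → ℝ)) (k : ℕ) (x : Fin n → ℝ) :
    Integrable fun t => (hullBump n k).normed volume t * hullDist A (x - t) :=
  ((hullBump n k).continuous_normed.mul
    ((lipschitzWith_hullDist A).continuous.comp (continuous_const.sub continuous_id))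
    ).integrable_of_hasCompactSupport (hullBump n k).hasCompactSupport_normed.mul_right

theorem bodyPot_nonneg (A : Set (Fin n → ℝ)) (k : ℕ) (x : Fin n → ℝ) : 0 ≤ bodyPot A k x :=
  mul_nonneg (by positivity) (integral_nonneg fun t =>
    mul_nonneg ((hullBump n k).nonneg_normed t) (hullDist_nonneg _ _))

theorem abs_bodyPot_sub_le (A : Set (Fin n → ℝ)) (k : ℕ) (x : Fin n → ℝ) :
    |bodyPot A k x - ((k : ℝ) + 1) * hullDist A x| ≤ 1 / ((k : ℝ) + 1) := by
  set φ := (hullBump n k).normed (volume : Measure (Fin n → ℝ))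
  have hφ : Integrable φ := (hullBump n k).integrable_normed
  have e : ∫ t, φ t * (hullDist A (x - t) - hullDist A x) =
      (∫ t, φ t * hullDist A (x - t)) - hullDist A x := by
    simp only [mul_sub]
    rw [integral_sub (integrable_hullDist_mul A k x) (hφ.mul_const _), integral_mul_const,
      (hullBump n k).integral_normed, one_mul]
  rw [bodyPot_apply, ← mul_sub, ← e, abs_mul, abs_of_pos (by positivity)]
  have hb : |∫ t, φ t * (hullDist A (x - t) - hullDist A x)| ≤ 1 / ((k : ℝ) + 1) ^ 2 := by
    refine (abs_integral_le_integral_abs).trans ?_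
    refine le_trans (integral_mono_of_nonneg (Eventually.of_forall fun t => abs_nonneg _)
      (hφ.mul_const (1 / ((k : ℝ) + 1) ^ 2)) (Eventually.of_forall fun t => ?_)) ?_
    · show |φ t * _| ≤ φ t * _
      rw [abs_mul, abs_of_nonneg ((hullBump n k).nonneg_normed t)]
      by_cases ht : φ t = 0
      · rw [ht, show (hullBump n k).normed volume t = 0 from ht]; simp
      refine mul_le_mul_of_nonneg_left ?_ ((hullBump n k).nonneg_normed t)
      have hsupp : t ∈ Metric.ball (0 : Fin n → ℝ) (hullBump n k).rOut := by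
        rw [← (hullBump n k).support_normed_eq (μ := volume)]; exact ht
      have hl := (lipschitzWith_hullDist A).dist_le_mul (x - t) x
      rw [Real.dist_eq, dist_eq_norm, NNReal.coe_one, one_mul, sub_sub_cancel_left, norm_neg] at hl
      exact hl.trans (mem_ball_zero_iff.1 hsupp).le
    · rw [integral_mul_const, (hullBump n k).integral_normed, one_mul]
  calc ((k : ℝ) + 1) * _ ≤ ((k : ℝ) + 1) * (1 / ((k : ℝ) + 1) ^ 2) :=
        mul_le_mul_of_nonneg_left hb (by positivity)
    _ = 1 / ((k : ℝ) + 1) := by field_simp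

theorem AntiBody.potential {A : Set (Fin n → ℝ)} (hA : AntiBody A) (k : ℕ) (L : ℝ) :
    Potential L (bodyPot A k) := by
  refine ⟨contDiff_const.mul ((hullBump n k).hasCompactSupport_normed.contDiff_convolution_left _
    (hullBump n k).contDiff_normed (lipschitzWith_hullDist A).continuous.locallyIntegrable),
    ⟨convex_univ, fun x _ y _ a b ha hb hab => ?_⟩, fun x _ y _ hxy => ?_⟩
  · simp only [bodyPot_apply, smul_eq_mul]
    rw [mul_left_comm a, mul_left_comm b, ← mul_add]
    rw [← integral_const_mul a, ← integral_const_mul b,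
      ← integral_add ((integrable_hullDist_mul A k x).const_mul a)
        ((integrable_hullDist_mul A k y).const_mul b)]
    refine mul_le_mul_of_nonneg_left (integral_mono (integrable_hullDist_mul A k _)
      (((integrable_hullDist_mul A k x).const_mul a).add
        ((integrable_hullDist_mul A k y).const_mul b)) fun t => ?_) (by positivity)
    have h := hA.convexOn_hullDist.2 (mem_univ (x - t)) (mem_univ (y - t)) ha hb hab
    have e : a • x + b • y - t = a • (x - t) + b • (y - t) := by
      ext i
      simp only [Pi.add_apply, Pi.sub_apply, Pi.smul_apply, smul_eq_mul]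
      linear_combination (t i) * hab
    rw [e]
    simp only [smul_eq_mul] at h ⊢
    nlinarith [mul_le_mul_of_nonneg_left h ((hullBump n k).nonneg_normed (μ := volume) t)]
  · simp only [bodyPot_apply]
    exact mul_le_mul_of_nonneg_left (integral_mono (integrable_hullDist_mul A k _)
      (integrable_hullDist_mul A k _) fun t => mul_le_mul_of_nonneg_left
        (hA.monotone_hullDist (sub_le_sub_right hxy t)) ((hullBump n k).nonneg_normed t))
      (by positivity)

/-! ### The limit -/

theorem tendsto_exp_bodyPot {A : Set (Fin n → ℝ)} (hA : AntiBody A) {x : Fin n → ℝ}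
    (hx : ∀ i, 0 ≤ x i) :
    Tendsto (fun k => Real.exp (-bodyPot A k x)) atTop (𝓝 (A.indicator (fun _ => (1 : ℝ)) x)) ∧
      Tendsto (fun k => Real.exp (-bodyPot A k x) * bodyPot A k x) atTop (𝓝 0) := by
  have h1 : Tendsto (fun k : ℕ => 1 / ((k : ℝ) + 1)) atTop (𝓝 0) :=
    tendsto_one_div_add_atTop_nhds_zero_nat
  by_cases hxA : x ∈ A
  · rw [indicator_of_mem hxA]
    have hW : Tendsto (fun k => bodyPot A k x) atTop (𝓝 0) := by
      refine squeeze_zero (fun k => bodyPot_nonneg A k x) (fun k => ?_) h1
      have := (abs_le.1 (abs_bodyPot_sub_le A k x)).2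
      rw [hA.hullDist_eq_zero hxA, mul_zero, sub_zero] at this
      exact this
    constructor
    · simpa [Function.comp_def] using (Real.continuous_exp.tendsto _).comp hW.neg
    · simpa [Function.comp_def] using ((Real.continuous_exp.tendsto _).comp hW.neg).mul hW
  · rw [indicator_of_notMem hxA]
    have hD := hA.hullDist_pos hx hxA
    have hW : Tendsto (fun k => bodyPot A k x) atTop atTop := by
      refine tendsto_atTop_mono (f := fun k : ℕ => ((k : ℝ) + 1) * hullDist A x - 1) (fun k => ?_) ?_
      · have := (abs_le.1 (abs_bodyPot_sub_le A k x)).1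
        have h2 : 1 / ((k : ℝ) + 1) ≤ 1 := by
          rw [div_le_one (by positivity)]; linarith [k.cast_nonneg (α := ℝ)]
        linarith
      · exact tendsto_atTop_add_const_right _ _
          ((tendsto_atTop_add_const_right _ _ tendsto_natCast_atTop_atTop).atTop_mul_const hD)
    refine ⟨Real.tendsto_exp_neg_atTop_nhds_zero.comp hW, ?_⟩
    have := (Real.tendsto_pow_mul_exp_neg_atTop_nhds_zero 1).comp hW
    simpa [Function.comp_def, mul_comm] using this

/-- Integrals against the densities converge to integrals over the body. -/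
theorem tendsto_box_integral {A : Set (Fin n → ℝ)} (hA : AntiBody A) {L : ℝ}
    (hsub : A ⊆ box 0 L n) {g : (Fin n → ℝ) → ℝ} (hg : IntegrableOn g (box 0 L n)) :
    Tendsto (fun k => ∫ x in box 0 L n, Real.exp (-bodyPot A k x) * g x) atTop
      (𝓝 (∫ x in A, g x)) := by
  have e : ∫ x in A, g x = ∫ x in box 0 L n, A.indicator (fun _ => (1 : ℝ)) x * g x := by
    have : (fun x => A.indicator (fun _ => (1 : ℝ)) x * g x) = A.indicator g := by
      funext x; by_cases hx : x ∈ A <;> simp [hx]
    rw [this, setIntegral_indicator hA.measurableSet, inter_eq_right.2 hsub]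
  rw [e]
  refine tendsto_integral_of_dominated_convergence (fun x => ‖g x‖) (fun k => ?_) hg.norm
    (fun k => Eventually.of_forall fun x => ?_) ?_
  · exact ((hA.potential k L).smooth.continuous.neg.rexp.aestronglyMeasurable).mul
      hg.aestronglyMeasurable
  · rw [norm_mul, Real.norm_of_nonneg (Real.exp_nonneg _)]
    exact mul_le_of_le_one_left (norm_nonneg _)
      (Real.exp_le_one_iff.2 (neg_nonpos.2 (bodyPot_nonneg A k x)))
  · filter_upwards [ae_restrict_mem (isCompact_box n).measurableSet] with x hx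
    exact (tendsto_exp_bodyPot hA fun i => (hx i trivial).1).1.mul_const (g x)

theorem tendsto_box_energy {A : Set (Fin n → ℝ)} (hA : AntiBody A) (L : ℝ) :
    Tendsto (fun k => ∫ x in box 0 L n, Real.exp (-bodyPot A k x) * bodyPot A k x) atTop
      (𝓝 0) := by
  have : IsFiniteMeasure (volume.restrict (box (0 : ℝ) L n)) :=
    isFiniteMeasure_restrict.2 (isCompact_box n).measure_lt_top.ne
  have h : Tendsto (fun k => ∫ x in box 0 L n, Real.exp (-bodyPot A k x) * bodyPot A k x) atTop
      (𝓝 (∫ _x in box 0 L n, (0 : ℝ))) := by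
    refine tendsto_integral_of_dominated_convergence (fun _ => 1) (fun k => ?_)
      (integrable_const _) (fun k => Eventually.of_forall fun x => ?_) ?_
    · exact ((hA.potential k L).smooth.continuous.neg.rexp.mul
        (hA.potential k L).smooth.continuous).aestronglyMeasurable
    · have hW := bodyPot_nonneg A k x
      rw [Real.norm_of_nonneg (by positivity), Real.exp_neg, inv_mul_le_one₀ (Real.exp_pos _)]
      linarith [Real.add_one_le_exp (bodyPot A k x)]
    · filter_upwards [ae_restrict_mem (isCompact_box n).measurableSet] with x hx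
      exact (tendsto_exp_bodyPot hA fun i => (hx i trivial).1).2
  simpa using h

/-- **Bodies from potentials.** An inequality between logarithmic moments and entropy for smooth
potentials on boxes holds for the uniform law on a convex anti-blocking body. -/
theorem body_bound {A : Set (Fin n → ℝ)} (hA : AntiBody A) {ψ : ℝ → ℝ}
    (hψ : ContinuousOn ψ (Ici 0))
    (hU : ∀ L W, 0 < L → Potential L W → ∀ i : Fin n, 0 ≤ lnExcess L W i)
    (H : ∀ L (W : (Fin n → ℝ) → ℝ), 0 < L → Potential L W →
      ∑ i, (lnMean L W i + ψ (lnExcess L W i)) ≤ energy L W) :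
    (∀ i, 0 ≤ bodyLnExcess A i) ∧
      ∑ i, (bodyLnMean A i + ψ (bodyLnExcess A i)) ≤ Real.log (volume.real A) := by
  obtain ⟨L, hL, hsub⟩ := hA.exists_box
  set W := bodyPot A
  have hP := fun k => hA.potential k L
  have hZ : Tendsto (fun k => part L (W k)) atTop (𝓝 (volume.real A)) := by
    have h := tendsto_box_integral hA hsub (g := fun _ => (1 : ℝ))
      (continuous_const.continuousOn.integrableOn_compact (isCompact_box n))
    simpa [part] using h
  have hlog := fun i : Fin n => integrableOn_mul_log hL.le i (g := fun _ => (1 : ℝ)) continuousOn_const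
    (δ := 0) le_rfl zero_le_one
  simp only [one_mul, add_zero] at hlog
  have hne := hA.vol_pos.ne'
  have hM : ∀ i, Tendsto (fun k => lnMean L (W k) i) atTop (𝓝 (bodyLnMean A i)) := fun i =>
    (tendsto_box_integral hA hsub (hlog i).1).div hZ hne
  have hV : ∀ i, Tendsto (fun k => lnExcess L (W k) i) atTop (𝓝 (bodyLnExcess A i)) := fun i =>
    (((tendsto_box_integral hA hsub (hlog i).2).div hZ hne).sub ((hM i).pow 2)).sub_const 1
  have hV0 : ∀ i, 0 ≤ bodyLnExcess A i := fun i =>
    ge_of_tendsto' (hV i) fun k => hU L _ hL (hP k) i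
  refine ⟨hV0, ?_⟩
  have hE : Tendsto (fun k => energy L (W k)) atTop (𝓝 (Real.log (volume.real A))) := by
    have h := ((tendsto_box_energy hA L).div hZ hne).add (hZ.log hne)
    rw [zero_div, zero_add] at h
    exact h
  refine le_of_tendsto_of_tendsto' (tendsto_finsetSum _ fun i _ => (hM i).add ?_) hE
    fun k => H L _ hL (hP k)
  exact (hψ _ (hV0 i)).tendsto.comp (tendsto_nhdsWithin_iff.2
    ⟨hV i, Eventually.of_forall fun k => hU L _ hL (hP k) i⟩)

/-- **The logarithmic inequality for anti-blocking bodies**, from the one-variable inequalities. -/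
theorem AntiBody.potential_bound {A : Set (Fin n → ℝ)} (hA : AntiBody A) {ψ s : ℝ → ℝ}
    (hψ : Pot ψ s) (hstep : StepIneq ψ s) (hexc : ∀ L g, Marg L g → 0 ≤ logExcess L g) :
    (∀ i, 0 ≤ bodyLnExcess A i) ∧
      ∑ i, (bodyLnMean A i + ψ (bodyLnExcess A i)) ≤ Real.log (volume.real A) := by
  refine body_bound hA hψ.continuousOn (fun L W hL hW i => ?_)
    fun L W hL hW => Unc.potential_bound hψ hstep hexc n L hL W hW
  obtain _ | m := n
  · exact i.elim0
  · rw [(pMean_coord hW hL i).2]; exact hexc _ _ (hW.marg hL i)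

end Vale.Agent.P254.Unc
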