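import Vale.Agent.P254.Unc.Curvature

/-!
# P254: consequences of the curvature lemma

With `ψ = -ln ∫ exp (-W (p + s θ, ·))` and `φ a` the mean of `a · ln x` for that density,
`(φ a)'² ≤ 2 |a|² ψ''`; in particular the sum over the coordinates of `φᵢ'²` is at most `2 ψ''`.
-/

open MeasureTheory Set

namespace Vale.Agent.P254.Unc

variable {δ L : ℝ}

/-- The potential of a slice along a line of parameters. -/
noncomputable def sliceEnergy {P : Type*} [AddCommGroup P] [Module ℝ P] {n : ℕ} (δ L : ℝ)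
    (W : P × (Fin n → ℝ) → ℝ) (p θ : P) (s : ℝ) : ℝ :=
  -Real.log (∫ x in box δ L n, Real.exp (-W (p + s • θ, x)))

/-- The mean of `a · ln x` in a slice along a line of parameters. -/
noncomputable def sliceMean {P : Type*} [AddCommGroup P] [Module ℝ P] {n : ℕ} (δ L : ℝ)
    (W : P × (Fin n → ℝ) → ℝ) (p θ : P) (a : Fin n → ℝ) (s : ℝ) : ℝ :=
  (∫ x in box δ L n, Real.exp (-W (p + s • θ, x)) * logForm a x) /
    ∫ x in box δ L n, Real.exp (-W (p + s • θ, x))

variable {P : Type} [NormedAddCommGroup P] [NormedSpace ℝ P] {n : ℕ}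

/-- The joint logarithmic Laplace transform in the parameter and the tilt. -/
noncomputable def joint (δ L : ℝ) (W : P × (Fin n → ℝ) → ℝ) (p θ : P) (a : Fin n → ℝ)
    (q : ℝ × ℝ) : ℝ :=
  -Real.log (∫ x in box δ L n, Real.exp (-W (p + q.1 • θ, x) + q.2 * logForm a x))

theorem contDiffAt_joint (hδ : 0 < δ) {W : P × (Fin n → ℝ) → ℝ} (hW : ContDiff ℝ 2 W)
    (p θ : P) (a : Fin n → ℝ) (q : ℝ × ℝ) {x : Fin n → ℝ} (hx : x ∈ box δ L n) :
    ContDiffAt ℝ 2 (fun z : (ℝ × ℝ) × (Fin n → ℝ) =>
      Real.exp (-W (p + z.1.1 • θ, z.2) + z.1.2 * logForm a z.2)) (q, x) := by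
  refine ContDiffAt.exp (ContDiffAt.add ?_ ((contDiff_snd.comp contDiff_fst).contDiffAt.mul ?_))
  · exact (hW.comp ((contDiff_const.add ((contDiff_fst.comp contDiff_fst).smul
      contDiff_const)).prodMk contDiff_snd)).contDiffAt.neg
  · exact ContDiffAt.sum fun i _ => contDiffAt_const.mul
      (((contDiff_apply ℝ ℝ i).comp contDiff_snd).contDiffAt.log
        (hδ.trans_le (hx i trivial).1).ne')

theorem contDiff_joint (hδ : 0 < δ) (hL : δ < L) {W : P × (Fin n → ℝ) → ℝ} (hW : ContDiff ℝ 2 W)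
    (p θ : P) (a : Fin n → ℝ) : ContDiff ℝ 2 (joint δ L W p θ a) :=
  ((contDiff_two_setIntegral (isCompact_box n) fun q _ hx =>
    contDiffAt_joint hδ hW p θ a q hx).log fun q => (setIntegral_box_pos hL (fun _ hy =>
      ((contDiffAt_joint hδ hW p θ a q hy).continuousAt.comp (f := fun z => (q, z))
        (by fun_prop)).continuousWithinAt) fun _ _ => Real.exp_pos _).ne').neg

/-- The bounds on the slope of a slice mean, with the variance kept. -/
theorem slice_bounds (hδ : 0 < δ) (hL : δ < L) {W : P × (Fin n → ℝ) → ℝ} (hW : ContDiff ℝ 2 W)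
    (hconv : ConvexOn ℝ univ W) (p θ : P) (hmono : MonotoneOn (fun x => W (p, x)) (box δ L n))
    (a : Fin n → ℝ) :
    0 ≤ deriv (deriv (sliceEnergy δ L W p θ)) 0 ∧
      deriv (sliceMean δ L W p θ a) 0 ^ 2 ≤
        2 * (∑ i, a i ^ 2) * deriv (deriv (sliceEnergy δ L W p θ)) 0 := by
  set Λ := joint δ L W p θ a with hΛdef
  have hΛ : ContDiff ℝ 2 Λ := contDiff_joint hδ hL hW p θ a
  have hΛc : ContDiff ℝ 1 Λ := hΛ.of_le one_le_two
  have hΛ1 : ContDiff ℝ 1 (fderiv ℝ Λ) := hΛ.fderiv_right (by norm_num)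
  set D2 : ℝ × ℝ → ℝ × ℝ → ℝ × ℝ → ℝ := fun q u w => fderiv ℝ (fderiv ℝ Λ) q u w
  have dT : ∀ q w u : ℝ × ℝ, ∀ s : ℝ, HasDerivAt (fun s : ℝ => fderiv ℝ Λ (q + s • w) u)
      (D2 (q + s • w) w u) s := fun q w u s =>
    (ContinuousLinearMap.apply ℝ ℝ u).hasFDerivAt.comp_hasDerivAt s (hasDerivAt_line hΛ1 q w s)
  have d1 : ∀ w : ℝ × ℝ, deriv (fun t : ℝ => Λ (0 + t • w)) =
      fun t => fderiv ℝ Λ (0 + t • w) w :=
    fun w => funext fun t => (hasDerivAt_line hΛc 0 w t).deriv
  have d2 : ∀ w : ℝ × ℝ, deriv (deriv fun t : ℝ => Λ (0 + t • w)) 0 = D2 0 w w := fun w => by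
    rw [d1, (dT 0 w w 0).deriv]; simp
  -- the second derivative of a tilt
  have hc : ∀ c : ℝ, 0 ≤ D2 0 (1, c) (1, c) + 2 * (c ^ 2 * ∑ i, a i ^ 2) := fun c => by
    have h := curvature hδ hL n P W hW hconv p θ (fun i => c * a i) hmono
    have e : tilt δ L W p θ (fun i => c * a i) =
        fun t => Λ (0 + t • ((1, c) : ℝ × ℝ)) + t ^ 2 * (c ^ 2 * ∑ i, a i ^ 2) := by
      funext t
      simp [tilt, hΛdef, joint, logForm, mul_pow, Finset.mul_sum, mul_assoc]
    have e' : deriv (fun t => Λ (0 + t • ((1, c) : ℝ × ℝ)) + t ^ 2 * (c ^ 2 * ∑ i, a i ^ 2)) =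
        fun t => fderiv ℝ Λ (0 + t • ((1, c) : ℝ × ℝ)) (1, c) +
          2 * t * (c ^ 2 * ∑ i, a i ^ 2) := by
      funext t
      exact ((hasDerivAt_line hΛc 0 (1, c) t).fun_add
        (((hasDerivAt_id' t).fun_pow 2).mul_const _)).deriv.trans (by simp)
    rw [e, e', ((dT 0 (1, c) (1, c) 0).fun_add
      (((hasDerivAt_id' (0 : ℝ)).const_mul 2).mul_const _)).deriv] at h
    simpa using h
  -- the energy and the mean
  have eψ : sliceEnergy δ L W p θ = fun t => Λ (0 + t • ((1, 0) : ℝ × ℝ)) := by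
    funext t
    simp [sliceEnergy, hΛdef, joint]
  set K := fun q : ℝ × ℝ => ∫ x in box δ L n,
    Real.exp (-W (p + q.1 • θ, x) + q.2 * logForm a x) with hK
  have hlogc : ContinuousOn (logForm a) (box δ L n) := continuousOn_finsetSum _ fun i _ =>
    continuousOn_const.mul ((continuous_apply i).continuousOn.log fun x hx =>
      (hδ.trans_le (hx i trivial).1).ne')
  have hKpos : ∀ q, 0 < K q := fun q => setIntegral_box_pos hL (fun _ hy =>
    ((contDiffAt_joint hδ hW p θ a q hy).continuousAt.comp (f := fun z => (q, z))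
      (by fun_prop)).continuousWithinAt) fun _ _ => Real.exp_pos _
  set g : ℕ → ℝ → ℝ × (Fin n → ℝ) → ℝ := fun k s z =>
    Real.exp (-W (p + s • θ, z.2) + z.1 * logForm a z.2) * logForm a z.2 ^ k with hg
  have hgC : ∀ k s u, ∀ x ∈ box δ L n, ContDiffAt ℝ 1 (g k s) (u, x) := fun k s u x hx => by
    have hl : ContDiffAt ℝ 1 (fun z : ℝ × (Fin n → ℝ) => logForm a z.2) (u, x) :=
      ContDiffAt.sum fun i _ => contDiffAt_const.mul
        (((contDiff_apply ℝ ℝ i).comp contDiff_snd).contDiffAt.log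
          (hδ.trans_le (hx i trivial).1).ne')
    exact (((hW.of_le one_le_two).comp (contDiff_const.prodMk contDiff_snd)).contDiffAt.neg.add
      (contDiffAt_fst.mul hl)).exp.mul (hl.pow k)
  have hgd : ∀ k s u, HasDerivAt (fun u => ∫ x in box δ L n, g k s (u, x))
      (∫ x in box δ L n, g (k + 1) s (u, x)) u := fun k s u =>
    hasDerivAt_setIntegral (isCompact_box n) (hgC k s) (fun u x _ => by
      simp only [hg]
      refine (((hasDerivAt_mul_const (x := u) (logForm a x)).const_add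
        (-W (p + s • θ, x))).exp.mul_const (logForm a x ^ k)).congr_deriv ?_
      ring) u
  have dΛ : ∀ s u, HasDerivAt (fun u => Λ (s, u))
      (-((∫ x in box δ L n, g 1 s (u, x)) / ∫ x in box δ L n, g 0 s (u, x))) u := fun s u => by
    have e : (fun u => Λ (s, u)) = fun u => -Real.log (∫ x in box δ L n, g 0 s (u, x)) := by
      funext u; simp [hΛdef, joint, hg]
    rw [e]
    refine ((hgd 0 s u).log ?_).fun_neg
    simpa [hg, hK] using (hKpos (s, u)).ne'
  have dΛ' : ∀ s u, HasDerivAt (fun u => Λ (s, u)) (fderiv ℝ Λ (s, u) (0, 1)) u := fun s u => by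
    simpa using hasDerivAt_line hΛc (s, 0) (0, 1) u
  have eφ : sliceMean δ L W p θ a =
      fun t => -fderiv ℝ Λ (0 + t • ((1, 0) : ℝ × ℝ)) (0, 1) := by
    funext t
    have h := (dΛ t 0).unique (dΛ' t 0)
    simp only [Prod.smul_mk, smul_eq_mul, mul_one, mul_zero, zero_add, ← h, neg_neg]
    simp [sliceMean, hg]
  have hφ' : deriv (sliceMean δ L W p θ a) 0 = -D2 0 (1, 0) (0, 1) := by
    rw [eφ, ((dT 0 (1, 0) (0, 1) 0).fun_neg).deriv]; simp
  have hψ : deriv (deriv (sliceEnergy δ L W p θ)) 0 = D2 0 (1, 0) (1, 0) := by rw [eψ, d2]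
  -- the variance has a sign
  have hV : D2 0 (0, 1) (0, 1) ≤ 0 := by
    have h1 : (fun u : ℝ => fderiv ℝ Λ (0 + u • ((0, 1) : ℝ × ℝ)) (0, 1)) =
        fun u => -((∫ x in box δ L n, g 1 0 (u, x)) / ∫ x in box δ L n, g 0 0 (u, x)) := by
      funext u
      rw [(dΛ 0 u).unique (dΛ' 0 u)]
      simp
    have h0 : (∫ x in box δ L n, g 0 0 (0, x)) ≠ 0 := by
      simpa [hg, hK] using (hKpos (0, 0)).ne'
    have h := (dT 0 (0, 1) (0, 1) 0)
    rw [h1] at h
    have h' := h.unique (((hgd 1 0 0).fun_div (hgd 0 0 0) h0).fun_neg)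
    simp only [zero_smul, add_zero] at h'
    rw [h', neg_nonpos]
    refine div_nonneg (sub_nonneg.2 ?_) (sq_nonneg _)
    -- Cauchy–Schwarz
    have hi : ∀ k, IntegrableOn (fun x => g k 0 (0, x)) (box δ L n) := fun k =>
      ContinuousOn.integrableOn_compact (isCompact_box n) fun x hx =>
        ((hgC k 0 0 x hx).continuousAt.comp (f := fun z => ((0 : ℝ), z))
          (by fun_prop)).continuousWithinAt
    have key : ∀ r : ℝ, 0 ≤ (∫ x in box δ L n, g 0 0 (0, x)) * (r * r) +
        2 * (∫ x in box δ L n, g 1 0 (0, x)) * r + ∫ x in box δ L n, g 2 0 (0, x) := fun r => by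
      rw [← integral_mul_const, ← integral_const_mul 2, ← integral_mul_const,
        ← integral_add ((hi 0).mul_const _) (((hi 1).const_mul 2).mul_const r),
        ← integral_add (((hi 0).mul_const _).fun_add (((hi 1).const_mul 2).mul_const r)) (hi 2)]
      refine setIntegral_nonneg (isCompact_box n).measurableSet fun x _ => ?_
      simp only [hg]
      nlinarith [mul_nonneg (Real.exp_pos (-W (p + (0 : ℝ) • θ, x) + 0 * logForm a x)).le
        (sq_nonneg (r + logForm a x))]
    have hd := discrim_le_zero key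
    rw [discrim] at hd
    nlinarith
  have hsym : D2 0 (0, 1) (1, 0) = D2 0 (1, 0) (0, 1) :=
    (hΛ.contDiffAt.isSymmSndFDerivAt (by simp)).eq _ _
  set A := D2 0 (1, 0) (1, 0)
  set B := D2 0 (1, 0) (0, 1)
  have key : ∀ c : ℝ, 0 ≤ (2 * ∑ i, a i ^ 2) * (c * c) + 2 * B * c + A := fun c => by
    have h := hc c
    have e : ((1, c) : ℝ × ℝ) = (1, 0) + c • ((0, 1) : ℝ × ℝ) := by simp
    rw [e] at h
    simp only [D2, map_add, map_smul, add_apply, smul_apply, smul_eq_mul] at h hV hsym
    simp only [A, B, D2]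
    rw [hsym] at h
    nlinarith [mul_nonpos_of_nonneg_of_nonpos (mul_self_nonneg c) hV]
  rw [hψ, hφ']
  refine ⟨by simpa using key 0, ?_⟩
  have hd := discrim_le_zero key
  rw [discrim] at hd
  nlinarith

/-- The sum over the coordinates of the squared slopes of the mean logarithms is at most twice the
curvature of the slice energy. -/
theorem sum_sq_deriv_le (hδ : 0 < δ) (hL : δ < L) {W : P × (Fin n → ℝ) → ℝ} (hW : ContDiff ℝ 2 W)
    (hconv : ConvexOn ℝ univ W) (p θ : P) (hmono : MonotoneOn (fun x => W (p, x)) (box δ L n)) :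
    ∑ i, deriv (sliceMean δ L W p θ (Pi.single i 1)) 0 ^ 2 ≤
      2 * deriv (deriv (sliceEnergy δ L W p θ)) 0 := by
  set b : Fin n → ℝ := fun i => deriv (sliceMean δ L W p θ (Pi.single i 1)) 0 with hb
  have hdiff : ∀ i, DifferentiableAt ℝ (sliceMean δ L W p θ (Pi.single i 1)) 0 := fun i => by
    have hc : ContDiff ℝ 1 (sliceMean δ L W p θ (Pi.single i 1)) := by
      have hg : ∀ (e : Fin n → ℝ), ∀ s : ℝ, ∀ x ∈ box δ L n, ContDiffAt ℝ 1
          (fun z : ℝ × (Fin n → ℝ) => Real.exp (-W (p + z.1 • θ, z.2)) * logForm e z.2) (s, x) := by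
        intro e s x hx
        refine ((hW.of_le one_le_two).comp ((contDiff_const.add (contDiff_fst.smul
          contDiff_const)).prodMk contDiff_snd)).contDiffAt.neg.exp.mul ?_
        exact ContDiffAt.sum fun j _ => contDiffAt_const.mul
          (((contDiff_apply ℝ ℝ j).comp contDiff_snd).contDiffAt.log
            (hδ.trans_le (hx j trivial).1).ne')
      have h0 : ∀ s : ℝ, ∀ x ∈ box δ L n, ContDiffAt ℝ 1
          (fun z : ℝ × (Fin n → ℝ) => Real.exp (-W (p + z.1 • θ, z.2))) (s, x) := fun s x _ =>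
        ((hW.of_le one_le_two).comp ((contDiff_const.add (contDiff_fst.smul
          contDiff_const)).prodMk contDiff_snd)).contDiffAt.neg.exp
      exact (contDiff_one_setIntegral (isCompact_box n) (hg _)).fun_div
        (contDiff_one_setIntegral (isCompact_box n) h0) fun s =>
        (setIntegral_box_pos hL (fun x hx => ((h0 s x hx).continuousAt.comp
          (f := fun z => (s, z)) (by fun_prop)).continuousWithinAt) fun _ _ => Real.exp_pos _).ne'
    exact hc.differentiable one_ne_zero 0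
  have hlin : deriv (sliceMean δ L W p θ b) 0 = ∑ i, b i ^ 2 := by
    have e : sliceMean δ L W p θ b =
        fun s => ∑ i, b i * sliceMean δ L W p θ (Pi.single i 1) s := by
      funext s
      simp only [sliceMean, ← mul_div_assoc, ← Finset.sum_div, ← integral_const_mul]
      rw [← integral_finsetSum]
      · congr 1
        refine integral_congr_ae (Filter.Eventually.of_forall fun x => ?_)
        simp [logForm, Pi.single_apply, Finset.mul_sum]
        exact Finset.sum_congr rfl fun i _ => by ring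
      · intro i _
        refine Integrable.const_mul ?_ _
        refine ContinuousOn.integrableOn_compact (isCompact_box n) ?_
        exact ((hW.continuous.comp (continuous_const.prodMk continuous_id)).neg.rexp).continuousOn.mul
          (continuousOn_finsetSum _ fun j _ => continuousOn_const.mul
            ((continuous_apply j).continuousOn.log fun x hx => (hδ.trans_le (hx j trivial).1).ne'))
    rw [e, deriv_fun_sum fun i _ => (hdiff i).const_mul _]
    exact Finset.sum_congr rfl fun i _ => by rw [deriv_const_mul_field]; simp [hb, sq]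
  obtain ⟨h0, h⟩ := slice_bounds hδ hL hW hconv p θ hmono b
  rw [hlin] at h
  rcases (Finset.sum_nonneg fun i (_ : i ∈ Finset.univ) => sq_nonneg (b i)).eq_or_lt with hz | hz
  · show ∑ i, b i ^ 2 ≤ _
    rw [← hz]; linarith
  · show ∑ i, b i ^ 2 ≤ _
    nlinarith

end Vale.Agent.P254.Unc
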