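import Vale.Agent.P254.Unc.CertDef

/-!
# P254: the certificate functions are calibrations

Beyond `Z` the splines are constant and the inequality follows by completing the square in `β`.
-/

open Real Filter
open scoped Topology

namespace Vale.Agent.P254.Unc.Cert

theorem hasDerivAt_trunc (n : ℕ) (k z : ℝ) :
    HasDerivAt (fun y => max (k - y) 0 ^ (n + 2))
      (-((n + 2 : ℕ) : ℝ) * max (k - z) 0 ^ (n + 1)) z := by
  rcases lt_trichotomy z k with h | h | h
  · rw [max_eq_left (sub_nonneg.2 h.le)]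
    refine (((hasDerivAt_id' z).const_sub k).fun_pow (n + 2)).congr_of_eventuallyEq ?_ |>.congr_deriv ?_
    · filter_upwards [eventually_lt_nhds h] with y hy using by rw [max_eq_left (sub_nonneg.2 hy.le)]
    · simp; ring
  · subst h
    rw [sub_self, max_self, zero_pow (Nat.succ_ne_zero n), mul_zero]
    have hO : (fun y => max (z - y) 0 ^ (n + 2)) =O[𝓝 z] fun y => ‖y - z‖ ^ (n + 2) :=
      Asymptotics.IsBigO.of_norm_le fun y => by
        rw [norm_pow]
        refine pow_le_pow_left₀ (norm_nonneg _) ?_ _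
        rw [Real.norm_eq_abs, Real.norm_eq_abs, abs_of_nonneg (le_max_right _ _), abs_sub_comm]
        exact max_le (le_abs_self _) (abs_nonneg _)
    simpa using (hO.hasFDerivAt (by omega)).hasDerivAt
  · rw [max_eq_right (sub_nonpos.2 h.le), zero_pow (Nat.succ_ne_zero n), mul_zero]
    refine (hasDerivAt_const z (0 : ℝ)).congr_of_eventuallyEq ?_
    filter_upwards [eventually_gt_nhds h] with y hy
    rw [max_eq_right (sub_nonpos.2 hy.le), zero_pow (Nat.succ_ne_zero _)]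

theorem hasDerivAt_cubes (l : List (ℚ × ℚ)) (z : ℝ) :
    HasDerivAt (fun y => (l.map fun kv => (kv.2 : ℝ) * max ((kv.1 : ℝ) - y) 0 ^ 3).sum)
      ((l.map fun kv => -(3 * (kv.2 : ℝ)) * max ((kv.1 : ℝ) - z) 0 ^ 2).sum) z := by
  induction l with
  | nil => simpa using hasDerivAt_const z (0 : ℝ)
  | cons kv l ih =>
    simp only [List.map_cons, List.sum_cons]
    exact (((hasDerivAt_trunc 1 (kv.1 : ℝ) z).const_mul (kv.2 : ℝ)).congr_deriv
      (by push_cast; ring)).fun_add ih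

theorem Spl.hasDerivAt (S : Spl) (z : ℝ) : HasDerivAt S.val (S.der z) z :=
  ((((hasDerivAt_cubes S.cubes z).const_add (S.c : ℝ)).fun_add
    (((hasDerivAt_trunc 0 (S.top : ℝ) z).const_mul (S.e : ℝ))))).congr_deriv (by
      simp only [Spl.der]; push_cast; ring)

theorem Spl.continuous_val (S : Spl) : Continuous S.val :=
  continuous_iff_continuousAt.2 fun z => (S.hasDerivAt z).continuousAt

theorem Spl.flat {S : Spl} {Z : ℚ} (h : S.flatOk Z = true) {z : ℝ} (hz : (Z : ℝ) ≤ z) :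
    S.val z = (S.c : ℝ) ∧ S.der z = 0 := by
  simp only [Spl.flatOk, Bool.and_eq_true, decide_eq_true_eq, List.all_eq_true] at h
  have ht : max ((S.top : ℝ) - z) 0 = 0 :=
    max_eq_right (sub_nonpos.2 ((Rat.cast_le.2 h.1).trans hz))
  have hk : ∀ kv ∈ S.cubes, max ((kv.1 : ℝ) - z) 0 = 0 := fun kv hkv =>
    max_eq_right (sub_nonpos.2 ((Rat.cast_le.2 (h.2 kv hkv)).trans hz))
  constructor
  · rw [Spl.val, ht, List.sum_eq_zero (by
      simp only [List.mem_map, forall_exists_index, and_imp]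
      rintro _ kv hkv rfl; simp [hk kv hkv])]
    simp
  · rw [Spl.der, ht, List.sum_eq_zero (by
      simp only [List.mem_map, forall_exists_index, and_imp]
      rintro _ kv hkv rfl; simp [hk kv hkv])]
    simp

theorem Spl.bdd {S : Spl} {Z : ℚ} (h : S.flatOk Z = true) :
    ∃ M : ℝ, ∀ z : ℝ, 0 ≤ z → |S.val z| ≤ M := by
  obtain ⟨M, hM⟩ := isCompact_Icc.exists_bound_of_continuousOn
    (s := Set.Icc (0 : ℝ) (max 0 (Z : ℝ))) S.continuous_val.continuousOn
  refine ⟨max M |(S.c : ℝ)|, fun z hz => ?_⟩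
  rcases le_total z (max 0 (Z : ℝ)) with h' | h'
  · exact (hM z ⟨hz, h'⟩).trans (le_max_left _ _)
  · rw [(Spl.flat h ((le_max_right _ _).trans h')).1]; exact le_max_right _ _

theorem kOne_eq (z : ℝ) :
    kOne z = -(exp z * ((1 - exp (-z)) * Real.log (1 - exp (-z)))) := by
  rw [kOne, ← mul_assoc, mul_sub, mul_one, ← exp_add, add_neg_cancel, exp_zero]

theorem continuous_kOne : Continuous kOne := by
  rw [funext kOne_eq]
  exact (continuous_exp.mul (continuous_mul_log.comp (by fun_prop : Continuous fun z : ℝ =>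
    1 - exp (-z)))).neg

theorem exp_sub_one_pos {z : ℝ} (hz : 0 < z) : 0 < exp z - 1 := sub_pos.2 (one_lt_exp_iff.2 hz)

theorem one_sub_exp_neg_pos {z : ℝ} (hz : 0 < z) : 0 < 1 - exp (-z) :=
  sub_pos.2 (exp_lt_one_iff.2 (neg_neg_of_pos hz))

theorem hasDerivAt_kOne {z : ℝ} (hz : 0 < z) :
    HasDerivAt kOne (kOne z * exp z / (exp z - 1) - 1) z := by
  refine (((hasDerivAt_exp z).sub_const 1).fun_mul
    ((((hasDerivAt_neg z).exp).const_sub 1).log (one_sub_exp_neg_pos hz).ne')).fun_neg.congr_deriv ?_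
  have h1 := (exp_sub_one_pos hz).ne'
  have h2 := (one_sub_exp_neg_pos hz).ne'
  rw [kOne, exp_neg] at *
  have := (exp_pos z).ne'
  field_simp
  ring

theorem kOne_mem {z : ℝ} (hz : 0 ≤ z) : kOne z ∈ Set.Icc 0 1 := by
  rcases hz.eq_or_lt with rfl | hz
  · simp [kOne]
  have hE := exp_sub_one_pos hz
  have hF := one_sub_exp_neg_pos hz
  refine ⟨?_, ?_⟩
  · rw [kOne, neg_nonneg]
    exact mul_nonpos_of_nonneg_of_nonpos hE.le (log_nonpos hF.le (by linarith [exp_pos (-z)]))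
  · have h1 := one_sub_inv_le_log_of_pos hF
    have e : (exp z - 1) * ((1 - exp (-z))⁻¹ - 1) = 1 := by
      rw [exp_neg]
      have := (exp_pos z).ne'
      have := hE.ne'
      field_simp
      ring
    rw [kOne, ← mul_neg]
    exact (mul_le_mul_of_nonneg_left (by linarith) hE.le).trans_eq e

theorem dMax_le_one {z : ℝ} (hz : 0 < z) : 1 / z - 1 / (exp z - 1) ≤ 1 := by
  have hE := exp_sub_one_pos hz
  rw [div_sub_div _ _ hz.ne' hE.ne', div_le_one (mul_pos hz hE)]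
  have h1 := mul_le_mul_of_nonneg_left (add_one_le_exp (-z)) (exp_pos z).le
  rw [← exp_add, add_neg_cancel, exp_zero] at h1
  linarith

theorem log_ratio_mem {z r : ℝ} (hz : 0 < z) (h1 : z ≤ r) (h2 : r ≤ exp z - 1) :
    Real.log ((exp z - 1) / r) ∈ Set.Icc 0 z := by
  have hr := hz.trans_le h1
  refine ⟨log_nonneg ((one_le_div hr).2 h2), (log_le_iff_le_exp (div_pos (exp_sub_one_pos hz) hr)).2 ?_⟩
  rw [div_le_iff₀ hr]
  have h3 := mul_le_mul_of_nonneg_left (add_one_le_exp (-z)) (exp_pos z).le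
  rw [← exp_add, add_neg_cancel, exp_zero] at h3
  have h4 := mul_le_mul_of_nonneg_left h1 (exp_pos z).le
  linarith

/-- The partial derivative in `z`. -/
noncomputable def Data.Wz (C : Data) (z r : ℝ) : ℝ :=
  -(kOne z * exp z / (exp z - 1)) + exp z / (exp z - 1) + C.a.der z +
    (C.r1.val z + z * C.r1.der z) * (1 / r - 1 / (exp z - 1)) +
    (C.r2.val z + z * C.r2.der z) * (1 / r - 1 / (exp z - 1)) ^ 2 +
    z * (C.r1.val z + 2 * C.r2.val z * (1 / r - 1 / (exp z - 1))) * (exp z / (exp z - 1) ^ 2)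

/-- The partial derivative in `r`. -/
noncomputable def Data.Wr (C : Data) (z r : ℝ) : ℝ :=
  -(1 / r) - z * (C.r1.val z + 2 * C.r2.val z * (1 / r - 1 / (exp z - 1))) / r ^ 2

theorem Data.W_zero (C : Data) : C.W 0 0 = C.a.val 0 := by simp [Data.W, kOne]

theorem Data.hasFDerivAt_W (C : Data) {z r : ℝ} (hz : 0 < z) (hr : 0 < r) :
    HasFDerivAt (Function.uncurry C.W)
      (C.Wz z r • ContinuousLinearMap.fst ℝ ℝ ℝ + C.Wr z r • ContinuousLinearMap.snd ℝ ℝ ℝ) (z, r) := by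
  have h1 : HasFDerivAt (fun p : ℝ × ℝ => p.1) (ContinuousLinearMap.fst ℝ ℝ ℝ) (z, r) := hasFDerivAt_fst
  have h2 : HasFDerivAt (fun p : ℝ × ℝ => p.2) (ContinuousLinearMap.snd ℝ ℝ ℝ) (z, r) := hasFDerivAt_snd
  have hE := ((hasDerivAt_exp z).sub_const 1)
  have hE0 := (exp_sub_one_pos hz).ne'
  have hA := (((hasDerivAt_id' z).fun_neg.fun_sub (hasDerivAt_kOne hz)).fun_add
    (hE.log hE0)).fun_add (C.a.hasDerivAt z)
  have hA2 := hA.comp_hasFDerivAt (z, r) h1
  have hlr := (Real.hasDerivAt_log hr.ne').comp_hasFDerivAt (z, r) h2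
  have hd := ((hasDerivAt_inv hr.ne').comp_hasFDerivAt (z, r) h2).fun_sub
    ((hE.fun_inv hE0).comp_hasFDerivAt (z, r) h1)
  have p1 := ((hasDerivAt_id' z).fun_mul (C.r1.hasDerivAt z)).comp_hasFDerivAt (z, r) h1
  have p2 := ((hasDerivAt_id' z).fun_mul (C.r2.hasDerivAt z)).comp_hasFDerivAt (z, r) h1
  have hall := (hA2.fun_sub hlr).fun_add ((p1.fun_mul hd).fun_add (p2.fun_mul (hd.fun_mul hd)))
  refine (hall.congr_of_eventuallyEq ?_).congr_fderiv ?_
  · filter_upwards [(continuous_fst.tendsto (z, r)).eventually (eventually_gt_nhds hz),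
      (continuous_snd.tendsto (z, r)).eventually (eventually_gt_nhds hr)] with p hp1 hp2
    simp only [Function.uncurry, Data.W, Function.comp]
    rw [Real.log_div (exp_sub_one_pos hp1).ne' hp2.ne']
    simp only [one_div]
    ring
  · refine ContinuousLinearMap.ext fun v => ?_
    simp [Data.Wz, Data.Wr]
    field_simp
    ring

theorem Data.flow_eq (C : Data) {z r : ℝ} (β : ℝ) (hz : 0 < z) (hr : 0 < r) :
    -Real.log r - (C.kap : ℝ) * Omega z r - 2 * (C.s : ℝ) * (β - z * β ^ 2) +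
      (C.Wz z r + C.Wr z r * (1 + β * r) - C.W z r) =
    C.gExpr z (1 / r - 1 / (exp z - 1)) β (z / (exp z - 1)) (kOne z) := by
  have hE := (exp_sub_one_pos hz).ne'
  have hl : Real.log (1 - exp (-z)) = Real.log (exp z - 1) - z := by
    rw [show 1 - exp (-z) = (exp z - 1) / exp z by rw [exp_neg]; field_simp,
      Real.log_div hE (exp_pos z).ne', Real.log_exp]
  simp only [Omega, Data.Wz, Data.Wr, Data.W, Data.gExpr, kOne]
  rw [hl, Real.log_div hE hr.ne', exp_neg]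
  have := (exp_pos z).ne'
  field_simp
  ring

theorem Data.gExpr_tail {C : Data} (h : C.tailOk = true) {z d β k : ℝ} (B : ℝ) (hz : (C.Z : ℝ) ≤ z)
    (hd : 0 ≤ d) (hd' : d ≤ 1 / z) (hk : k ≤ 1) :
    (C.K : ℝ) ≤ C.gExpr z d β B k := by
  simp only [Data.tailOk, Bool.and_eq_true, decide_eq_true_eq] at h
  obtain ⟨⟨⟨⟨⟨⟨⟨⟨hZ, hκ⟩, hs⟩, fa⟩, f1⟩, f2⟩, c1⟩, c2⟩, hK⟩ := h
  have hZ' : (0 : ℝ) < C.Z := by exact_mod_cast hZ
  have hκ' : (0 : ℝ) ≤ C.kap := by exact_mod_cast hκ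
  have hs' : (0 : ℝ) < C.s := by exact_mod_cast hs
  have hK' : (C.a.c : ℝ) ≤ 1 - C.K - (1 + 3 * C.kap) / C.Z - (1 + 2 * C.s) ^ 2 / (8 * C.s * C.Z) := by
    exact_mod_cast hK
  obtain ⟨a1, a2⟩ := Spl.flat fa hz
  obtain ⟨r11, r12⟩ := Spl.flat f1 hz
  obtain ⟨r21, r22⟩ := Spl.flat f2 hz
  rw [c1, Rat.cast_zero] at r11
  rw [c2, Rat.cast_zero] at r21
  have hz0 : 0 < z := hZ'.trans_le hz
  have hdZ : d ≤ 1 / (C.Z : ℝ) := hd'.trans (one_div_le_one_div_of_le hZ' hz)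
  have h2 : z * d ^ 2 ≤ 1 / (C.Z : ℝ) := by
    have : z * d ≤ 1 := by rw [mul_comm]; exact (le_div_iff₀ hz0).1 hd'
    nlinarith
  have h3 : 2 * k * d + z * d ^ 2 ≤ 3 / (C.Z : ℝ) := by
    have := mul_le_mul_of_nonneg_right hk hd
    rw [show (3 : ℝ) / C.Z = 3 * (1 / C.Z) by ring]
    linarith
  have h4 := mul_le_mul_of_nonneg_left h3 hκ'
  have h5 : β + 2 * C.s * (β - z * β ^ 2) ≤ (1 + 2 * C.s) ^ 2 / (8 * C.s * C.Z) := by
    rw [le_div_iff₀ (by positivity)]
    nlinarith [sq_nonneg (4 * C.s * C.Z * β - (1 + 2 * C.s)),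
      mul_le_mul_of_nonneg_right hz (by positivity : 0 ≤ 16 * (C.s : ℝ) ^ 2 * C.Z * β ^ 2)]
  have e : (1 + 3 * (C.kap : ℝ)) / C.Z = 1 / C.Z + C.kap * (3 / C.Z) := by ring
  simp only [Data.gExpr, a1, a2, r11, r12, r21, r22]
  rw [e] at hK'
  linarith

/-- **The certificate functions are calibrations.** -/
theorem Data.calib (C : Data) (h : C.tailOk = true) (hM : C.Main) :
    Calib C.W C.Wz C.Wr (C.kap : ℝ) (C.s : ℝ) (C.K : ℝ) := by
  have h' := h
  simp only [Data.tailOk, Bool.and_eq_true, decide_eq_true_eq] at h'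
  obtain ⟨⟨⟨⟨⟨⟨⟨⟨-, -⟩, -⟩, fa⟩, f1⟩, f2⟩, -⟩, -⟩, -⟩ := h'
  obtain ⟨Ma, hMa⟩ := Spl.bdd fa
  obtain ⟨M1, hM1⟩ := Spl.bdd f1
  obtain ⟨M2, hM2⟩ := Spl.bdd f2
  have M0 : 0 ≤ Ma ∧ 0 ≤ M1 ∧ 0 ≤ M2 := ⟨(abs_nonneg _).trans (hMa 0 le_rfl),
    (abs_nonneg _).trans (hM1 0 le_rfl), (abs_nonneg _).trans (hM2 0 le_rfl)⟩
  -- the part singular at the origin
  have small : ∀ p ∈ calibDom, |Real.log ((exp p.1 - 1) / p.2) + p.1 * (C.r1.val p.1 *
      (1 / p.2 - 1 / (exp p.1 - 1)) + C.r2.val p.1 * (1 / p.2 - 1 / (exp p.1 - 1)) ^ 2)| ≤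
      (1 + M1 + M2) * p.1 := by
    rintro ⟨z, r⟩ ⟨h0, h1, h2⟩
    simp only at h0 h1 h2 ⊢
    rcases h0.eq_or_lt with rfl | hz
    · simp
    have hr := hz.trans_le h1
    have hd0 : 0 ≤ 1 / r - 1 / (exp z - 1) := sub_nonneg.2 (one_div_le_one_div_of_le hr h2)
    have hd1 : 1 / r - 1 / (exp z - 1) ≤ 1 :=
      (sub_le_sub_right (one_div_le_one_div_of_le hz h1) _).trans (dMax_le_one hz)
    set d := 1 / r - 1 / (exp z - 1)
    obtain ⟨l0, l1⟩ := log_ratio_mem hz h1 h2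
    have a1 : |C.r1.val z * d| ≤ M1 := by
      rw [abs_mul, abs_of_nonneg hd0]
      exact (mul_le_of_le_one_right (abs_nonneg _) hd1).trans (hM1 z h0)
    have a2 : |C.r2.val z * d ^ 2| ≤ M2 := by
      rw [abs_mul, abs_of_nonneg (sq_nonneg d)]
      exact (mul_le_of_le_one_right (abs_nonneg _) (pow_le_one₀ hd0 hd1)).trans (hM2 z h0)
    calc _ ≤ |Real.log ((exp z - 1) / r)| + |z * (C.r1.val z * d + C.r2.val z * d ^ 2)| :=
          abs_add_le _ _
      _ ≤ z + z * (M1 + M2) := by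
          refine add_le_add ((abs_of_nonneg l0).le.trans l1) ?_
          rw [abs_mul, abs_of_nonneg h0]
          exact mul_le_mul_of_nonneg_left ((abs_add_le _ _).trans (add_le_add a1 a2)) h0
      _ = _ := by ring
  have hW : ∀ p : ℝ × ℝ, C.W p.1 p.2 = (-p.1 - kOne p.1 + C.a.val p.1) +
      (Real.log ((exp p.1 - 1) / p.2) + p.1 * (C.r1.val p.1 * (1 / p.2 - 1 / (exp p.1 - 1)) +
        C.r2.val p.1 * (1 / p.2 - 1 / (exp p.1 - 1)) ^ 2)) := fun p => by rw [Data.W]; ring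
  refine ⟨?_, ⟨Ma + 3 + M1 + M2, 1, fun p hp => ?_⟩, fun z r hz h1 _ =>
    C.hasFDerivAt_W hz (hz.trans_le h1), fun z r β hz h1 h2 b0 b1 => ?_⟩
  · intro p hp
    rcases hp.1.eq_or_lt with h0 | hz
    · have hp2 : p.2 = 0 := le_antisymm (by simpa [← h0] using hp.2.2) (h0.le.trans hp.2.1)
      obtain rfl : p = (0, 0) := Prod.ext h0.symm hp2
      have t1 : Tendsto (fun q : ℝ × ℝ => -q.1 - kOne q.1 + C.a.val q.1)
          (𝓝[calibDom] (0, 0)) (𝓝 (C.a.val 0)) := by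
        have hc : Continuous fun q : ℝ × ℝ => -q.1 - kOne q.1 + C.a.val q.1 :=
          (continuous_fst.neg.sub (continuous_kOne.comp continuous_fst)).add
            (C.a.continuous_val.comp continuous_fst)
        simpa [kOne] using (hc.tendsto (0, 0)).mono_left nhdsWithin_le_nhds
      have t2 : Tendsto (fun q : ℝ × ℝ => Real.log ((exp q.1 - 1) / q.2) + q.1 * (C.r1.val q.1 *
          (1 / q.2 - 1 / (exp q.1 - 1)) + C.r2.val q.1 * (1 / q.2 - 1 / (exp q.1 - 1)) ^ 2))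
          (𝓝[calibDom] (0, 0)) (𝓝 0) := by
        refine squeeze_zero_norm' (a := fun q : ℝ × ℝ => (1 + M1 + M2) * q.1) ?_ ?_
        · filter_upwards [self_mem_nhdsWithin] with q hq using by
            rw [Real.norm_eq_abs]; exact small q hq
        · have := ((by fun_prop : Continuous fun q : ℝ × ℝ => (1 + M1 + M2) * q.1).tendsto
            (0, 0)).mono_left (nhdsWithin_le_nhds (s := calibDom))
          simpa using this
      show Tendsto (Function.uncurry C.W) (𝓝[calibDom] (0, 0)) (𝓝 (C.W 0 0))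
      rw [C.W_zero, ← add_zero (C.a.val 0)]
      exact (t1.add t2).congr fun q => (hW q).symm
    · exact ((C.hasFDerivAt_W hz (hz.trans_le hp.2.1)).continuousAt).continuousWithinAt
  · rw [hW, pow_one]
    obtain ⟨k0, k1⟩ := kOne_mem hp.1
    have a0 := abs_le.1 (hMa p.1 hp.1)
    have b0 := abs_le.1 (small p hp)
    have := mul_nonneg M0.1 hp.1
    rw [abs_le]
    constructor <;> nlinarith [hp.1, M0.2.1, M0.2.2]
  · have hr := hz.trans_le h1
    have hd0 : 0 ≤ 1 / r - 1 / (exp z - 1) := sub_nonneg.2 (one_div_le_one_div_of_le hr h2)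
    have hd1 : 1 / r - 1 / (exp z - 1) ≤ 1 / z - 1 / (exp z - 1) :=
      sub_le_sub_right (one_div_le_one_div_of_le hz h1) _
    rw [C.flow_eq β hz hr]
    rcases le_total z (C.Z : ℝ) with hZ | hZ
    · exact hM z _ β hz hZ hd0 hd1 b0 b1
    · exact C.gExpr_tail h _ hZ hd0
        (hd1.trans (sub_le_self _ (one_div_nonneg.2 (exp_sub_one_pos hz).le))) (kOne_mem hz.le).2

end Vale.Agent.P254.Unc.Cert
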