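import Mathlib

/-!
# P254: nonnegativity of polynomials on the unit square

A polynomial is the list of its integer coefficients over a common denominator. It is rewritten in
the homogeneous (Bernstein) basis `x ^ i * (1 - x) ^ (n - i)`; nonnegative coefficients there give
nonnegativity on `[0, 1]`. The recursions are written with `List.rec`, which the kernel evaluates
faster.
-/

namespace Vale.Agent.P254.Unc.Cert

/-- A univariate integer polynomial. -/
abbrev Poly1 := List ℤ

/-- A bivariate integer polynomial. -/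
abbrev ZPoly2 := List Poly1

/-- A bivariate polynomial: `den - 1` and the numerator. -/
abbrev Poly2 := ℕ × ZPoly2

/-- Padded addition. -/
noncomputable def add1 (p : Poly1) : Poly1 → Poly1 :=
  List.rec (motive := fun _ => Poly1 → Poly1) (fun q => q)
    (fun a _ ih q => List.rec (motive := fun _ => Poly1) (a :: ih []) (fun b q' _ => (a + b) :: ih q') q) p

theorem add1_nil (q : Poly1) : add1 [] q = q := rfl

theorem add1_cons_cons (a b : ℤ) (p q : Poly1) : add1 (a :: p) (b :: q) = (a + b) :: add1 p q := rfl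

theorem add1_nil_right : ∀ p : Poly1, add1 p [] = p
  | [] => rfl
  | a :: p => congrArg (List.cons a) (add1_nil_right p)

/-- Scaling. -/
noncomputable def smul1 (c : ℤ) (p : Poly1) : Poly1 :=
  List.rec (motive := fun _ => Poly1) [] (fun a _ ih => c * a :: ih) p

theorem smul1_nil (c : ℤ) : smul1 c [] = [] := rfl

theorem smul1_cons (c a : ℤ) (p : Poly1) : smul1 c (a :: p) = c * a :: smul1 c p := rfl

/-- Multiplication. -/
noncomputable def mul1 (p q : Poly1) : Poly1 :=
  List.rec (motive := fun _ => Poly1) [] (fun a _ ih => add1 (smul1 a q) (0 :: ih)) p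

theorem mul1_nil (q : Poly1) : mul1 [] q = [] := rfl

theorem mul1_cons (a : ℤ) (p q : Poly1) : mul1 (a :: p) q = add1 (smul1 a q) (0 :: mul1 p q) := rfl

/-- Evaluation. -/
noncomputable def ev1 : Poly1 → ℝ → ℝ
  | [], _ => 0
  | a :: p, t => (a : ℝ) + t * ev1 p t

theorem ev1_add : ∀ (p q : Poly1) (t : ℝ), ev1 (add1 p q) t = ev1 p t + ev1 q t
  | [], q, t => by simp [add1_nil, ev1]
  | a :: p, [], t => by simp [add1_nil_right, ev1]
  | a :: p, b :: q, t => by simp [add1_cons_cons, ev1, ev1_add p q t]; ring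

theorem ev1_smul (c : ℤ) : ∀ (p : Poly1) (t : ℝ), ev1 (smul1 c p) t = c * ev1 p t
  | [], t => by simp [smul1_nil, ev1]
  | a :: p, t => by simp [smul1_cons, ev1, ev1_smul c p t]; ring

theorem ev1_mul : ∀ (p q : Poly1) (t : ℝ), ev1 (mul1 p q) t = ev1 p t * ev1 q t
  | [], q, t => by simp [mul1_nil, ev1]
  | a :: p, q, t => by
    simp only [mul1_cons, ev1_add, ev1_smul, ev1, ev1_mul p q t, Int.cast_zero]
    ring

/-- Padded addition. -/
noncomputable def addZ (p : ZPoly2) : ZPoly2 → ZPoly2 :=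
  List.rec (motive := fun _ => ZPoly2 → ZPoly2) (fun q => q)
    (fun a _ ih q => List.rec (motive := fun _ => ZPoly2) (a :: ih []) (fun b q' _ => add1 a b :: ih q') q) p

theorem addZ_nil (q : ZPoly2) : addZ [] q = q := rfl

theorem addZ_cons_cons (a b : Poly1) (p q : ZPoly2) : addZ (a :: p) (b :: q) = add1 a b :: addZ p q :=
  rfl

theorem addZ_nil_right : ∀ p : ZPoly2, addZ p [] = p
  | [] => rfl
  | a :: p => congrArg (List.cons a) (addZ_nil_right p)

/-- Multiplication by a polynomial in the second variable. -/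
noncomputable def smulZ (c : Poly1) (p : ZPoly2) : ZPoly2 :=
  List.rec (motive := fun _ => ZPoly2) [] (fun a _ ih => mul1 c a :: ih) p

/-- Scaling by an integer. -/
noncomputable def scaleZ (c : ℤ) (p : ZPoly2) : ZPoly2 :=
  List.rec (motive := fun _ => ZPoly2) [] (fun a _ ih => smul1 c a :: ih) p

/-- Multiplication. -/
noncomputable def mulZ (p q : ZPoly2) : ZPoly2 :=
  List.rec (motive := fun _ => ZPoly2) [] (fun a _ ih => addZ (smulZ a q) ([] :: ih)) p

/-- Evaluation of the numerator. -/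
noncomputable def evZ : ZPoly2 → ℝ → ℝ → ℝ
  | [], _, _ => 0
  | a :: p, x, t => ev1 a t + x * evZ p x t

theorem evZ_add : ∀ (p q : ZPoly2) (x t : ℝ), evZ (addZ p q) x t = evZ p x t + evZ q x t
  | [], q, x, t => by simp [addZ_nil, evZ]
  | a :: p, [], x, t => by simp [addZ_nil_right, evZ]
  | a :: p, b :: q, x, t => by simp [addZ_cons_cons, evZ, ev1_add, evZ_add p q x t]; ring

theorem evZ_smul (c : Poly1) : ∀ (p : ZPoly2) (x t : ℝ), evZ (smulZ c p) x t = ev1 c t * evZ p x t
  | [], x, t => by simp [smulZ, evZ]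
  | a :: p, x, t => by
    rw [show smulZ c (a :: p) = mul1 c a :: smulZ c p from rfl]
    simp only [evZ, ev1_mul, evZ_smul c p x t]
    ring

theorem evZ_scale (c : ℤ) : ∀ (p : ZPoly2) (x t : ℝ), evZ (scaleZ c p) x t = c * evZ p x t
  | [], x, t => by simp [scaleZ, evZ]
  | a :: p, x, t => by
    rw [show scaleZ c (a :: p) = smul1 c a :: scaleZ c p from rfl]
    simp only [evZ, ev1_smul, evZ_scale c p x t]
    ring

theorem evZ_mul : ∀ (p q : ZPoly2) (x t : ℝ), evZ (mulZ p q) x t = evZ p x t * evZ q x t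
  | [], q, x, t => by simp [mulZ, evZ]
  | a :: p, q, x, t => by
    rw [show mulZ (a :: p) q = addZ (smulZ a q) ([] :: mulZ p q) from rfl]
    simp only [evZ_add, evZ_smul, evZ, evZ_mul p q x t, ev1]
    ring

/-- Evaluation. -/
noncomputable def ev2 (p : Poly2) (x t : ℝ) : ℝ := evZ p.2 x t / ((p.1 : ℝ) + 1)

/-- Sum. -/
noncomputable def add2 (p q : Poly2) : Poly2 :=
  ((p.1 + 1) * ((q.1 + 1) / Nat.gcd (p.1 + 1) (q.1 + 1)) - 1,
    addZ (scaleZ (((q.1 + 1) / Nat.gcd (p.1 + 1) (q.1 + 1) : ℕ) : ℤ) p.2)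
      (scaleZ (((p.1 + 1) / Nat.gcd (p.1 + 1) (q.1 + 1) : ℕ) : ℤ) q.2))

/-- Product. -/
noncomputable def mul2 (p q : Poly2) : Poly2 := ((p.1 + 1) * (q.1 + 1) - 1, mulZ p.2 q.2)

/-- A constant. -/
def const2 (c : ℚ) : Poly2 := (c.den - 1, [[c.num]])

/-- Scaling. -/
noncomputable def scale2 (c : ℚ) (p : Poly2) : Poly2 :=
  ((p.1 + 1) * c.den - 1, scaleZ c.num p.2)

/-- Difference. -/
noncomputable def sub2 (p q : Poly2) : Poly2 := add2 p (q.1, scaleZ (-1) q.2)

/-- The first variable. -/
def xP : Poly2 := (0, [[], [1]])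

/-- The second variable. -/
def tP : Poly2 := (0, [[0, 1]])

theorem cast_pred (a : ℕ) (h : 0 < a) : ((a - 1 : ℕ) : ℝ) + 1 = a := by
  rw [Nat.cast_sub h, Nat.cast_one]; ring

theorem ev2_add (p q : Poly2) (x t : ℝ) : ev2 (add2 p q) x t = ev2 p x t + ev2 q x t := by
  have hg : 0 < Nat.gcd (p.1 + 1) (q.1 + 1) := Nat.gcd_pos_of_pos_left _ (Nat.succ_pos _)
  obtain ⟨u, hu⟩ := Nat.gcd_dvd_left (p.1 + 1) (q.1 + 1)
  obtain ⟨v, hv⟩ := Nat.gcd_dvd_right (p.1 + 1) (q.1 + 1)
  set g := Nat.gcd (p.1 + 1) (q.1 + 1) with hgd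
  have hu0 : 0 < u := Nat.pos_of_mul_pos_left (show 0 < g * u by omega)
  have hv0 : 0 < v := Nat.pos_of_mul_pos_left (show 0 < g * v by omega)
  have ep : ((p.1 : ℝ) + 1) = g * u := by exact_mod_cast hu
  have eq : ((q.1 : ℝ) + 1) = g * v := by exact_mod_cast hv
  have du : (p.1 + 1) / g = u := by rw [hu, Nat.mul_div_cancel_left _ hg]
  have dv : (q.1 + 1) / g = v := by rw [hv, Nat.mul_div_cancel_left _ hg]
  simp only [ev2, add2, evZ_add, evZ_scale, ← hgd, du, dv]
  rw [cast_pred _ (Nat.mul_pos (Nat.succ_pos _) hv0), ep, eq]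
  push_cast
  rw [ep]
  field_simp

theorem ev2_mul (p q : Poly2) (x t : ℝ) : ev2 (mul2 p q) x t = ev2 p x t * ev2 q x t := by
  simp only [ev2, mul2, evZ_mul]
  rw [cast_pred _ (Nat.mul_pos (Nat.succ_pos _) (Nat.succ_pos _)), div_mul_div_comm]
  push_cast
  ring

theorem ev2_const (c : ℚ) (x t : ℝ) : ev2 (const2 c) x t = c := by
  simp only [ev2, const2, evZ, ev1, cast_pred _ c.den_pos, mul_zero, add_zero]
  rw [Rat.cast_def]

theorem ev2_scale (c : ℚ) (p : Poly2) (x t : ℝ) : ev2 (scale2 c p) x t = c * ev2 p x t := by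
  simp only [ev2, scale2, evZ_scale]
  rw [cast_pred _ (Nat.mul_pos (Nat.succ_pos _) c.den_pos), Rat.cast_def, div_mul_div_comm]
  push_cast
  ring

theorem ev2_sub (p q : Poly2) (x t : ℝ) : ev2 (sub2 p q) x t = ev2 p x t - ev2 q x t := by
  rw [sub2, ev2_add]; simp [ev2, evZ_scale]; ring

theorem ev2_xP (x t : ℝ) : ev2 xP x t = x := by simp [ev2, xP, evZ, ev1]

theorem ev2_tP (x t : ℝ) : ev2 tP x t = t := by simp [ev2, tP, evZ, ev1]

/-- The coefficients of `(x + y) ^ n`. -/
noncomputable def row (n : ℕ) : Poly1 :=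
  Nat.rec (motive := fun _ => Poly1) [1] (fun _ ih => add1 ih (0 :: ih)) n

theorem row_succ (n : ℕ) : row (n + 1) = add1 (row n) (0 :: row n) := rfl

/-- Coefficients in the basis `x ^ i * (1 - x) ^ (n - i)`, `n + 1` the length. -/
noncomputable def hom1 (p : Poly1) : Poly1 :=
  List.rec (motive := fun _ => Poly1) [] (fun a l ih => add1 (smul1 a (row l.length)) (0 :: ih)) p

theorem hom1_cons (a : ℤ) (p : Poly1) :
    hom1 (a :: p) = add1 (smul1 a (row p.length)) (0 :: hom1 p) := rfl

/-- The homogeneous evaluation `∑ cᵢ x ^ i y ^ (n - i)`. -/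
noncomputable def evh1 : Poly1 → ℝ → ℝ → ℝ
  | [], _, _ => 0
  | a :: p, x, y => (a : ℝ) * y ^ p.length + x * evh1 p x y

theorem length_add1 : ∀ p q : Poly1, (add1 p q).length = max p.length q.length
  | [], q => by simp [add1_nil]
  | a :: p, [] => by simp [add1_nil_right]
  | a :: p, b :: q => by simp [add1_cons_cons, length_add1 p q]

theorem length_smul1 (c : ℤ) : ∀ p : Poly1, (smul1 c p).length = p.length
  | [] => rfl
  | a :: p => by simp [smul1_cons, length_smul1 c p]

theorem length_row : ∀ n, (row n).length = n + 1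
  | 0 => rfl
  | n + 1 => by simp [row_succ, length_add1, length_row n]

theorem length_hom1 : ∀ p : Poly1, (hom1 p).length = p.length
  | [] => rfl
  | a :: p => by simp [hom1_cons, length_add1, length_smul1, length_row, length_hom1 p]

theorem evh1_add : ∀ (p q : Poly1), p.length = q.length → ∀ x y : ℝ,
    evh1 (add1 p q) x y = evh1 p x y + evh1 q x y
  | [], [], _, x, y => by simp [add1_nil, evh1]
  | [], _ :: _, h, _, _ => by simp at h
  | _ :: _, [], h, _, _ => by simp at h
  | a :: p, b :: q, h, x, y => by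
    have h' : p.length = q.length := by simpa using h
    simp only [add1_cons_cons, evh1, length_add1, h', max_self, evh1_add p q h' x y, Int.cast_add]
    ring

theorem evh1_smul (c : ℤ) : ∀ (p : Poly1) (x y : ℝ), evh1 (smul1 c p) x y = c * evh1 p x y
  | [], x, y => by simp [smul1_nil, evh1]
  | a :: p, x, y => by simp [smul1_cons, evh1, length_smul1, evh1_smul c p x y]; ring

theorem evh1_shift : ∀ (p : Poly1) (c : ℤ) (x y : ℝ),
    evh1 (add1 p (c :: p)) x y = c * y ^ p.length + (x + y) * evh1 p x y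
  | [], c, x, y => by simp [add1_nil, evh1]
  | a :: p, c, x, y => by
    simp only [add1_cons_cons, evh1, evh1_shift p a x y, length_add1, List.length_cons,
      Nat.max_eq_right (Nat.le_succ p.length), Int.cast_add, pow_succ]
    ring

theorem evh1_row : ∀ (n : ℕ) (x : ℝ), evh1 (row n) x (1 - x) = 1
  | 0, x => by simp [row, evh1]
  | n + 1, x => by rw [row_succ, evh1_shift, evh1_row n x]; simp

theorem evh1_hom1 : ∀ (p : Poly1) (x : ℝ), evh1 (hom1 p) x (1 - x) = ev1 p x
  | [], x => rfl
  | a :: p, x => by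
    rw [hom1_cons, evh1_add _ _ (by simp [length_smul1, length_row, length_hom1]), evh1_smul, evh1_row]
    simp [evh1, ev1, evh1_hom1 p x]

theorem evh1_nonneg : ∀ (p : Poly1), p.all (fun c => decide (0 ≤ c)) = true → ∀ x y : ℝ,
    0 ≤ x → 0 ≤ y → 0 ≤ evh1 p x y
  | [], _, _, _, _, _ => le_rfl
  | a :: p, h, x, y, hx, hy => by
    simp only [List.all_cons, Bool.and_eq_true, decide_eq_true_eq] at h
    exact add_nonneg (mul_nonneg (by exact_mod_cast h.1) (pow_nonneg hy _))
      (mul_nonneg hx (evh1_nonneg p h.2 x y hx hy))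

/-- Padding to a given length. -/
noncomputable def pad1 (m : ℕ) (p : Poly1) : Poly1 := add1 p (List.replicate m 0)

/-- Scalar multiples of a row. -/
noncomputable def spread (w v : Poly1) : ZPoly2 :=
  List.rec (motive := fun _ => ZPoly2) [] (fun c _ ih => smul1 c v :: ih) w

/-- The transform in both variables, as a list of rows. -/
noncomputable def hom2 (m : ℕ) (p : ZPoly2) : ZPoly2 :=
  List.rec (motive := fun _ => ZPoly2) []
    (fun a l ih => addZ (spread (row l.length) (hom1 (pad1 m a))) ([] :: ih)) p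

theorem hom2_cons (m : ℕ) (a : Poly1) (p : ZPoly2) :
    hom2 m (a :: p) = addZ (spread (row p.length) (hom1 (pad1 m a))) ([] :: hom2 m p) := rfl

/-- The width. -/
noncomputable def width (p : ZPoly2) : ℕ :=
  List.rec (motive := fun _ => ℕ) 0 (fun a _ ih => max a.length ih) p

/-- All coefficients are nonnegative. -/
noncomputable def allNonneg (p : ZPoly2) : Bool := p.all fun r => r.all fun c => decide (0 ≤ c)

/-- All coefficients of the transform are nonnegative. -/
noncomputable def nonneg2 (p : Poly2) : Bool := allNonneg (hom2 (width p.2) p.2)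

theorem ev1_pad (m : ℕ) (p : Poly1) (t : ℝ) : ev1 (pad1 m p) t = ev1 p t := by
  have : ∀ k : ℕ, ev1 (List.replicate k 0) t = 0 := fun k => by
    induction k with
    | zero => rfl
    | succ k ih => simp [List.replicate_succ, ev1, ih]
  simp [pad1, ev1_add, this]

/-- The homogeneous evaluation in both variables. -/
noncomputable def evh2 : ZPoly2 → ℝ → ℝ → ℝ → ℝ
  | [], _, _, _ => 0
  | a :: p, x, y, t => evh1 a t (1 - t) * y ^ p.length + x * evh2 p x y t

theorem length_addZ : ∀ p q : ZPoly2, (addZ p q).length = max p.length q.length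
  | [], q => by simp [addZ_nil]
  | a :: p, [] => by simp [addZ_nil_right]
  | a :: p, b :: q => by simp [addZ_cons_cons, length_addZ p q]

theorem evh2_add : ∀ (m : ℕ) (p q : ZPoly2), p.length = q.length →
    (∀ r ∈ p, r.length = m) → (∀ r ∈ q, r = [] ∨ r.length = m) → ∀ x y t : ℝ,
    evh2 (addZ p q) x y t = evh2 p x y t + evh2 q x y t
  | m, [], [], _, _, _, x, y, t => by simp [addZ_nil, evh2]
  | _, [], _ :: _, h, _, _, _, _, _ => by simp at h
  | _, _ :: _, [], h, _, _, _, _, _ => by simp at h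
  | m, a :: p, b :: q, h, hp, hq, x, y, t => by
    have h' : p.length = q.length := by simpa using h
    have hab : evh1 (add1 a b) t (1 - t) = evh1 a t (1 - t) + evh1 b t (1 - t) := by
      rcases hq b (by simp) with rfl | hb
      · simp [add1_nil_right, evh1]
      · exact evh1_add a b (by rw [hp a (by simp), hb]) t (1 - t)
    simp only [addZ_cons_cons, evh2, length_addZ, h', max_self, hab,
      evh2_add m p q h' (fun r hr => hp r (by simp [hr])) (fun r hr => hq r (by simp [hr])) x y t]
    ring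

theorem addZ_rows (m : ℕ) : ∀ (P Q : ZPoly2), (∀ r ∈ P, r.length = m) →
    (∀ r ∈ Q, r = [] ∨ r.length = m) → P.length = Q.length → ∀ r ∈ addZ P Q, r.length = m
  | [], [], _, _, _, r, hr => by simp [addZ_nil] at hr
  | [], _ :: _, _, _, h, _, _ => by simp at h
  | _ :: _, [], _, _, h, _, _ => by simp at h
  | b :: P, c :: Q, hP, hQ, hl, r, hr => by
    rw [addZ_cons_cons, List.mem_cons] at hr
    rcases hr with rfl | hr
    · rcases hQ c (by simp) with rfl | hc
      · simpa [add1_nil_right] using hP b (by simp)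
      · simp [length_add1, hP b (by simp), hc]
    · exact addZ_rows m P Q (fun r hr => hP r (by simp [hr])) (fun r hr => hQ r (by simp [hr]))
        (by simpa using hl) r hr

theorem spread_eq (v : Poly1) : ∀ w : Poly1, spread w v = w.map fun c => smul1 c v
  | [] => rfl
  | c :: w => congrArg (List.cons (smul1 c v)) (spread_eq v w)

theorem width_spec : ∀ (p : ZPoly2), ∀ a ∈ p, a.length ≤ width p
  | b :: p, a, ha => by
    rw [show width (b :: p) = max b.length (width p) from rfl]
    rcases List.mem_cons.1 ha with rfl | ha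
    · exact le_max_left _ _
    · exact (width_spec p a ha).trans (le_max_right _ _)

theorem hom2_shape (m : ℕ) : ∀ p : ZPoly2, (∀ a ∈ p, a.length ≤ m) →
    (hom2 m p).length = p.length ∧ ∀ r ∈ hom2 m p, r.length = m
  | [], _ => by simp [hom2]
  | a :: p, h => by
    obtain ⟨hl, hr⟩ := hom2_shape m p fun b hb => h b (by simp [hb])
    refine ⟨by simp [hom2_cons, spread_eq, length_addZ, length_row, hl], ?_⟩
    rw [hom2_cons, spread_eq]
    refine addZ_rows m _ _ ?_ ?_ (by simp [length_row, hl])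
    · simp [length_smul1, length_hom1, pad1, length_add1, h a (by simp)]
    · intro r hr'
      rcases List.mem_cons.1 hr' with rfl | hr'
      · exact Or.inl rfl
      · exact Or.inr (hr r hr')

theorem evh2_map_smul (t : ℝ) (v : Poly1) : ∀ (w : Poly1) (x y : ℝ),
    evh2 (w.map fun c => smul1 c v) x y t = evh1 w x y * evh1 v t (1 - t)
  | [], x, y => by simp [evh2, evh1]
  | c :: w, x, y => by
    simp only [List.map_cons, evh2, evh1, List.length_map, evh1_smul, evh2_map_smul t v w x y]
    ring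

theorem evh2_hom2 (m : ℕ) : ∀ p : ZPoly2, (∀ a ∈ p, a.length ≤ m) → ∀ x t : ℝ,
    evh2 (hom2 m p) x (1 - x) t = evZ p x t
  | [], _, x, t => rfl
  | a :: p, h, x, t => by
    obtain ⟨hl, hr⟩ := hom2_shape m p fun b hb => h b (by simp [hb])
    rw [hom2_cons, spread_eq, evh2_add m _ _ (by simp [length_row, hl]) ?_ ?_, evh2_map_smul,
      evh1_row, evh1_hom1, ev1_pad]
    · simp [evh2, evh1, evZ, evh2_hom2 m p (fun b hb => h b (by simp [hb])) x t]
    · simp [length_smul1, length_hom1, pad1, length_add1, h a (by simp)]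
    · intro r hr'
      rcases List.mem_cons.1 hr' with rfl | hr'
      · exact Or.inl rfl
      · exact Or.inr (hr r hr')

theorem evh2_nonneg : ∀ p : ZPoly2, allNonneg p = true →
    ∀ x y t : ℝ, 0 ≤ x → 0 ≤ y → 0 ≤ t → t ≤ 1 → 0 ≤ evh2 p x y t
  | [], _, _, _, _, _, _, _, _ => le_rfl
  | a :: p, h, x, y, t, hx, hy, ht0, ht1 => by
    simp only [allNonneg, List.all_cons, Bool.and_eq_true] at h
    exact add_nonneg (mul_nonneg (evh1_nonneg a h.1 t (1 - t) ht0 (by linarith)) (pow_nonneg hy _))
      (mul_nonneg hx (evh2_nonneg p h.2 x y t hx hy ht0 ht1))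

/-- **The test is sound.** -/
theorem nonneg2_sound {p : Poly2} (h : nonneg2 p = true) {x t : ℝ} (hx : 0 ≤ x) (hx1 : x ≤ 1)
    (ht : 0 ≤ t) (ht1 : t ≤ 1) : 0 ≤ ev2 p x t := by
  refine div_nonneg ?_ (by positivity)
  rw [← evh2_hom2 _ p.2 (width_spec p.2) x t]
  exact evh2_nonneg _ h x (1 - x) t hx (by linarith) ht ht1

end Vale.Agent.P254.Unc.Cert
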