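import Mathlib

/-!
# P254: alternating series for `exp (-x)` and for the log moments on a segment

`expT n` are the partial sums of `exp (-x)`; for `x ≥ 0` they alternate around it. Term by term they
give two-sided bounds on `∫₀ᵗ exp (-x) log x` and `∫₀ᵗ exp (-x) log² x` that are polynomials in
`log t` with rational coefficients.
-/

open MeasureTheory Set Real Finset intervalIntegral

namespace Vale.Agent.P254.Unc.Fam

/-- A partial sum of `exp (-x)`. -/
def expT {K : Type*} [Field K] (n : ℕ) (x : K) : K :=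
  ∑ k ∈ range n, (-1) ^ k * x ^ k / (k.factorial : K)

/-- Sums of the antiderivatives of the terms, with `r` extra divisions by `k + 1`. -/
def serS {K : Type*} [Field K] (r n : ℕ) (t : K) : K :=
  ∑ k ∈ range n, (-1) ^ k * t ^ (k + 1) / ((k.factorial : K) * ((k : K) + 1) ^ (r + 1))

theorem cast_expT (n : ℕ) (x : ℚ) : ((expT n x : ℚ) : ℝ) = expT n (x : ℝ) := by
  simp [expT]

theorem cast_serS (r n : ℕ) (t : ℚ) : ((serS r n t : ℚ) : ℝ) = serS r n (t : ℝ) := by
  simp [serS]

theorem expT_succ_zero (n : ℕ) : expT (n + 1) (0 : ℝ) = 1 := by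
  simp [expT, Finset.sum_range_succ']

theorem hasDerivAt_expT : ∀ (n : ℕ) (y : ℝ), HasDerivAt (expT (n + 1)) (-expT n y) y := by
  intro n
  induction n with
  | zero =>
    intro y
    have e : expT 1 = fun _ : ℝ => (1 : ℝ) := by funext x; simp [expT]
    rw [e]
    simpa [expT] using hasDerivAt_const y (1 : ℝ)
  | succ n ih =>
    intro y
    have e : expT (n + 1 + 1) = fun x : ℝ =>
        expT (n + 1) x + (-1) ^ (n + 1) * x ^ (n + 1) / ((n + 1).factorial : ℝ) := by
      funext x; simp only [expT, Finset.sum_range_succ]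
    rw [e]
    have h := (((hasDerivAt_pow (n + 1) y).const_mul ((-1 : ℝ) ^ (n + 1))).div_const
      ((n + 1).factorial : ℝ))
    refine ((ih y).add h).congr_deriv ?_
    simp only [expT, Finset.sum_range_succ, Nat.factorial_succ, add_tsub_cancel_right]
    push_cast
    have : (n.factorial : ℝ) ≠ 0 := Nat.cast_ne_zero.2 n.factorial_ne_zero
    field_simp
    ring

/-- The partial sums alternate. -/
theorem expT_alt (n : ℕ) : ∀ x : ℝ, 0 ≤ x → 0 ≤ (-1) ^ n * (exp (-x) - expT n x) := by
  induction n with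
  | zero => intro x _; simp [expT, (exp_pos _).le]
  | succ n ih =>
    intro x hx
    set g : ℝ → ℝ := fun y => (-1) ^ (n + 1) * (exp (-y) - expT (n + 1) y)
    have hd : ∀ y, HasDerivAt g ((-1) ^ n * (exp (-y) - expT n y)) y := fun y => by
      refine (((hasDerivAt_neg y).exp.sub (hasDerivAt_expT n y)).const_mul _).congr_deriv ?_
      ring
    have hm : MonotoneOn g (Ici 0) :=
      monotoneOn_of_hasDerivWithinAt_nonneg (convex_Ici 0)
        (fun y _ => (hd y).continuousAt.continuousWithinAt)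
        (fun y _ => (hd y).hasDerivWithinAt)
        (fun y hy => ih y (interior_subset hy))
    have := hm (mem_Ici.2 le_rfl) hx hx
    simpa [g, expT_succ_zero] using this

theorem expT_le {n : ℕ} (hn : Even n) {x : ℝ} (hx : 0 ≤ x) : expT n x ≤ exp (-x) := by
  have := expT_alt n x hx
  rw [hn.neg_one_pow, one_mul] at this
  linarith

theorem le_expT_succ {n : ℕ} (hn : Even n) {x : ℝ} (hx : 0 ≤ x) : exp (-x) ≤ expT (n + 1) x := by
  have := expT_alt (n + 1) x hx
  rw [pow_succ, hn.neg_one_pow] at this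
  linarith

theorem expT_succ {n : ℕ} (hn : Even n) (x : ℝ) :
    expT (n + 1) x = expT n x + x ^ n / (n.factorial : ℝ) := by
  rw [expT, sum_range_succ, hn.neg_one_pow, one_mul, expT]

/-! ### Antiderivatives with a power of the logarithm -/

theorem continuous_mul_sq_log : ContinuousOn (fun x : ℝ => x * log x ^ 2) (Ici 0) := by
  have h : Continuous fun x : ℝ => (2 * (√x * log √x)) ^ 2 :=
    (continuous_const.mul (continuous_mul_log.comp continuous_sqrt)).pow 2
  refine h.continuousOn.congr fun x hx => ?_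
  have hs : √x * √x = x := mul_self_sqrt hx
  show x * log x ^ 2 = (2 * (√x * log √x)) ^ 2
  rw [log_sqrt hx]
  linear_combination (-(log x ^ 2)) * hs

theorem intervalIntegrable_sq_log {t : ℝ} (ht : 0 ≤ t) :
    IntervalIntegrable (fun x => log x ^ 2) volume 0 t := by
  rcases ht.eq_or_lt with rfl | ht0
  · exact IntervalIntegrable.refl
  refine intervalIntegrable_deriv_of_nonneg (g := fun x => x * log x ^ 2 - 2 * (x * log x) + 2 * x)
    ?_ ?_ fun x _ => sq_nonneg _
  · rw [uIcc_of_le ht]
    exact ((continuous_mul_sq_log.mono fun x hx => hx.1).sub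
      (continuous_mul_log.continuousOn.const_smul (2 : ℝ))).add (continuous_const.mul continuous_id).continuousOn
  · intro x hx
    rw [min_eq_left ht, max_eq_right ht] at hx
    have hl := hasDerivAt_log hx.1.ne'
    refine ((((hasDerivAt_id x).mul (hl.pow 2)).sub ((((hasDerivAt_id x)).mul hl).const_mul 2)).add
      ((hasDerivAt_id x).const_mul 2)).congr_deriv ?_
    have := hx.1.ne'
    simp only [id, Nat.cast_ofNat, Pi.pow_apply]
    field_simp
    ring

theorem intervalIntegrable_mul_log {f : ℝ → ℝ} (hf : Continuous f) {t : ℝ} :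
    IntervalIntegrable (fun x => f x * log x) volume 0 t :=
  intervalIntegrable_log'.continuousOn_mul hf.continuousOn

theorem intervalIntegrable_mul_sq_log {f : ℝ → ℝ} (hf : Continuous f) {t : ℝ} (ht : 0 ≤ t) :
    IntervalIntegrable (fun x => f x * log x ^ 2) volume 0 t :=
  (intervalIntegrable_sq_log ht).continuousOn_mul hf.continuousOn

theorem continuous_expT (n : ℕ) : Continuous (expT n : ℝ → ℝ) := by
  unfold expT
  fun_prop

/-- The primitive of `expT n * log`. -/
noncomputable def prim1 (n : ℕ) (t : ℝ) : ℝ := log t * serS 0 n t - serS 1 n t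

/-- The primitive of `expT n * log ^ 2`. -/
noncomputable def prim2 (n : ℕ) (t : ℝ) : ℝ :=
  log t ^ 2 * serS 0 n t - 2 * (log t * serS 1 n t) + 2 * serS 2 n t

theorem hasDerivAt_serS (r n : ℕ) (x : ℝ) :
    HasDerivAt (serS r n)
      (∑ k ∈ range n, (-1) ^ k * (((k : ℝ) + 1) * x ^ k) /
        ((k.factorial : ℝ) * ((k : ℝ) + 1) ^ (r + 1))) x := by
  unfold serS
  refine HasDerivAt.fun_sum fun k _ => ?_
  have h := ((hasDerivAt_pow (k + 1) x).const_mul ((-1 : ℝ) ^ k)).div_const
    ((k.factorial : ℝ) * ((k : ℝ) + 1) ^ (r + 1))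
  simpa using h

theorem hasDerivAt_serS_zero (n : ℕ) (x : ℝ) : HasDerivAt (serS 0 n) (expT n x) x := by
  refine (hasDerivAt_serS 0 n x).congr_deriv (sum_congr rfl fun k _ => ?_)
  have : (k : ℝ) + 1 ≠ 0 := by positivity
  field_simp
  ring

theorem hasDerivAt_serS_succ (r n : ℕ) {x : ℝ} (hx : x ≠ 0) :
    HasDerivAt (serS (r + 1) n) (serS r n x / x) x := by
  refine (hasDerivAt_serS (r + 1) n x).congr_deriv ?_
  rw [serS, sum_div]
  refine sum_congr rfl fun k _ => ?_
  have : (k : ℝ) + 1 ≠ 0 := by positivity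
  have : (k.factorial : ℝ) ≠ 0 := Nat.cast_ne_zero.2 k.factorial_ne_zero
  rw [pow_succ x, pow_succ ((k : ℝ) + 1) (r + 1)]
  field_simp

theorem hasDerivAt_prim1 (n : ℕ) {x : ℝ} (hx : x ≠ 0) :
    HasDerivAt (prim1 n) (expT n x * log x) x := by
  refine (((hasDerivAt_log hx).mul (hasDerivAt_serS_zero n x)).sub
    (hasDerivAt_serS_succ 0 n hx)).congr_deriv ?_
  field_simp
  ring

theorem hasDerivAt_prim2 (n : ℕ) {x : ℝ} (hx : x ≠ 0) :
    HasDerivAt (prim2 n) (expT n x * log x ^ 2) x := by
  refine (((((hasDerivAt_log hx).pow 2).mul (hasDerivAt_serS_zero n x)).sub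
    (((hasDerivAt_log hx).mul (hasDerivAt_serS_succ 0 n hx)).const_mul 2)).add
    ((hasDerivAt_serS_succ 1 n hx).const_mul 2)).congr_deriv ?_
  simp only [Nat.cast_ofNat, pow_one, Pi.pow_apply]
  field_simp
  ring

theorem serS_eq_mul (r n : ℕ) (x : ℝ) :
    serS r n x = x * ∑ k ∈ range n, (-1) ^ k * x ^ k / ((k.factorial : ℝ) * ((k : ℝ) + 1) ^ (r + 1)) := by
  rw [serS, mul_sum]
  exact sum_congr rfl fun k _ => by ring

theorem continuousOn_prim (n : ℕ) :
    ContinuousOn (prim1 n) (Ici 0) ∧ ContinuousOn (prim2 n) (Ici 0) := by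
  have hc : ∀ r, Continuous fun x : ℝ =>
      ∑ k ∈ range n, (-1 : ℝ) ^ k * x ^ k / ((k.factorial : ℝ) * ((k : ℝ) + 1) ^ (r + 1)) :=
    fun r => by fun_prop
  have hs : ∀ r, Continuous (serS r n : ℝ → ℝ) := fun r => by unfold serS; fun_prop
  constructor
  · refine (((continuous_mul_log.mul (hc 0)).sub (hs 1)).continuousOn).congr fun x _ => ?_
    simp only [prim1, serS_eq_mul 0 n x, Pi.mul_apply, Pi.sub_apply]; ring
  · refine (((continuous_mul_sq_log.mul (hc 0).continuousOn).sub
      ((continuous_mul_log.mul (hc 1)).const_smul (2 : ℝ)).continuousOn).add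
      ((hs 2).const_smul (2 : ℝ)).continuousOn).congr fun x _ => ?_
    simp only [prim2, serS_eq_mul 0 n x, serS_eq_mul 1 n x, Pi.mul_apply, Pi.sub_apply, Pi.add_apply,
      Pi.smul_apply, smul_eq_mul]
    ring

theorem prim_zero (n : ℕ) : prim1 n 0 = 0 ∧ prim2 n 0 = 0 := by
  simp [prim1, prim2, serS_eq_mul]

theorem integral_expT_log (n : ℕ) {t : ℝ} (ht : 0 ≤ t) :
    (∫ x in (0 : ℝ)..t, expT n x * log x) = prim1 n t := by
  rw [integral_eq_sub_of_hasDerivAt_of_le ht ((continuousOn_prim n).1.mono fun x hx => hx.1)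
    (fun x hx => hasDerivAt_prim1 n hx.1.ne') (intervalIntegrable_mul_log (continuous_expT n)),
    (prim_zero n).1, sub_zero]

theorem integral_expT_sq_log (n : ℕ) {t : ℝ} (ht : 0 ≤ t) :
    (∫ x in (0 : ℝ)..t, expT n x * log x ^ 2) = prim2 n t := by
  rw [integral_eq_sub_of_hasDerivAt_of_le ht ((continuousOn_prim n).2.mono fun x hx => hx.1)
    (fun x hx => hasDerivAt_prim2 n hx.1.ne') (intervalIntegrable_mul_sq_log (continuous_expT n) ht),
    (prim_zero n).2, sub_zero]

/-- `∫₀ᵗ exp (-x) log² x`. -/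
noncomputable def cum2 (t : ℝ) : ℝ := ∫ x in (0 : ℝ)..t, exp (-x) * log x ^ 2

/-- `∫₀ᵗ exp (-x) log x`. -/
noncomputable def cum1 (t : ℝ) : ℝ := ∫ x in (0 : ℝ)..t, exp (-x) * log x

theorem cum2_bounds {n : ℕ} (hn : Even n) {t : ℝ} (ht : 0 ≤ t) :
    prim2 n t ≤ cum2 t ∧ cum2 t ≤ prim2 (n + 1) t := by
  have he : Continuous fun x : ℝ => exp (-x) := by fun_prop
  constructor
  · rw [← integral_expT_sq_log n ht]
    exact integral_mono_on ht (intervalIntegrable_mul_sq_log (continuous_expT n) ht)
      (intervalIntegrable_mul_sq_log he ht) fun x hx =>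
        mul_le_mul_of_nonneg_right (expT_le hn hx.1) (sq_nonneg _)
  · rw [← integral_expT_sq_log (n + 1) ht]
    exact integral_mono_on ht (intervalIntegrable_mul_sq_log he ht)
      (intervalIntegrable_mul_sq_log (continuous_expT _) ht) fun x hx =>
        mul_le_mul_of_nonneg_right (le_expT_succ hn hx.1) (sq_nonneg _)

theorem cum1_bounds {n : ℕ} (hn : Even n) {t : ℝ} (ht : 0 ≤ t) :
    |cum1 t - prim1 n t| ≤
      ((t ^ (n + 1) / ((n + 1).factorial : ℝ)) + (prim2 (n + 1) t - prim2 n t)) / 2 := by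
  have he : Continuous fun x : ℝ => exp (-x) := by fun_prop
  have hp : Continuous fun x : ℝ => x ^ n / (n.factorial : ℝ) := by fun_prop
  have hR : (∫ x in (0 : ℝ)..t, (x ^ n / (n.factorial : ℝ) +
      (expT (n + 1) x * log x ^ 2 - expT n x * log x ^ 2))) =
      t ^ (n + 1) / ((n + 1).factorial : ℝ) + (prim2 (n + 1) t - prim2 n t) := by
    rw [intervalIntegral.integral_add (hp.intervalIntegrable 0 t)
      ((intervalIntegrable_mul_sq_log (continuous_expT _) ht).sub
        (intervalIntegrable_mul_sq_log (continuous_expT _) ht)),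
      intervalIntegral.integral_sub (intervalIntegrable_mul_sq_log (continuous_expT _) ht)
        (intervalIntegrable_mul_sq_log (continuous_expT _) ht),
      integral_expT_sq_log _ ht, integral_expT_sq_log _ ht, intervalIntegral.integral_div,
      integral_pow, Nat.factorial_succ]
    push_cast
    simp [zero_pow, div_div]
  rw [cum1, ← integral_expT_log n ht, ← intervalIntegral.integral_sub (intervalIntegrable_mul_log he)
    (intervalIntegrable_mul_log (continuous_expT n)), ← hR, ← intervalIntegral.integral_div,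
    ← Real.norm_eq_abs]
  refine norm_integral_le_of_norm_le ht (ae_of_all _ fun x hx => ?_)
    (((hp.intervalIntegrable 0 t).add ((intervalIntegrable_mul_sq_log (continuous_expT _) ht).sub
        (intervalIntegrable_mul_sq_log (continuous_expT _) ht))).div_const 2)
  have h0 : 0 ≤ x := hx.1.le
  have h1 := expT_le hn h0
  have h2 := le_expT_succ hn h0
  rw [expT_succ hn] at h2
  have hq : 0 ≤ x ^ n / (n.factorial : ℝ) := by positivity
  rw [Real.norm_eq_abs, ← sub_mul, abs_mul, abs_of_nonneg (sub_nonneg.2 h1), expT_succ hn]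
  nlinarith [mul_le_mul (show exp (-x) - expT n x ≤ x ^ n / (n.factorial : ℝ) by linarith)
    (show |log x| ≤ (1 + log x ^ 2) / 2 by nlinarith [sq_nonneg (|log x| - 1), sq_abs (log x)])
    (abs_nonneg _) hq]

end Vale.Agent.P254.Unc.Fam
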