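import Vale.Agent.P254.Unc.ConvFam
import Vale.Agent.P254.Unc.FamSeries

/-!
# P254: the moments of the one-parameter family

The three moments of `fam t` are expressed through `cum1`, `cum2` and the two constants
`gam1 = ∫ exp (-x) log x`, `gam2 = ∫ exp (-x) log² x` over the half line. The unnormalised moments
are differentiable with derivatives `tail1` (monotone) and `tail2` (nonnegative, `exp (-t) * tail2`
antitone).
-/

open MeasureTheory Set Real Filter intervalIntegral
open scoped Topology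

namespace Vale.Agent.P254.Unc.Fam

/-- `∫₀^∞ exp (-x) log x`. -/
noncomputable def gam1 : ℝ := ∫ x in Ioi (0 : ℝ), exp (-x) * log x

/-- `∫₀^∞ exp (-x) log² x`. -/
noncomputable def gam2 : ℝ := ∫ x in Ioi (0 : ℝ), exp (-x) * log x ^ 2

/-- `∫ exp (-s) log (t + s)`. -/
noncomputable def tail1 (t : ℝ) : ℝ := exp t * (gam1 - cum1 t)

/-- `∫ exp (-s) log² (t + s)`. -/
noncomputable def tail2 (t : ℝ) : ℝ := exp t * (gam2 - cum2 t)

/-- The unnormalised mean of `log x`. -/
noncomputable def num1 (t : ℝ) : ℝ := t * log t - t + tail1 t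

/-- The unnormalised second moment of `log x`. -/
noncomputable def num2 (t : ℝ) : ℝ := t * log t ^ 2 - 2 * (t * log t) + 2 * t + tail2 t

theorem tendsto_pow_mul_exp_neg (n : ℕ) :
    Tendsto (fun x : ℝ => x ^ n * exp (-x)) atTop (𝓝 0) :=
  tendsto_pow_mul_exp_neg_atTop_nhds_zero n

theorem hasDerivAt_qexp (x : ℝ) :
    HasDerivAt (fun y : ℝ => -((y ^ 2 + 2 * y + 2) * exp (-y))) (x ^ 2 * exp (-x)) x := by
  refine ((((hasDerivAt_pow 2 x).add ((hasDerivAt_id x).const_mul 2)).add_const 2).mul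
    (hasDerivAt_neg x).exp).neg.congr_deriv ?_
  simp
  ring

theorem hasDerivAt_lexp (x : ℝ) :
    HasDerivAt (fun y : ℝ => -((y + 1) * exp (-y))) (x * exp (-x)) x := by
  refine (((hasDerivAt_id x).add_const 1).mul (hasDerivAt_neg x).exp).neg.congr_deriv ?_
  simp
  ring

theorem tendsto_qexp : Tendsto (fun y : ℝ => -((y ^ 2 + 2 * y + 2) * exp (-y))) atTop (𝓝 0) := by
  have h := (((tendsto_pow_mul_exp_neg 2).add ((tendsto_pow_mul_exp_neg 1).const_mul 2)).add
    ((tendsto_pow_mul_exp_neg 0).const_mul 2)).neg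
  simp only [mul_zero, add_zero, neg_zero] at h
  exact h.congr fun x => by ring

theorem tendsto_lexp : Tendsto (fun y : ℝ => -((y + 1) * exp (-y))) atTop (𝓝 0) := by
  have h := ((tendsto_pow_mul_exp_neg 1).add (tendsto_pow_mul_exp_neg 0)).neg
  simp only [add_zero, neg_zero] at h
  exact h.congr fun x => by ring

theorem integrableOn_sq_exp {T : ℝ} :
    IntegrableOn (fun x : ℝ => x ^ 2 * exp (-x)) (Ioi T) ∧
      (∫ x in Ioi T, x ^ 2 * exp (-x)) = (T ^ 2 + 2 * T + 2) * exp (-T) := by
  constructor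
  · exact integrableOn_Ioi_deriv_of_nonneg' (fun x _ => hasDerivAt_qexp x)
      (fun x _ => mul_nonneg (sq_nonneg x) (exp_pos _).le) tendsto_qexp
  · rw [integral_Ioi_of_hasDerivAt_of_nonneg' (fun x _ => hasDerivAt_qexp x)
      (fun x _ => mul_nonneg (sq_nonneg x) (exp_pos _).le) tendsto_qexp]
    ring

theorem integrableOn_lin_exp {T : ℝ} (hT : 0 ≤ T) :
    IntegrableOn (fun x : ℝ => x * exp (-x)) (Ioi T) ∧
      (∫ x in Ioi T, x * exp (-x)) = (T + 1) * exp (-T) := by
  constructor
  · exact integrableOn_Ioi_deriv_of_nonneg' (fun x _ => hasDerivAt_lexp x)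
      (fun x hx => mul_nonneg (hT.trans (le_of_lt hx)) (exp_pos _).le) tendsto_lexp
  · rw [integral_Ioi_of_hasDerivAt_of_nonneg' (fun x _ => hasDerivAt_lexp x)
      (fun x hx => mul_nonneg (hT.trans (le_of_lt hx)) (exp_pos _).le) tendsto_lexp]
    ring

theorem abs_log_le {x : ℝ} (hx : 1 ≤ x) : |log x| ≤ x := by
  rw [abs_of_nonneg (log_nonneg hx)]
  linarith [log_le_sub_one_of_pos (zero_lt_one.trans_le hx)]

theorem integrable_log_pow (j : ℕ) (hj : j = 1 ∨ j = 2) :
    IntegrableOn (fun x : ℝ => exp (-x) * log x ^ j) (Ioi 0) := by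
  rw [← Ioc_union_Ioi_eq_Ioi (zero_le_one' ℝ)]
  refine IntegrableOn.union ?_ ?_
  · rcases hj with rfl | rfl
    · simpa only [pow_one] using
        (intervalIntegrable_mul_log (f := fun x => exp (-x)) (by fun_prop) (t := 1)).1
    · exact (intervalIntegrable_mul_sq_log (f := fun x => exp (-x)) (by fun_prop) zero_le_one).1
  · refine Integrable.mono' (g := fun x => x ^ 2 * exp (-x)) integrableOn_sq_exp.1
      (Measurable.aestronglyMeasurable (by fun_prop)) ?_
    refine (ae_restrict_iff' measurableSet_Ioi).2 (ae_of_all _ fun x (hx : 1 < x) => ?_)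
    rw [norm_mul, norm_pow, Real.norm_eq_abs, Real.norm_eq_abs, abs_of_pos (exp_pos _)]
    have h1 := abs_log_le hx.le
    have h2 : |log x| ^ j ≤ x ^ 2 := by
      rcases hj with rfl | rfl
      · nlinarith
      · exact pow_le_pow_left₀ (abs_nonneg _) h1 2
    nlinarith [exp_pos (-x)]

theorem gam1_sub_cum1 {t : ℝ} (ht : 0 ≤ t) :
    gam1 - cum1 t = ∫ x in Ioi t, exp (-x) * log x := by
  have h := integrable_log_pow 1 (Or.inl rfl)
  simp only [pow_one] at h
  rw [gam1, cum1, ← Ioc_union_Ioi_eq_Ioi ht, intervalIntegral.integral_of_le ht,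
    setIntegral_union (Ioc_disjoint_Ioi le_rfl) measurableSet_Ioi (h.mono_set Ioc_subset_Ioi_self)
      (h.mono_set (Ioi_subset_Ioi ht))]
  ring

theorem gam2_sub_cum2 {t : ℝ} (ht : 0 ≤ t) :
    gam2 - cum2 t = ∫ x in Ioi t, exp (-x) * log x ^ 2 := by
  have h := integrable_log_pow 2 (Or.inr rfl)
  rw [gam2, cum2, ← Ioc_union_Ioi_eq_Ioi ht, intervalIntegral.integral_of_le ht,
    setIntegral_union (Ioc_disjoint_Ioi le_rfl) measurableSet_Ioi (h.mono_set Ioc_subset_Ioi_self)
      (h.mono_set (Ioi_subset_Ioi ht))]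
  ring

/-- The remainders beyond `T` are small. -/
theorem gam_tail {T : ℝ} (hT : 1 ≤ T) :
    0 ≤ gam1 - cum1 T ∧ gam1 - cum1 T ≤ (T + 1) * exp (-T) ∧
      0 ≤ gam2 - cum2 T ∧ gam2 - cum2 T ≤ (T ^ 2 + 2 * T + 2) * exp (-T) := by
  have h0 : (0 : ℝ) ≤ T := zero_le_one.trans hT
  have i1 := (integrable_log_pow 1 (Or.inl rfl)).mono_set (Ioi_subset_Ioi h0)
  have i2 := (integrable_log_pow 2 (Or.inr rfl)).mono_set (Ioi_subset_Ioi h0)
  simp only [pow_one] at i1
  rw [gam1_sub_cum1 h0, gam2_sub_cum2 h0, ← (integrableOn_lin_exp h0).2,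
    ← (integrableOn_sq_exp (T := T)).2]
  refine ⟨setIntegral_nonneg measurableSet_Ioi fun x hx => ?_,
    setIntegral_mono_on i1 (integrableOn_lin_exp h0).1 measurableSet_Ioi fun x hx => ?_,
    setIntegral_nonneg measurableSet_Ioi fun x _ => mul_nonneg (exp_pos _).le (sq_nonneg _),
    setIntegral_mono_on i2 integrableOn_sq_exp.1 measurableSet_Ioi fun x hx => ?_⟩
  · exact mul_nonneg (exp_pos _).le (log_nonneg (hT.trans (le_of_lt hx)))
  · have hx1 : 1 ≤ x := hT.trans (le_of_lt hx)
    nlinarith [exp_pos (-x), (abs_le.1 (abs_log_le hx1)).2]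
  · have hx1 : 1 ≤ x := hT.trans (le_of_lt hx)
    have := pow_le_pow_left₀ (abs_nonneg _) (abs_log_le hx1) 2
    rw [sq_abs] at this
    nlinarith [exp_pos (-x)]

theorem integral_fam {t : ℝ} (ht : 0 ≤ t) {f : ℝ → ℝ} (h1 : IntegrableOn f (Ioc 0 t))
    (h2 : IntegrableOn (fun x => exp (-x) * f x) (Ioi t)) :
    (∫ x in Ioi (0 : ℝ), fam t x * f x) =
      ((∫ x in (0 : ℝ)..t, f x) + exp t * ∫ x in Ioi t, exp (-x) * f x) / (1 + t) := by
  have e1 : EqOn (fun x => fam t x * f x) (fun x => f x / (1 + t)) (Ioc 0 t) := fun x hx => by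
    simp only [fam, max_eq_right (sub_nonpos.2 hx.2), neg_zero, exp_zero]
    ring
  have e2 : EqOn (fun x => fam t x * f x) (fun x => exp t / (1 + t) * (exp (-x) * f x)) (Ioi t) :=
    fun x (hx : t < x) => by
      simp only [fam, max_eq_left (sub_nonneg.2 hx.le)]
      rw [show -(x - t) = t + -x by ring, exp_add]
      ring
  rw [← Ioc_union_Ioi_eq_Ioi ht, setIntegral_union (Ioc_disjoint_Ioi le_rfl) measurableSet_Ioi
      ((IntegrableOn.congr_fun (h1.div_const _) e1.symm measurableSet_Ioc))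
      ((IntegrableOn.congr_fun (h2.const_mul _) e2.symm measurableSet_Ioi)),
    setIntegral_congr_fun measurableSet_Ioc e1, setIntegral_congr_fun measurableSet_Ioi e2,
    MeasureTheory.integral_div, MeasureTheory.integral_const_mul, intervalIntegral.integral_of_le ht]
  ring

theorem integral_sq_log {t : ℝ} (ht : 0 ≤ t) :
    (∫ x in (0 : ℝ)..t, log x ^ 2) = t * log t ^ 2 - 2 * (t * log t) + 2 * t := by
  have h := integral_expT_sq_log 1 ht
  simp only [expT, prim2, serS, Finset.sum_range_one, pow_zero, Nat.factorial_zero, Nat.cast_one,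
    Nat.cast_zero, zero_add, one_mul, div_one, one_pow, mul_one, pow_one] at h
  rw [h]
  ring

theorem famMean_eq {t : ℝ} (ht : 0 ≤ t) : famMean t = num1 t / (1 + t) := by
  have i := (integrable_log_pow 1 (Or.inl rfl)).mono_set (Ioi_subset_Ioi ht)
  simp only [pow_one] at i
  rw [famMean, integral_fam ht intervalIntegrable_log'.1 i, ← gam1_sub_cum1 ht, integral_log]
  simp [num1, tail1]

theorem famExcess_eq {t : ℝ} (ht : 0 ≤ t) :
    famExcess t = num2 t / (1 + t) - (num1 t / (1 + t)) ^ 2 - 1 := by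
  have i := (integrable_log_pow 2 (Or.inr rfl)).mono_set (Ioi_subset_Ioi ht)
  rw [famExcess, famMean_eq ht, integral_fam ht (intervalIntegrable_sq_log ht).1 i,
    ← gam2_sub_cum2 ht, integral_sq_log ht]
  rfl

theorem famSnd_eq {t : ℝ} (ht : 0 ≤ t) :
    famSnd t = (t ^ 3 / 3 + t ^ 2 + 2 * t + 2) / (1 + t) := by
  have i : IntegrableOn (fun x : ℝ => exp (-x) * x ^ 2) (Ioi t) := by
    simpa only [mul_comm] using (integrableOn_sq_exp (T := t)).1
  have h : (∫ x in Ioi t, exp (-x) * x ^ 2) = (t ^ 2 + 2 * t + 2) * exp (-t) := by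
    simpa only [mul_comm] using (integrableOn_sq_exp (T := t)).2
  rw [famSnd, integral_fam ht ((continuous_pow 2).integrableOn_Ioc) i, h, integral_pow, exp_neg]
  field_simp
  ring

/-! ### Derivatives -/

theorem hasDerivAt_cum {t : ℝ} (ht : 0 < t) :
    HasDerivAt cum1 (exp (-t) * log t) t ∧ HasDerivAt cum2 (exp (-t) * log t ^ 2) t := by
  have he : Continuous fun x : ℝ => exp (-x) := by fun_prop
  constructor
  · exact integral_hasDerivAt_right (intervalIntegrable_mul_log he)
      (Measurable.stronglyMeasurable (by fun_prop)).stronglyMeasurableAtFilter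
      ((continuous_exp.comp continuous_neg).continuousAt.mul (continuousAt_log ht.ne'))
  · exact integral_hasDerivAt_right (intervalIntegrable_mul_sq_log he ht.le)
      (Measurable.stronglyMeasurable (by fun_prop)).stronglyMeasurableAtFilter
      ((continuous_exp.comp continuous_neg).continuousAt.mul ((continuousAt_log ht.ne').pow 2))

theorem hasDerivAt_tail {t : ℝ} (ht : 0 < t) :
    HasDerivAt tail1 (tail1 t - log t) t ∧ HasDerivAt tail2 (tail2 t - log t ^ 2) t := by
  have hc := hasDerivAt_cum ht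
  have he : exp t * exp (-t) = 1 := by rw [← exp_add, add_neg_cancel, exp_zero]
  constructor
  · refine ((hasDerivAt_exp t).mul (hc.1.const_sub gam1)).congr_deriv ?_
    simp only [tail1]
    linear_combination (-log t) * he
  · refine ((hasDerivAt_exp t).mul (hc.2.const_sub gam2)).congr_deriv ?_
    simp only [tail2]
    linear_combination (-(log t ^ 2)) * he

theorem hasDerivAt_num {t : ℝ} (ht : 0 < t) :
    HasDerivAt num1 (tail1 t) t ∧ HasDerivAt num2 (tail2 t) t := by
  have hl := hasDerivAt_log ht.ne'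
  have hd := hasDerivAt_tail ht
  constructor
  · refine ((((hasDerivAt_id t).mul hl).sub (hasDerivAt_id t)).add hd.1).congr_deriv ?_
    simp only [id]
    field_simp
    ring
  · refine ((((((hasDerivAt_id t).mul (hl.pow 2))).sub (((hasDerivAt_id t).mul hl).const_mul 2)).add
      ((hasDerivAt_id t).const_mul 2)).add hd.2).congr_deriv ?_
    simp only [id, Nat.cast_ofNat, pow_one, Pi.pow_apply]
    field_simp
    ring

theorem continuousOn_tail (T : ℝ) :
    ContinuousOn tail1 (Icc 0 T) ∧ ContinuousOn tail2 (Icc 0 T) := by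
  rcases lt_or_ge T 0 with hT | hT
  · simp [Icc_eq_empty_of_lt hT]
  have he : Continuous fun x : ℝ => exp (-x) := by fun_prop
  constructor
  · refine continuous_exp.continuousOn.mul (continuousOn_const.sub ?_)
    have := continuousOn_primitive_interval (μ := volume) (a := 0) (b := T)
      ((intervalIntegrable_iff' (μ := volume)).1 (intervalIntegrable_mul_log he (t := T)))
    rwa [uIcc_of_le hT] at this
  · refine continuous_exp.continuousOn.mul (continuousOn_const.sub ?_)
    have := continuousOn_primitive_interval (μ := volume) (a := 0) (b := T)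
      ((intervalIntegrable_iff' (μ := volume)).1 (intervalIntegrable_mul_sq_log he hT))
    rwa [uIcc_of_le hT] at this

theorem continuousOn_num (T : ℝ) :
    ContinuousOn num1 (Icc 0 T) ∧ ContinuousOn num2 (Icc 0 T) :=
  ⟨(continuous_mul_log.continuousOn.sub continuousOn_id).add (continuousOn_tail T).1,
    ((((continuous_mul_sq_log.mono fun _ hx => hx.1).sub
      (continuousOn_const.mul continuous_mul_log.continuousOn))).add
      (continuousOn_const.mul continuousOn_id)).add (continuousOn_tail T).2⟩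

theorem log_le_tail1 {t : ℝ} (ht : 0 < t) : log t ≤ tail1 t := by
  have i := (integrable_log_pow 1 (Or.inl rfl)).mono_set (Ioi_subset_Ioi ht.le)
  simp only [pow_one] at i
  have h : exp (-t) * log t ≤ gam1 - cum1 t := by
    rw [gam1_sub_cum1 ht.le]
    calc exp (-t) * log t = ∫ x in Ioi t, exp (-x) * log t := by
          rw [MeasureTheory.integral_mul_const, integral_exp_neg_Ioi]
      _ ≤ _ := setIntegral_mono_on ((integrableOn_exp_neg_Ioi t).mul_const _) i measurableSet_Ioi
          fun x hx => mul_le_mul_of_nonneg_left (log_le_log ht (le_of_lt hx)) (exp_pos _).le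
  calc log t = exp t * (exp (-t) * log t) := by
        rw [← mul_assoc, ← exp_add, add_neg_cancel, exp_zero, one_mul]
    _ ≤ _ := mul_le_mul_of_nonneg_left h (exp_pos t).le

theorem monotoneOn_tail1 (T : ℝ) : MonotoneOn tail1 (Icc 0 T) := by
  refine monotoneOn_of_hasDerivWithinAt_nonneg (convex_Icc 0 T) (continuousOn_tail T).1
    (fun x hx => ?_) (fun x hx => ?_) (f' := fun x => tail1 x - log x)
  · rw [interior_Icc] at hx
    exact (hasDerivAt_tail hx.1).1.hasDerivWithinAt
  · rw [interior_Icc] at hx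
    exact sub_nonneg.2 (log_le_tail1 hx.1)

theorem tail2_nonneg {t : ℝ} (ht : 0 ≤ t) : 0 ≤ tail2 t := by
  rw [tail2, gam2_sub_cum2 ht]
  exact mul_nonneg (exp_pos _).le
    (setIntegral_nonneg measurableSet_Ioi fun x _ => mul_nonneg (exp_pos _).le (sq_nonneg _))

theorem tail2_ge {x b : ℝ} (hx : 0 ≤ x) (hxb : x ≤ b) : (1 - (b - x)) * tail2 b ≤ tail2 x := by
  have hb := hx.trans hxb
  have h1 : gam2 - cum2 b ≤ gam2 - cum2 x := by
    rw [gam2_sub_cum2 hb, gam2_sub_cum2 hx]
    exact setIntegral_mono_set ((integrable_log_pow 2 (Or.inr rfl)).mono_set (Ioi_subset_Ioi hx))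
      (ae_of_all _ fun y => mul_nonneg (exp_pos _).le (sq_nonneg _))
      (Ioi_subset_Ioi hxb).eventuallyLE
  have h2 : 1 - (b - x) ≤ exp (x - b) := by linarith [add_one_le_exp (x - b)]
  calc (1 - (b - x)) * tail2 b ≤ exp (x - b) * tail2 b :=
        mul_le_mul_of_nonneg_right h2 (tail2_nonneg hb)
    _ = exp x * (gam2 - cum2 b) := by
        rw [tail2, ← mul_assoc, ← exp_add]; ring_nf
    _ ≤ _ := mul_le_mul_of_nonneg_left h1 (exp_pos x).le

/-- Linear bounds of the numerators on an interval. -/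
theorem num_bounds {a b x : ℝ} (ha : 0 ≤ a) (hax : a ≤ x) (hxb : x ≤ b) :
    num1 a + (x - a) * tail1 a ≤ num1 x ∧ num1 x ≤ num1 a + (x - a) * tail1 b ∧
      num2 a + (x - a) * ((1 - (b - a)) * tail2 b) ≤ num2 x := by
  have hsub : Icc a x ⊆ Icc 0 x := Icc_subset_Icc ha le_rfl
  have hc1 := ((continuousOn_num x).1).mono hsub
  have hc2 := ((continuousOn_num x).2).mono hsub
  have hd : ∀ y ∈ interior (Icc a x), 0 < y ∧ a ≤ y ∧ y ≤ b := fun y hy => by
    rw [interior_Icc] at hy
    exact ⟨ha.trans_lt hy.1, hy.1.le, hy.2.le.trans hxb⟩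
  have d1 : DifferentiableOn ℝ num1 (interior (Icc a x)) := fun y hy =>
    (hasDerivAt_num (hd y hy).1).1.differentiableAt.differentiableWithinAt
  have d2 : DifferentiableOn ℝ num2 (interior (Icc a x)) := fun y hy =>
    (hasDerivAt_num (hd y hy).1).2.differentiableAt.differentiableWithinAt
  have hm := monotoneOn_tail1 b
  have ma : a ∈ Icc a x := left_mem_Icc.2 hax
  have mx : x ∈ Icc a x := right_mem_Icc.2 hax
  have e1 := (convex_Icc a x).mul_sub_le_image_sub_of_le_deriv hc1 d1 (C := tail1 a)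
    (fun y hy => by
      rw [(hasDerivAt_num (hd y hy).1).1.deriv]
      exact hm ⟨ha, hax.trans hxb⟩ ⟨(hd y hy).1.le, (hd y hy).2.2⟩ (hd y hy).2.1) a ma x mx hax
  have e2 := (convex_Icc a x).image_sub_le_mul_sub_of_deriv_le hc1 d1 (C := tail1 b)
    (fun y hy => by
      rw [(hasDerivAt_num (hd y hy).1).1.deriv]
      exact hm ⟨(hd y hy).1.le, (hd y hy).2.2⟩ ⟨(ha.trans hax).trans hxb, le_rfl⟩ (hd y hy).2.2)
    a ma x mx hax
  have e3 := (convex_Icc a x).mul_sub_le_image_sub_of_le_deriv hc2 d2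
    (C := (1 - (b - a)) * tail2 b) (fun y hy => by
      rw [(hasDerivAt_num (hd y hy).1).2.deriv]
      refine le_trans ?_ (tail2_ge (hd y hy).1.le (hd y hy).2.2)
      exact mul_le_mul_of_nonneg_right (by linarith [(hd y hy).2.1])
        (tail2_nonneg ((ha.trans hax).trans hxb))) a ma x mx hax
  refine ⟨?_, ?_, ?_⟩ <;> nlinarith

end Vale.Agent.P254.Unc.Fam
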