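import Vale.Agent.P254.Unc.Conv
import Vale.Agent.P254.Unc.FamMoments

/-!
# P254: a kernel-checkable certificate of the conversion inequality on the family

Interval bounds at grid points come from the series of `FamSeries`. On a cell a supporting line of
the potential, chord bounds of the square and a tangent of the logarithm turn the inequality into
the nonnegativity of a concave function, so it suffices to check its two end values.
-/

open Real

namespace Vale.Agent.P254.Unc.Fam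

/-- An interval of rationals. -/
abbrev Iv := ℚ × ℚ

/-- Membership. -/
def Mem (p : Iv) (x : ℝ) : Prop := (p.1 : ℝ) ≤ x ∧ x ≤ (p.2 : ℝ)

/-- A point interval. -/
def ivC (q : ℚ) : Iv := (q, q)

/-- Sum. -/
def ivAdd (p q : Iv) : Iv := (p.1 + q.1, p.2 + q.2)

/-- Difference. -/
def ivSub (p q : Iv) : Iv := (p.1 - q.2, p.2 - q.1)

/-- Product. -/
def ivMul (p q : Iv) : Iv :=
  (min (min (p.1 * q.1) (p.1 * q.2)) (min (p.2 * q.1) (p.2 * q.2)),
    max (max (p.1 * q.1) (p.1 * q.2)) (max (p.2 * q.1) (p.2 * q.2)))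

/-- Inclusion. -/
def ivLe (p q : Iv) : Bool := decide (q.1 ≤ p.1) && decide (p.2 ≤ q.2)

theorem mem_ivC (q : ℚ) : Mem (ivC q) (q : ℝ) := ⟨le_rfl, le_rfl⟩

theorem mem_ivAdd {p q : Iv} {x y : ℝ} (hp : Mem p x) (hq : Mem q y) :
    Mem (ivAdd p q) (x + y) := by
  simp only [Mem, ivAdd, Rat.cast_add]; exact ⟨by linarith [hp.1, hq.1], by linarith [hp.2, hq.2]⟩

theorem mem_ivSub {p q : Iv} {x y : ℝ} (hp : Mem p x) (hq : Mem q y) :
    Mem (ivSub p q) (x - y) := by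
  simp only [Mem, ivSub, Rat.cast_sub]; exact ⟨by linarith [hp.1, hq.2], by linarith [hp.2, hq.1]⟩

theorem mem_ivMul {p q : Iv} {x y : ℝ} (hp : Mem p x) (hq : Mem q y) :
    Mem (ivMul p q) (x * y) := by
  simp only [Mem, ivMul, Rat.cast_min, Rat.cast_max, Rat.cast_mul, min_le_iff, le_max_iff]
  obtain ⟨h1, h2⟩ := hp
  obtain ⟨h3, h4⟩ := hq
  constructor
  · rcases le_total 0 y with hy | hy
    · have := mul_le_mul_of_nonneg_right h1 hy
      rcases le_total 0 (p.1 : ℝ) with hl | hl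
      · left; left; nlinarith
      · left; right; nlinarith
    · have := mul_le_mul_of_nonpos_right h2 hy
      rcases le_total 0 (p.2 : ℝ) with hl | hl
      · right; left; nlinarith
      · right; right; nlinarith
  · rcases le_total 0 y with hy | hy
    · have := mul_le_mul_of_nonneg_right h2 hy
      rcases le_total 0 (p.2 : ℝ) with hl | hl
      · right; right; nlinarith
      · right; left; nlinarith
    · have := mul_le_mul_of_nonpos_right h1 hy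
      rcases le_total 0 (p.1 : ℝ) with hl | hl
      · left; right; nlinarith
      · left; left; nlinarith

theorem mem_of_ivLe {p q : Iv} {x : ℝ} (h : ivLe p q = true) (hp : Mem p x) : Mem q x := by
  simp only [ivLe, Bool.and_eq_true, decide_eq_true_eq] at h
  exact ⟨le_trans (by exact_mod_cast h.1) hp.1, le_trans hp.2 (by exact_mod_cast h.2)⟩

/-- The number of series terms. -/
def terms : ℕ := 70

theorem even_terms : Even terms := ⟨35, rfl⟩

/-- The interval of `exp (-t)`, `t ≥ 0`. -/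
def eNegIv (t : ℚ) : Iv := (expT terms t, expT (terms + 1) t)

theorem mem_eNegIv {t : ℚ} (ht : 0 ≤ t) : Mem (eNegIv t) (exp (-(t : ℝ))) := by
  have h : (0 : ℝ) ≤ t := by exact_mod_cast ht
  simp only [Mem, eNegIv, cast_expT]
  exact ⟨expT_le even_terms h, le_expT_succ even_terms h⟩

/-- `q ≤ exp x`. -/
def leExp (q x : ℚ) : Bool :=
  if 0 ≤ x then decide (q * (eNegIv x).2 ≤ 1) else decide (q ≤ (eNegIv (-x)).1)

/-- `exp x ≤ q`. -/
def expLe (x q : ℚ) : Bool :=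
  if 0 ≤ x then decide (0 ≤ q) && decide (1 ≤ q * (eNegIv x).1) else decide ((eNegIv (-x)).2 ≤ q)

theorem le_exp_of_leExp {q x : ℚ} (h : leExp q x = true) : (q : ℝ) ≤ exp (x : ℝ) := by
  unfold leExp at h
  split_ifs at h with hx <;> simp only [decide_eq_true_eq] at h
  · obtain ⟨-, h2⟩ := mem_eNegIv hx
    have h' : (q : ℝ) * ((eNegIv x).2 : ℝ) ≤ 1 := by exact_mod_cast h
    rcases le_total (q : ℝ) 0 with hq | hq
    · exact hq.trans (exp_pos _).le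
    have : (q : ℝ) * exp (-(x : ℝ)) ≤ 1 := (mul_le_mul_of_nonneg_left h2 hq).trans h'
    rwa [exp_neg, ← div_eq_mul_inv, div_le_one (exp_pos _)] at this
  · obtain ⟨h1, -⟩ := mem_eNegIv (le_of_lt (neg_pos.2 (not_le.1 hx)))
    have h' : (q : ℝ) ≤ ((eNegIv (-x)).1 : ℝ) := by exact_mod_cast h
    simpa using h'.trans h1

theorem exp_le_of_expLe {q x : ℚ} (h : expLe x q = true) : exp (x : ℝ) ≤ (q : ℝ) := by
  unfold expLe at h
  split_ifs at h with hx <;> simp only [Bool.and_eq_true, decide_eq_true_eq] at h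
  · obtain ⟨h1, -⟩ := mem_eNegIv hx
    have h' : (1 : ℝ) ≤ (q : ℝ) * ((eNegIv x).1 : ℝ) := by exact_mod_cast h.2
    have : (1 : ℝ) ≤ (q : ℝ) * exp (-(x : ℝ)) :=
      h'.trans (mul_le_mul_of_nonneg_left h1 (by exact_mod_cast h.1))
    rwa [exp_neg, ← div_eq_mul_inv, one_le_div (exp_pos _)] at this
  · obtain ⟨-, h2⟩ := mem_eNegIv (le_of_lt (neg_pos.2 (not_le.1 hx)))
    have h' : ((eNegIv (-x)).2 : ℝ) ≤ (q : ℝ) := by exact_mod_cast h
    simpa using h2.trans h'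

/-- The claimed bounds at a grid point. -/
structure Pt where
  /-- The point. -/
  t : ℚ
  /-- Its logarithm. -/
  l : Iv
  /-- `exp t`. -/
  e : Iv
  /-- `num1`. -/
  n1 : Iv
  /-- `tail1`. -/
  s1 : Iv
  /-- `num2`. -/
  n2 : Iv
  /-- `tail2`. -/
  s2 : Iv

/-- The logarithm and exponential witnesses of a point. -/
def Pt.baseOk (p : Pt) : Bool :=
  decide (0 ≤ p.t) &&
  (if p.t = 0 then decide (p.l.1 ≤ 0) && decide (0 ≤ p.l.2)
    else expLe p.l.1 p.t && leExp p.t p.l.2) &&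
  leExp p.e.1 p.t && expLe p.t p.e.2

/-- The interval of `prim2 n`. -/
def prim2Iv (n : ℕ) (t : ℚ) (l : Iv) : Iv :=
  ivAdd (ivSub (ivMul (ivMul l l) (ivC (serS 0 n t))) (ivMul (ivC 2) (ivMul l (ivC (serS 1 n t)))))
    (ivC (2 * serS 2 n t))

/-- The interval of `cum2`. -/
def cum2Iv (t : ℚ) (l : Iv) : Iv :=
  ((prim2Iv terms t l).1, (prim2Iv (terms + 1) t l).2)

/-- The interval of `cum1`. -/
def cum1Iv (t : ℚ) (l : Iv) : Iv :=
  let r := (t ^ (terms + 1) / ((terms + 1).factorial : ℚ) +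
    ((prim2Iv (terms + 1) t l).2 - (prim2Iv terms t l).1)) / 2
  ivAdd (ivSub (ivMul l (ivC (serS 0 terms t))) (ivC (serS 1 terms t))) (-r, r)

/-- The bounds of `gam1`, `gam2` follow from the series at `p.t` and the tail. -/
def gamOk (p : Pt) (g1 g2 : Iv) : Bool :=
  p.baseOk && decide (1 ≤ p.t) &&
  ivLe (ivAdd (cum1Iv p.t p.l) (0, (p.t + 1) * (eNegIv p.t).2)) g1 &&
  ivLe (ivAdd (cum2Iv p.t p.l) (0, (p.t ^ 2 + 2 * p.t + 2) * (eNegIv p.t).2)) g2

/-- A grid point is as claimed. -/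
def Pt.ok (g1 g2 : Iv) (p : Pt) : Bool :=
  p.baseOk &&
  ivLe (ivMul p.e (ivSub g1 (cum1Iv p.t p.l))) p.s1 &&
  ivLe (ivMul p.e (ivSub g2 (cum2Iv p.t p.l))) p.s2 &&
  ivLe (ivAdd (ivSub (ivMul (ivC p.t) p.l) (ivC p.t)) p.s1) p.n1 &&
  ivLe (ivAdd (ivAdd (ivSub (ivMul (ivC p.t) (ivMul p.l p.l))
    (ivMul (ivC 2) (ivMul (ivC p.t) p.l))) (ivC (2 * p.t))) p.s2) p.n2

theorem Pt.mem_base {p : Pt} (h : p.baseOk = true) :
    (0 : ℝ) ≤ (p.t : ℝ) ∧ Mem p.l (log (p.t : ℝ)) ∧ Mem p.e (exp (p.t : ℝ)) := by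
  simp only [Pt.baseOk, Bool.and_eq_true, decide_eq_true_eq] at h
  obtain ⟨⟨⟨h0, hl⟩, he1⟩, he2⟩ := h
  refine ⟨by exact_mod_cast h0, ?_, le_exp_of_leExp he1, exp_le_of_expLe he2⟩
  split_ifs at hl with ht <;> simp only [Bool.and_eq_true, decide_eq_true_eq] at hl
  · rw [ht]; simp only [Rat.cast_zero, log_zero, Mem]
    exact ⟨by exact_mod_cast hl.1, by exact_mod_cast hl.2⟩
  · have hp : (0 : ℝ) < (p.t : ℝ) := by exact_mod_cast lt_of_le_of_ne h0 (Ne.symm ht)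
    exact ⟨(le_log_iff_exp_le hp).2 (exp_le_of_expLe hl.1),
      (log_le_iff_le_exp hp).2 (le_exp_of_leExp hl.2)⟩

theorem mem_prim2Iv (n : ℕ) (t : ℚ) {l : Iv} (hl : Mem l (log (t : ℝ))) :
    Mem (prim2Iv n t l) (prim2 n (t : ℝ)) := by
  have h0 := mem_ivC (serS 0 n t); have h1 := mem_ivC (serS 1 n t)
  have h2 := mem_ivC (2 * serS 2 n t); have c2 := mem_ivC 2
  simp only [cast_serS, Rat.cast_mul, Rat.cast_ofNat] at h0 h1 h2 c2
  have := mem_ivAdd (mem_ivSub (mem_ivMul (mem_ivMul hl hl) h0)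
    (mem_ivMul c2 (mem_ivMul hl h1))) h2
  simpa only [prim2, prim2Iv, sq] using this

theorem mem_cum {t : ℚ} (ht : (0 : ℝ) ≤ (t : ℝ)) {l : Iv} (hl : Mem l (log (t : ℝ))) :
    Mem (cum1Iv t l) (cum1 (t : ℝ)) ∧ Mem (cum2Iv t l) (cum2 (t : ℝ)) := by
  have p0 := mem_prim2Iv terms t hl
  have p1 := mem_prim2Iv (terms + 1) t hl
  have hb := cum2_bounds even_terms ht
  refine ⟨?_, p0.1.trans hb.1, hb.2.trans p1.2⟩
  have h1 := abs_le.1 (cum1_bounds even_terms ht)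
  have h0 := mem_ivC (serS 0 terms t); have hs := mem_ivC (serS 1 terms t)
  simp only [cast_serS] at h0 hs
  have hd := mem_ivSub (mem_ivMul hl h0) hs
  have hr : Mem (-((t ^ (terms + 1) / ((terms + 1).factorial : ℚ) +
      ((prim2Iv (terms + 1) t l).2 - (prim2Iv terms t l).1)) / 2),
      (t ^ (terms + 1) / ((terms + 1).factorial : ℚ) +
      ((prim2Iv (terms + 1) t l).2 - (prim2Iv terms t l).1)) / 2)
      (cum1 (t : ℝ) - prim1 terms (t : ℝ)) := by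
    have a := p1.2; have b := p0.1
    simp only [Mem, Rat.cast_neg, Rat.cast_div, Rat.cast_add, Rat.cast_sub, Rat.cast_pow,
      Rat.cast_natCast, Rat.cast_ofNat]
    constructor <;> linarith [h1.1, h1.2]
  have := mem_ivAdd hd hr
  rw [← prim1, add_sub_cancel] at this
  exact this

theorem mem_gam {p : Pt} {g1 g2 : Iv} (h : gamOk p g1 g2 = true) :
    Mem g1 gam1 ∧ Mem g2 gam2 := by
  simp only [gamOk, Bool.and_eq_true, decide_eq_true_eq] at h
  obtain ⟨⟨⟨hb, h1⟩, hg1⟩, hg2⟩ := h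
  obtain ⟨ht, hl, -⟩ := Pt.mem_base hb
  have h1' : (1 : ℝ) ≤ (p.t : ℝ) := by exact_mod_cast h1
  obtain ⟨a1, a2, a3, a4⟩ := gam_tail h1'
  obtain ⟨c1, c2⟩ := mem_cum ht hl
  obtain ⟨-, he⟩ := mem_eNegIv (le_trans zero_le_one h1)
  constructor
  · have hm : Mem (0, (p.t + 1) * (eNegIv p.t).2) (gam1 - cum1 (p.t : ℝ)) := by
      simp only [Mem, Rat.cast_zero, Rat.cast_mul, Rat.cast_add, Rat.cast_one]
      exact ⟨a1, a2.trans (mul_le_mul_of_nonneg_left he (by positivity))⟩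
    have := mem_ivAdd c1 hm
    rw [add_sub_cancel] at this
    exact mem_of_ivLe hg1 this
  · have hm : Mem (0, (p.t ^ 2 + 2 * p.t + 2) * (eNegIv p.t).2) (gam2 - cum2 (p.t : ℝ)) := by
      simp only [Mem, Rat.cast_zero, Rat.cast_mul, Rat.cast_add, Rat.cast_pow, Rat.cast_ofNat]
      exact ⟨a3, a4.trans (mul_le_mul_of_nonneg_left he (by positivity))⟩
    have := mem_ivAdd c2 hm
    rw [add_sub_cancel] at this
    exact mem_of_ivLe hg2 this

theorem Pt.mem_ok {g1 g2 : Iv} {p : Pt} (h1 : Mem g1 gam1) (h2 : Mem g2 gam2)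
    (h : p.ok g1 g2 = true) : Mem p.n1 (num1 (p.t : ℝ)) ∧ Mem p.s1 (tail1 (p.t : ℝ)) ∧
      Mem p.n2 (num2 (p.t : ℝ)) ∧ Mem p.s2 (tail2 (p.t : ℝ)) := by
  simp only [Pt.ok, Bool.and_eq_true] at h
  obtain ⟨⟨⟨⟨hb, a⟩, b⟩, c⟩, d⟩ := h
  obtain ⟨ht, hl, he⟩ := Pt.mem_base hb
  obtain ⟨c1, c2⟩ := mem_cum ht hl
  have s1 : Mem p.s1 (tail1 (p.t : ℝ)) := mem_of_ivLe a (mem_ivMul he (mem_ivSub h1 c1))
  have s2 : Mem p.s2 (tail2 (p.t : ℝ)) := mem_of_ivLe b (mem_ivMul he (mem_ivSub h2 c2))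
  have k2 := mem_ivC 2; have k2t := mem_ivC (2 * p.t)
  simp only [Rat.cast_mul, Rat.cast_ofNat] at k2 k2t
  refine ⟨mem_of_ivLe c (mem_ivAdd (mem_ivSub (mem_ivMul (mem_ivC p.t) hl) (mem_ivC p.t)) s1), s1,
    mem_of_ivLe d ?_, s2⟩
  have := mem_ivAdd (mem_ivAdd (mem_ivSub (mem_ivMul (mem_ivC p.t) (mem_ivMul hl hl))
    (mem_ivMul k2 (mem_ivMul (mem_ivC p.t) hl))) k2t) s2
  simpa only [num2, sq] using this

/-- A cell: its right end, the line `c + s u`, bounds of the mean, a bound of the log moment. -/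
structure Cell where
  /-- The right end. -/
  hi : Pt
  /-- The value at zero of the line. -/
  c : ℚ
  /-- The slope of the line. -/
  s : ℚ
  /-- A lower bound of the mean. -/
  lo1 : ℚ
  /-- An upper bound of the mean. -/
  up1 : ℚ
  /-- An upper bound of the logarithm of the second moment at the left end. -/
  lx : ℚ

/-- `(1 + t)` times the second moment. -/
def pol {K : Type*} [Field K] (t : K) : K := t ^ 3 / 3 + t ^ 2 + 2 * t + 2

/-- The lower bound of `(1 + t)` times the inequality on a cell. -/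
def Cell.low (m : ℚ) (a : Pt) (C : Cell) (t : ℚ) : ℚ :=
  (1 - C.s * (C.lo1 + C.up1)) * (a.n1.1 + (t - a.t) * a.s1.1) +
    C.s * (a.n2.1 + (t - a.t) * ((1 - (C.hi.t - a.t)) * C.hi.s2.1)) +
    (1 + t) * (C.s * C.lo1 * C.up1 + C.c - C.s - 1 + 6931471803 / 10000000000 - m -
      (C.lx - 1) / 2) - pol t / (2 * (pol a.t / (1 + a.t)))

/-- The check of one cell. -/
def Cell.ok (m : ℚ) (a : Pt) (C : Cell) : Bool :=
  decide (a.t < C.hi.t) && decide (C.hi.t - a.t ≤ 1) && decide (0 ≤ C.s) &&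
  decide (0 ≤ 1 - C.s * (C.lo1 + C.up1)) &&
  decide (C.lo1 * (1 + a.t) ≤ a.n1.1) &&
  decide (C.lo1 * (1 + C.hi.t) ≤ a.n1.1 + (C.hi.t - a.t) * a.s1.1) &&
  decide (a.n1.2 ≤ C.up1 * (1 + a.t)) &&
  decide (a.n1.2 + (C.hi.t - a.t) * C.hi.s1.2 ≤ C.up1 * (1 + C.hi.t)) &&
  leExp (pol a.t / (1 + a.t)) C.lx &&
  decide (0 ≤ C.low m a a.t) && decide (0 ≤ C.low m a C.hi.t)

theorem affine_nonneg {t0 t1 t f0 f1 : ℝ} (h0 : t0 ≤ t) (h1 : t ≤ t1) (hlt : t0 < t1)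
    (e0 : 0 ≤ f0) (e1 : 0 ≤ f1) {f : ℝ}
    (h : (t1 - t) * f0 + (t - t0) * f1 ≤ (t1 - t0) * f) : 0 ≤ f := by
  have : 0 ≤ (t1 - t0) * f :=
    le_trans (add_nonneg (mul_nonneg (by linarith) e0) (mul_nonneg (by linarith) e1)) h
  exact nonneg_of_mul_nonneg_right this (by linarith)

theorem concave_nonneg {α β D t0 t1 t : ℝ} (hD : 0 < D) (h00 : 0 ≤ t0) (h0 : t0 ≤ t) (h1 : t ≤ t1)
    (hlt : t0 < t1) (e0 : 0 ≤ α + β * t0 - pol t0 / D) (e1 : 0 ≤ α + β * t1 - pol t1 / D) :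
    0 ≤ α + β * t - pol t / D := by
  refine affine_nonneg h0 h1 hlt e0 e1 ?_
  have hp : (t1 - t) * pol t0 + (t - t0) * pol t1 - (t1 - t0) * pol t =
      (t - t0) * (t1 - t) * (t1 - t0) * ((t + t0 + t1) / 3 + 1) := by unfold pol; ring
  have hn : 0 ≤ ((t1 - t) * pol t0 + (t - t0) * pol t1 - (t1 - t0) * pol t) / D := by
    rw [hp]
    refine div_nonneg (mul_nonneg (mul_nonneg (mul_nonneg ?_ ?_) ?_) ?_) hD.le <;> linarith
  have e : ((t1 - t) * pol t0 + (t - t0) * pol t1 - (t1 - t0) * pol t) / D =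
      (t1 - t) * (pol t0 / D) + (t - t0) * (pol t1 / D) - (t1 - t0) * (pol t / D) := by ring
  linarith

theorem cell_algebra {w M E N1 N2 L R2 A B s c m lx P X0 ln2 l2 lnX ψu : ℝ} (hw : 0 < w)
    (hs : 0 ≤ s) (hco : 0 ≤ 1 - s * (A + B)) (hA : A ≤ M) (hB : M ≤ B) (hN : M * w = N1)
    (hE : E * w = N2 - M * N1 - w) (hL : L ≤ N1) (hR : R2 ≤ N2) (hψ : c + s * E ≤ ψu)
    (hl2 : l2 ≤ ln2) (hlX : lnX ≤ lx + P / w / X0 - 1) (hX0 : 0 < X0)
    (hlow : 0 ≤ (1 - s * (A + B)) * L + s * R2 +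
      w * (s * A * B + c - s - 1 + l2 - m - (lx - 1) / 2) - P / (2 * X0)) :
    lnX / 2 + 1 - ln2 + m ≤ M + ψu := by
  have hsq := mul_nonneg (mul_nonneg hs hw.le) (mul_nonneg (sub_nonneg.2 hA) (sub_nonneg.2 hB))
  have k1 := mul_le_mul_of_nonneg_left hL hco
  have k2 := mul_le_mul_of_nonneg_left hR hs
  have k3 := mul_le_mul_of_nonneg_left hψ hw.le
  have k4 := mul_le_mul_of_nonneg_left hl2 hw.le
  have k5 := mul_le_mul_of_nonneg_left hlX hw.le
  have e5 : w * (lx + P / w / X0 - 1) = w * (lx - 1) + P / X0 := by field_simp; ring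
  have e6 : P / (2 * X0) = P / X0 / 2 := by field_simp
  rw [e6] at hlow
  rw [e5] at k5
  refine le_of_mul_le_mul_left ?_ hw
  subst hN
  have e7 : s * (E * w) = s * (N2 - M * (M * w) - w) := by rw [hE]
  nlinarith

theorem Cell.sound {m : ℚ} {a : Pt} {C : Cell} (hok : C.ok m a = true) (ha0 : (0 : ℝ) ≤ (a.t : ℝ))
    (hn1 : Mem a.n1 (num1 (a.t : ℝ))) (hs1 : Mem a.s1 (tail1 (a.t : ℝ)))
    (hn2 : Mem a.n2 (num2 (a.t : ℝ))) (hb1 : Mem C.hi.s1 (tail1 (C.hi.t : ℝ)))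
    (hb2 : Mem C.hi.s2 (tail2 (C.hi.t : ℝ)))
    {ψ : ℝ → ℝ} (hψ : ∀ u : ℝ, 0 ≤ u → (C.c : ℝ) + (C.s : ℝ) * u ≤ ψ u)
    {t : ℝ} (h0 : (a.t : ℝ) ≤ t) (h1 : t ≤ (C.hi.t : ℝ)) (hU : 0 ≤ famExcess t) :
    Real.log (famSnd t) / 2 + 1 - Real.log 2 + (m : ℝ) ≤ famMean t + ψ (famExcess t) := by
  simp only [Cell.ok, Bool.and_eq_true, decide_eq_true_eq] at hok
  obtain ⟨⟨⟨⟨⟨⟨⟨⟨⟨⟨c0, c1⟩, c2⟩, c3⟩, c4⟩, c5⟩, c6⟩, c7⟩, c8⟩, c9⟩, c10⟩ := hok
  have ht : 0 ≤ t := ha0.trans h0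
  have t1 : 0 < 1 + t := by linarith
  obtain ⟨b1, b2, b3⟩ := num_bounds ha0 h0 h1
  set T0 := (a.t : ℝ) with hT0
  set T1 := (C.hi.t : ℝ) with hT1
  have hlt : T0 < T1 := by rw [hT0, hT1]; exact_mod_cast c0
  set L := (a.n1.1 : ℝ) + (t - T0) * (a.s1.1 : ℝ) with hL
  set U := (a.n1.2 : ℝ) + (t - T0) * (C.hi.s1.2 : ℝ) with hU'
  have hLn : L ≤ num1 t := by
    have := mul_le_mul_of_nonneg_left hs1.1 (sub_nonneg.2 h0)
    linarith [hn1.1]
  have hUn : num1 t ≤ U := by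
    have := mul_le_mul_of_nonneg_left hb1.2 (sub_nonneg.2 h0)
    linarith [hn1.2]
  have hA : (C.lo1 : ℝ) * (1 + t) ≤ L := by
    have e0 : (C.lo1 : ℝ) * (1 + T0) ≤ (a.n1.1 : ℝ) := by rw [hT0]; exact_mod_cast c4
    have e1 : (C.lo1 : ℝ) * (1 + T1) ≤ (a.n1.1 : ℝ) + (T1 - T0) * (a.s1.1 : ℝ) := by
      rw [hT0, hT1]; exact_mod_cast c5
    have := affine_nonneg h0 h1 hlt (sub_nonneg.2 e0) (sub_nonneg.2 e1)
      (f := L - (C.lo1 : ℝ) * (1 + t)) (le_of_eq (by rw [hL]; ring))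
    linarith
  have hB : U ≤ (C.up1 : ℝ) * (1 + t) := by
    have e0 : (a.n1.2 : ℝ) ≤ (C.up1 : ℝ) * (1 + T0) := by rw [hT0]; exact_mod_cast c6
    have e1 : (a.n1.2 : ℝ) + (T1 - T0) * (C.hi.s1.2 : ℝ) ≤ (C.up1 : ℝ) * (1 + T1) := by
      rw [hT0, hT1]; exact_mod_cast c7
    have := affine_nonneg h0 h1 hlt (sub_nonneg.2 e0) (sub_nonneg.2 e1)
      (f := (C.up1 : ℝ) * (1 + t) - U) (le_of_eq (by rw [hU']; ring))
    linarith
  have hN2 : (a.n2.1 : ℝ) + (t - T0) * ((1 - (T1 - T0)) * (C.hi.s2.1 : ℝ)) ≤ num2 t := by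
    have hh : (T1 - T0) ≤ 1 := by rw [hT0, hT1]; exact_mod_cast c1
    have := mul_le_mul_of_nonneg_left
      (mul_le_mul_of_nonneg_left hb2.1 (sub_nonneg.2 hh)) (sub_nonneg.2 h0)
    linarith [hn2.1]
  -- the concave lower bound
  set low : ℝ → ℝ := fun x => (1 - (C.s : ℝ) * ((C.lo1 : ℝ) + C.up1)) * (a.n1.1 + (x - T0) * a.s1.1) +
    (C.s : ℝ) * (a.n2.1 + (x - T0) * ((1 - (T1 - T0)) * C.hi.s2.1)) +
    (1 + x) * ((C.s : ℝ) * C.lo1 * C.up1 + C.c - C.s - 1 + 6931471803 / 10000000000 - m -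
      ((C.lx : ℝ) - 1) / 2) - pol x / (2 * (pol T0 / (1 + T0))) with hlow
  have e0 : 0 ≤ low T0 := by
    have h' : ((0 : ℚ) : ℝ) ≤ ((C.low m a a.t : ℚ) : ℝ) := by exact_mod_cast c9
    simp only [Cell.low, pol] at h'
    push_cast at h'
    simpa [hlow, pol, hT0, hT1] using h'
  have e1 : 0 ≤ low T1 := by
    have h' : ((0 : ℚ) : ℝ) ≤ ((C.low m a C.hi.t : ℚ) : ℝ) := by exact_mod_cast c10
    simp only [Cell.low, pol] at h'
    push_cast at h'
    simpa [hlow, pol, hT0, hT1] using h'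
  have hX0 : 0 < pol T0 / (1 + T0) := by unfold pol; positivity
  have hlowt : 0 ≤ low t := by
    set K := (C.s : ℝ) * C.lo1 * C.up1 + C.c - C.s - 1 + 6931471803 / 10000000000 - m -
      ((C.lx : ℝ) - 1) / 2
    set al := (1 - (C.s : ℝ) * ((C.lo1 : ℝ) + C.up1))
    set g := (1 - (T1 - T0)) * (C.hi.s2.1 : ℝ)
    have e : ∀ x, low x = (al * (a.n1.1 - T0 * a.s1.1) + (C.s : ℝ) * (a.n2.1 - T0 * g) + K) +
        (al * a.s1.1 + (C.s : ℝ) * g + K) * x - pol x / (2 * (pol T0 / (1 + T0))) := fun x => by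
      simp only [hlow]; ring
    rw [e] at e0 e1 ⊢
    exact concave_nonneg (by positivity) ha0 h0 h1 hlt e0 e1
  -- the logarithm
  have hPX : famSnd t = pol t / (1 + t) := famSnd_eq ht
  have hPt : 0 < pol t / (1 + t) := by unfold pol; positivity
  have hlog : Real.log (famSnd t) ≤ (C.lx : ℝ) + (pol t / (1 + t)) / (pol T0 / (1 + T0)) - 1 := by
    have hq : Real.log (pol T0 / (1 + T0)) ≤ (C.lx : ℝ) := by
      rw [Real.log_le_iff_le_exp hX0]
      have := le_exp_of_leExp c8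
      simp only [pol] at this ⊢
      push_cast at this
      exact this
    have := Real.log_le_sub_one_of_pos (div_pos hPt hX0)
    rw [Real.log_div hPt.ne' hX0.ne'] at this
    rw [hPX]
    linarith
  -- the square of the mean
  have hM : famMean t = num1 t / (1 + t) := famMean_eq ht
  have hMe : famMean t * (1 + t) = num1 t := by rw [hM, div_mul_cancel₀]; exact t1.ne'
  have hMlo : (C.lo1 : ℝ) ≤ famMean t := by rw [hM, le_div_iff₀ t1]; linarith
  have hMhi : famMean t ≤ (C.up1 : ℝ) := by rw [hM, div_le_iff₀ t1]; linarith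
  have hE : famExcess t * (1 + t) = num2 t - famMean t * num1 t - (1 + t) := by
    rw [famExcess_eq ht, hM]; field_simp
  have hs : (0 : ℝ) ≤ (C.s : ℝ) := by exact_mod_cast c2
  have hcoef : (0 : ℝ) ≤ 1 - (C.s : ℝ) * ((C.lo1 : ℝ) + C.up1) := by exact_mod_cast c3
  simp only [hlow] at hlowt
  exact cell_algebra (l2 := 6931471803 / 10000000000) t1 hs hcoef hMlo hMhi hMe hE hLn hN2
    (hψ _ hU) (by linarith [Real.log_two_gt_d9]) hlog hX0 hlowt

/-- Consecutive cells. -/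
def chainOk (g1 g2 : Iv) (m : ℚ) : Pt → List Cell → Bool
  | _, [] => true
  | a, C :: l => C.hi.ok g1 g2 && C.ok m a && chainOk g1 g2 m C.hi l

/-- The last point of a chain. -/
def chainEnd : Pt → List Cell → ℚ
  | a, [] => a.t
  | _, C :: l => chainEnd C.hi l

theorem chain_sound {g1 g2 : Iv} {m : ℚ} (hg1 : Mem g1 gam1) (hg2 : Mem g2 gam2) {ψ : ℝ → ℝ} :
    ∀ (l : List Cell) (a : Pt), a.ok g1 g2 = true → chainOk g1 g2 m a l = true →
      (∀ C ∈ l, ∀ u : ℝ, 0 ≤ u → (C.c : ℝ) + (C.s : ℝ) * u ≤ ψ u) →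
      (∀ t : ℝ, 0 ≤ t → 0 ≤ famExcess t) → ∀ t : ℝ, (a.t : ℝ) < t → t ≤ (chainEnd a l : ℝ) →
      Real.log (famSnd t) / 2 + 1 - Real.log 2 + (m : ℝ) ≤ famMean t + ψ (famExcess t) := by
  intro l
  induction l with
  | nil =>
    intro a _ _ _ _ t h0 h1
    simp only [chainEnd] at h1
    linarith
  | cons C l ih =>
    intro a hpa hc hψ hU t h0 h1
    simp only [chainOk, Bool.and_eq_true] at hc
    obtain ⟨⟨hb, hC⟩, hl⟩ := hc
    rcases le_or_gt t (C.hi.t : ℝ) with h | h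
    · obtain ⟨q1, q2, q3, -⟩ := Pt.mem_ok hg1 hg2 hpa
      obtain ⟨-, r2, -, r4⟩ := Pt.mem_ok hg1 hg2 hb
      have hbase : a.baseOk = true := by
        simp only [Pt.ok, Bool.and_eq_true] at hpa
        exact hpa.1.1.1.1
      have ha0 := (Pt.mem_base hbase).1
      exact C.sound hC ha0 q1 q2 q3 r2 r4 (hψ C (by simp)) h0.le h (hU t (ha0.trans h0.le))
    · exact ih C.hi hb hl (fun D hD => hψ D (by simp [hD])) hU t h h1

/-- `log t - t / (1 + t)` minus half of the logarithm of the second moment. -/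
noncomputable def farFn (t : ℝ) : ℝ :=
  Real.log t - t / (1 + t) - (Real.log (pol t) - Real.log (1 + t)) / 2

theorem farFn_mono : MonotoneOn farFn (Set.Ici 1) := by
  have hd : ∀ t : ℝ, 0 < t → HasDerivAt farFn
      (t⁻¹ - ((1 + t) - t) / (1 + t) ^ 2 - ((t ^ 2 + 2 * t + 2) / pol t - 1 / (1 + t)) / 2) t := by
    intro t ht
    have p : 0 < pol t := by unfold pol; positivity
    have q : HasDerivAt (fun y : ℝ => 1 + y) 1 t := (hasDerivAt_id t).const_add 1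
    have hp : HasDerivAt (fun y : ℝ => pol y) (t ^ 2 + 2 * t + 2) t := by
      unfold pol
      refine ((((hasDerivAt_pow 3 t).div_const 3).add (hasDerivAt_pow 2 t)).add
        ((hasDerivAt_id t).const_mul 2)).add_const 2 |>.congr_deriv ?_
      simp
    refine (((hasDerivAt_log ht.ne').sub ((hasDerivAt_id t).div q (by linarith))).sub
      (((hp.log p.ne').sub (q.log (by linarith))).div_const 2)).congr_deriv ?_
    simp
  refine monotoneOn_of_hasDerivWithinAt_nonneg (convex_Ici 1)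
    (fun t ht => (hd t (zero_lt_one.trans_le ht)).continuousAt.continuousWithinAt)
    (fun t ht => (hd t (zero_lt_one.trans_le (interior_subset ht))).hasDerivWithinAt) fun t ht => ?_
  have ht0 : 0 < t := zero_lt_one.trans_le (interior_subset ht : t ∈ Set.Ici 1)
  have p : 0 < pol t := by unfold pol; positivity
  have e : t⁻¹ - ((1 + t) - t) / (1 + t) ^ 2 - ((t ^ 2 + 2 * t + 2) / pol t - 1 / (1 + t)) / 2 =
      (4 + 8 * t + 8 * t ^ 2 + 8 / 3 * t ^ 3) / (2 * t * (1 + t) ^ 2 * pol t) := by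
    field_simp
    unfold pol
    ring
  rw [e]
  positivity

/-- The check of the range beyond `T`. -/
def farOk (m c s T : ℚ) (lT lx : ℚ) : Bool :=
  decide (1 ≤ T) && decide (0 ≤ s) && expLe lT T && leExp (pol T / (1 + T)) lx &&
  decide (1 - 6931471803 / 10000000000 + m ≤ lT - T / (1 + T) - lx / 2 + c)

theorem far_sound {m c s T lT lx : ℚ} (h : farOk m c s T lT lx = true) {ψ : ℝ → ℝ}
    (hψ : ∀ u : ℝ, 0 ≤ u → (c : ℝ) + (s : ℝ) * u ≤ ψ u)
    (hU : ∀ t : ℝ, 0 ≤ t → 0 ≤ famExcess t) {t : ℝ} (ht : (T : ℝ) ≤ t) :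
    Real.log (famSnd t) / 2 + 1 - Real.log 2 + (m : ℝ) ≤ famMean t + ψ (famExcess t) := by
  simp only [farOk, Bool.and_eq_true, decide_eq_true_eq] at h
  obtain ⟨⟨⟨⟨d1, d2⟩, d3⟩, d4⟩, d5⟩ := h
  have hT : (1 : ℝ) ≤ (T : ℝ) := by exact_mod_cast d1
  have t0 : 0 < t := by linarith
  have hT0 : (0 : ℝ) < (T : ℝ) := by linarith
  have hp : ∀ x : ℝ, 0 ≤ x → 0 < pol x := fun x hx => by unfold pol; positivity
  have hl : (lT : ℝ) ≤ Real.log (T : ℝ) := (le_log_iff_exp_le hT0).2 (exp_le_of_expLe d3)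
  have hx : Real.log (pol (T : ℝ) / (1 + (T : ℝ))) ≤ (lx : ℝ) := by
    rw [Real.log_le_iff_le_exp (div_pos (hp _ hT0.le) (by linarith))]
    have := le_exp_of_leExp d4
    simp only [pol] at this ⊢
    push_cast at this
    exact this
  rw [Real.log_div (hp _ hT0.le).ne' (by linarith : (1 : ℝ) + (T : ℝ) ≠ 0)] at hx
  have d5' : 1 - 6931471803 / 10000000000 + (m : ℝ) ≤
      (lT : ℝ) - (T : ℝ) / (1 + (T : ℝ)) - (lx : ℝ) / 2 + (c : ℝ) := by
    have h' : (((1 - 6931471803 / 10000000000 + m : ℚ)) : ℝ) ≤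
        ((lT - T / (1 + T) - lx / 2 + c : ℚ) : ℝ) := by exact_mod_cast d5
    push_cast at h'
    exact h'
  have hmono := farFn_mono (Set.mem_Ici.2 hT) (Set.mem_Ici.2 (hT.trans ht)) ht
  simp only [farFn] at hmono
  have hM : Real.log t - t / (1 + t) ≤ famMean t := by
    rw [famMean_eq t0.le, le_div_iff₀ (by linarith : (0 : ℝ) < 1 + t), num1, sub_mul,
      div_mul_cancel₀ _ (by linarith : (1 : ℝ) + t ≠ 0)]
    linarith [log_le_tail1 t0]
  have hs : (0 : ℝ) ≤ (s : ℝ) := by exact_mod_cast d2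
  have hk := hψ _ (hU t t0.le)
  have := mul_nonneg hs (hU t t0.le)
  rw [famSnd_eq t0.le, show t ^ 3 / 3 + t ^ 2 + 2 * t + 2 = pol t from rfl,
    Real.log_div (hp _ t0.le).ne' (by linarith : (1 : ℝ) + t ≠ 0)]
  linarith [Real.log_two_gt_d9]

/-- The certificate gives the family inequality. -/
theorem famIneq_of_cert {ψ : ℝ → ℝ} {m c s lT lx : ℚ} {g1 g2 : Iv} {G a : Pt} {l : List Cell}
    (hG : gamOk G g1 g2 = true) (ha : a.ok g1 g2 = true) (ha0 : a.t = 0)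
    (hl : chainOk g1 g2 m a l = true) (hfar : farOk m c s (chainEnd a l) lT lx = true)
    (hψl : ∀ C ∈ l, ∀ u : ℝ, 0 ≤ u → (C.c : ℝ) + (C.s : ℝ) * u ≤ ψ u)
    (hψ : ∀ u : ℝ, 0 ≤ u → (c : ℝ) + (s : ℝ) * u ≤ ψ u)
    (hne : l ≠ []) : FamIneq ψ (m : ℝ) := by
  obtain ⟨hg1, hg2⟩ := mem_gam hG
  have hU : ∀ t : ℝ, 0 ≤ t → 0 ≤ famExcess t := fun t ht => famExcess_nonneg ht
  intro t ht
  rcases ht.eq_or_lt with rfl | h0
  · obtain ⟨C, l', rfl⟩ := List.exists_cons_of_ne_nil hne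
    simp only [chainOk, Bool.and_eq_true] at hl
    obtain ⟨⟨hb, hC⟩, -⟩ := hl
    obtain ⟨q1, q2, q3, -⟩ := Pt.mem_ok hg1 hg2 ha
    obtain ⟨-, r2, -, r4⟩ := Pt.mem_ok hg1 hg2 hb
    have hlt : a.t < C.hi.t := by
      simp only [Cell.ok, Bool.and_eq_true, decide_eq_true_eq] at hC
      exact hC.1.1.1.1.1.1.1.1.1.1
    have h0 : (a.t : ℝ) = 0 := by rw [ha0, Rat.cast_zero]
    exact C.sound hC (le_of_eq h0.symm) q1 q2 q3 r2 r4 (hψl C (by simp)) h0.le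
      (h0 ▸ (by exact_mod_cast hlt.le)) (hU 0 le_rfl)
  · rcases le_or_gt t (chainEnd a l : ℝ) with h | h
    · exact chain_sound hg1 hg2 l a ha hl hψl hU t (by rw [ha0, Rat.cast_zero]; exact h0) h
    · exact far_sound hfar hψ hU h.le

end Vale.Agent.P254.Unc.Fam
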