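import Vale.Agent.P254.Unc.CertDef
import Vale.Agent.P254.Unc.CertPoly
import Vale.Agent.P254.Unc.FamCheck

/-!
# P254: a kernel-checkable certificate for `Data.Main`

The range `(0, Z]` is cut into cells in `z`, each cell into rectangles in `d`. On a rectangle linear
bounds for `z/(exp z - 1)`, a polynomial upper bound for `K₁` and a tangent line of `β ²` turn the
inequality into four polynomial inequalities on the unit square.
-/

open Real

namespace Vale.Agent.P254.Unc.Cert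

open Fam (leExp expLe)

/-- `a + b x`. -/
noncomputable def lin2 (a b : ℚ) : Poly2 := add2 (const2 a) (scale2 b xP)

/-- A rectangle: `d ∈ [d0, d1]` and the tangency point `b00 + bx x + bt t` of `β ²`. -/
structure Sub where
  d0 : ℚ
  d1 : ℚ
  b00 : ℚ
  bx : ℚ
  bt : ℚ

/-- A cell `z ∈ [c, c + h]`. -/
structure Cell where
  c : ℚ
  h : ℚ
  elo : ℚ
  ehi : ℚ
  x0 : ℚ
  l0 : ℚ
  bl0 : ℚ
  bl1 : ℚ
  bh0 : ℚ
  bh1 : ℚ
  D : ℚ
  subs : List Sub

/-- `z`. -/
noncomputable def Cell.zP (C : Cell) : Poly2 := lin2 C.c C.h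

/-- The lower bound of `exp z - 1`. -/
noncomputable def Cell.loP (C : Cell) : Poly2 :=
  sub2 (scale2 C.elo (add2 (lin2 1 C.h) (mul2 (mul2 xP xP) (lin2 (C.h ^ 2 / 2) (C.h ^ 3 / 6)))))
    (const2 1)

/-- The upper bound of `exp z - 1`. -/
noncomputable def Cell.hiP (C : Cell) : Poly2 :=
  sub2 (scale2 C.ehi (add2 (lin2 1 C.h) (mul2 (mul2 xP xP) (lin2 (C.h ^ 2 / 2) (2 * C.h ^ 3 / 9)))))
    (const2 1)

/-- The upper bound of `K₁`. -/
noncomputable def Cell.kP (C : Cell) : Poly2 :=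
  add2 (scale2 (C.l0 - C.x0 / (1 + C.x0)) C.hiP) (const2 (1 / (1 + C.x0)))

/-- The lower bound of `z/(exp z - 1)`. -/
noncomputable def Cell.blP (C : Cell) : Poly2 := lin2 C.bl0 C.bl1

/-- The upper bound of `z/(exp z - 1)`. -/
noncomputable def Cell.bhP (C : Cell) : Poly2 := lin2 C.bh0 C.bh1

/-- Validity of the bounds. -/
noncomputable def Cell.boundsOk (C : Cell) : Bool :=
  decide (0 ≤ C.c) && decide (0 < C.h) && decide (C.h ≤ 1) && decide (0 ≤ C.elo) &&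
    leExp C.elo C.c && expLe C.c C.ehi && decide (0 ≤ C.x0) &&
    decide (C.x0 / (1 + C.x0) ≤ C.l0) && leExp (1 + C.x0) C.l0 &&
    decide (0 ≤ C.bh0) && decide (0 ≤ C.bh0 + C.bh1) &&
    nonneg2 (sub2 C.zP (mul2 C.blP C.hiP)) && nonneg2 (sub2 (mul2 C.bhP C.loP) C.zP) &&
    (decide (1 / 2 ≤ C.D) || nonneg2 (sub2 (add2 (scale2 C.D C.zP) C.blP) (const2 1)))

/-- No knot inside the cell. -/
def knotOk (C : Cell) (k : ℚ) : Bool := decide (k ≤ C.c) || decide (C.c + C.h ≤ k)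

/-- `k - z` cut at zero. -/
noncomputable def cutP (C : Cell) (k : ℚ) : Poly2 := if k ≤ C.c then (0, []) else lin2 (k - C.c) (-C.h)

/-- The value of the cubes. -/
noncomputable def cubesV (C : Cell) : List (ℚ × ℚ) → Poly2
  | [] => (0, [])
  | kv :: l => add2 (scale2 kv.2 (let u := cutP C kv.1; mul2 u (mul2 u u))) (cubesV C l)

/-- The derivative of the cubes. -/
noncomputable def cubesD (C : Cell) : List (ℚ × ℚ) → Poly2
  | [] => (0, [])
  | kv :: l => add2 (scale2 (-(3 * kv.2)) (let u := cutP C kv.1; mul2 u u)) (cubesD C l)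

/-- The spline on the cell. -/
noncomputable def Spl.valP (S : Spl) (C : Cell) : Poly2 :=
  add2 (add2 (const2 S.c) (cubesV C S.cubes)) (scale2 S.e (let u := cutP C S.top; mul2 u u))

/-- Its derivative on the cell. -/
noncomputable def Spl.derP (S : Spl) (C : Cell) : Poly2 :=
  add2 (cubesD C S.cubes) (scale2 (-(2 * S.e)) (cutP C S.top))

/-- No knot of the spline inside the cell. -/
def Spl.cellOk (S : Spl) (C : Cell) : Bool :=
  knotOk C S.top && S.cubes.all fun kv => knotOk C kv.1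

/-- `d`. -/
noncomputable def Sub.dP (R : Sub) : Poly2 := add2 (const2 R.d0) (scale2 (R.d1 - R.d0) tP)

/-- The tangency point. -/
noncomputable def Sub.bP (R : Sub) : Poly2 := add2 (lin2 R.b00 R.bx) (scale2 R.bt tP)

/-- The part independent of `β` and `B`, then the coefficients of `β`, `B` and `β B`. -/
noncomputable def parts (C : Data) (L : Cell) (R : Sub) : Poly2 × Poly2 × Poly2 × Poly2 :=
  let z := L.zP
  let d := R.dP
  let dd := mul2 d d
  let b := R.bP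
  let v1 := C.r1.valP L
  let v2 := C.r2.valP L
  let pd := add2 v1 (scale2 2 (mul2 v2 d))
  let base := add2 (sub2 (C.a.derP L) (C.a.valP L)) (sub2 (const2 (1 - C.K)) d)
  let base := sub2 base (scale2 C.kap (add2 (scale2 2 (mul2 L.kP d)) (mul2 z dd)))
  let base := sub2 base (scale2 (2 * C.s) (mul2 z (mul2 b b)))
  let base := add2 base (mul2 (add2 v1 (mul2 z (sub2 (C.r1.derP L) v1))) d)
  let base := add2 base (mul2 (add2 v2 (mul2 z (sub2 (C.r2.derP L) v2))) dd)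
  let base := sub2 base (mul2 pd (mul2 z dd))
  (base,
    sub2 (sub2 (scale2 (4 * C.s) (mul2 z b)) (const2 (1 + 2 * C.s))) (mul2 pd (mul2 z d)),
    mul2 pd (sub2 (const2 1) (scale2 2 d)), scale2 (-1) pd)

/-- The four corners of a rectangle. -/
noncomputable def Sub.ok (C : Data) (L : Cell) (R : Sub) : Bool :=
  match parts C L R with
  | (p0, pb, pB, pbB) =>
    nonneg2 (add2 p0 (mul2 L.blP pB)) && nonneg2 (add2 p0 (mul2 L.bhP pB)) &&
      nonneg2 (add2 (add2 p0 pb) (mul2 L.blP (add2 pB pbB))) &&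
      nonneg2 (add2 (add2 p0 pb) (mul2 L.bhP (add2 pB pbB)))

/-- The rectangles cover `[a, D]`. -/
noncomputable def subsOk (C : Data) (L : Cell) : ℚ → List Sub → Bool
  | a, [] => decide (L.D ≤ a)
  | a, R :: l => decide (R.d0 = a) && decide (a < R.d1) && R.ok C L && subsOk C L R.d1 l

/-- A cell is certified. -/
noncomputable def Cell.ok (C : Data) (L : Cell) : Bool :=
  L.boundsOk && C.a.cellOk L && C.r1.cellOk L && C.r2.cellOk L && subsOk C L 0 L.subs

/-- The cells are certified and cover `[a, b]`. -/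
noncomputable def cellsOk (C : Data) (b : ℚ) : ℚ → List Cell → Bool
  | a, [] => decide (b ≤ a)
  | a, L :: l => decide (L.c = a) && L.ok C && cellsOk C b (L.c + L.h) l

/-- The inequality for `z ∈ [a, b]`. -/
def Data.Covers (C : Data) (a b : ℚ) : Prop :=
  ∀ z d β : ℝ, 0 < z → (a : ℝ) ≤ z → z ≤ (b : ℝ) → 0 ≤ d → d ≤ 1 / z - 1 / (exp z - 1) →
    0 ≤ β → β ≤ 1 → (C.K : ℝ) ≤ C.gExpr z d β (z / (exp z - 1)) (kOne z)

theorem ev2_lin (a b : ℚ) (x t : ℝ) : ev2 (lin2 a b) x t = a + x * b := by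
  rw [lin2, ev2_add, ev2_const, ev2_scale, ev2_xP]; ring

theorem ev2_cutP {C : Cell} {k : ℚ} (h : knotOk C k = true) (hh : 0 < C.h) {x : ℝ} (hx : 0 ≤ x)
    (hx1 : x ≤ 1) (t : ℝ) :
    ev2 (cutP C k) x t = max ((k : ℝ) - ((C.c : ℝ) + x * C.h)) 0 := by
  have hh' : (0 : ℝ) < C.h := by exact_mod_cast hh
  unfold cutP
  split_ifs with hk
  · have : (k : ℝ) ≤ C.c := by exact_mod_cast hk
    rw [max_eq_right (by nlinarith)]; simp [ev2, evZ]
  · simp only [knotOk, Bool.or_eq_true, decide_eq_true_eq, hk, false_or] at h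
    have : (C.c : ℝ) + C.h ≤ k := by exact_mod_cast h
    rw [max_eq_left (by nlinarith), ev2_lin]; push_cast; ring

theorem ev2_valP {S : Spl} {C : Cell} (h : S.cellOk C = true) (hh : 0 < C.h) {x : ℝ} (hx : 0 ≤ x)
    (hx1 : x ≤ 1) (t : ℝ) :
    ev2 (S.valP C) x t = S.val ((C.c : ℝ) + x * C.h) ∧
      ev2 (S.derP C) x t = S.der ((C.c : ℝ) + x * C.h) := by
  simp only [Spl.cellOk, Bool.and_eq_true, List.all_eq_true] at h
  obtain ⟨ht, hk⟩ := h
  have key : ∀ l : List (ℚ × ℚ), (∀ kv ∈ l, knotOk C kv.1 = true) →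
      ev2 (cubesV C l) x t = (l.map fun kv =>
        (kv.2 : ℝ) * max ((kv.1 : ℝ) - ((C.c : ℝ) + x * C.h)) 0 ^ 3).sum ∧
      ev2 (cubesD C l) x t = (l.map fun kv =>
        -(3 * (kv.2 : ℝ)) * max ((kv.1 : ℝ) - ((C.c : ℝ) + x * C.h)) 0 ^ 2).sum := by
    intro l hl
    induction l with
    | nil => exact ⟨by simp [cubesV, ev2, evZ], by simp [cubesD, ev2, evZ]⟩
    | cons kv l ih =>
      obtain ⟨i1, i2⟩ := ih fun q hq => hl q (by simp [hq])
      simp only [cubesV, cubesD, ev2_add, ev2_scale, ev2_mul, i1, i2,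
        ev2_cutP (hl kv (by simp)) hh hx hx1 t, List.map_cons, List.sum_cons]
      constructor <;> (push_cast; ring)
  obtain ⟨k1, k2⟩ := key S.cubes hk
  simp only [Spl.valP, Spl.derP, Spl.val, Spl.der, ev2_add, ev2_const, ev2_scale, ev2_mul, k1, k2,
    ev2_cutP ht hh hx hx1 t]
  constructor <;> (push_cast; ring)

theorem kOne_le {z : ℝ} (hz : 0 < z) {x0 l0 : ℝ} (hx : 0 ≤ x0) (hl : 1 + x0 ≤ exp l0) :
    kOne z ≤ (l0 - x0 / (1 + x0)) * (exp z - 1) + 1 / (1 + x0) := by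
  have he : 0 < exp z - 1 := by linarith [add_one_le_exp z]
  have h1 : 1 - exp (-z) = 1 / ((1 : ℝ) + 1 / (exp z - 1)) := by
    rw [exp_neg]; field_simp; ring
  have hlog : log (1 + x0) ≤ l0 := (log_le_iff_le_exp (by linarith)).2 hl
  have h2 := log_le_sub_one_of_pos (x := (1 + 1 / (exp z - 1)) / (1 + x0)) (by positivity)
  rw [log_div (by positivity) (by positivity)] at h2
  have h3 : -log (1 - exp (-z)) ≤ l0 + (1 + 1 / (exp z - 1)) / (1 + x0) - 1 := by
    rw [h1, one_div, log_inv]; linarith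
  calc kOne z = (exp z - 1) * -log (1 - exp (-z)) := by rw [kOne]; ring
    _ ≤ (exp z - 1) * (l0 + (1 + 1 / (exp z - 1)) / (1 + x0) - 1) :=
      mul_le_mul_of_nonneg_left h3 he.le
    _ = _ := by field_simp; ring

theorem inv_sub_le_half {z : ℝ} (hz : 0 < z) : 1 / z - 1 / (exp z - 1) ≤ 1 / 2 := by
  have he : 0 < exp z - 1 := by linarith [add_one_le_exp z]
  rcases le_total 2 z with h2 | h2
  · have : 1 / z ≤ 1 / 2 := one_div_le_one_div_of_le two_pos h2
    linarith [one_div_pos.2 he]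
  rcases h2.eq_or_lt with rfl | h2'
  · linarith [one_div_pos.2 he]
  -- `exp z ≤ (2 + z) / (2 - z)` below two
  have hkey : exp z * (2 - z) ≤ 2 + z := by
    have hm : MonotoneOn (fun y : ℝ => 2 + y - exp y * (2 - y)) (Set.Ici 0) := by
      refine monotoneOn_of_hasDerivWithinAt_nonneg (convex_Ici _) (by fun_prop)
        (f' := fun y => 1 - exp y * (1 - y)) (fun y _ => ?_) (fun y _ => ?_)
      · exact (((hasDerivAt_id y).const_add 2).sub ((hasDerivAt_exp y).mul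
          ((hasDerivAt_id y).const_sub 2))).hasDerivWithinAt.congr_deriv (by simp; ring)
      · have := mul_le_mul_of_nonneg_left (add_one_le_exp (-y)) (exp_pos y).le
        rw [← exp_add, add_neg_cancel, exp_zero] at this
        linarith
    have := hm Set.self_mem_Ici (Set.mem_Ici.2 hz.le) hz.le
    simp at this
    linarith
  rw [div_sub_div _ _ hz.ne' he.ne', div_le_div_iff₀ (by positivity) two_pos]
  linarith

theorem Cell.h_pos {C : Cell} (h : C.boundsOk = true) : 0 < C.h := by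
  simp only [Cell.boundsOk, Bool.and_eq_true, Bool.or_eq_true, decide_eq_true_eq] at h
  exact h.1.1.1.1.1.1.1.1.1.1.1.1.2

theorem Cell.exp_bounds {C : Cell} {x : ℝ} (hy0 : 0 ≤ x * (C.h : ℝ)) (hy1 : x * (C.h : ℝ) ≤ 1)
    (c1 : (C.elo : ℝ) ≤ exp (C.c : ℝ)) (c2 : exp (C.c : ℝ) ≤ (C.ehi : ℝ)) (t : ℝ) :
    ev2 C.loP x t ≤ exp ((C.c : ℝ) + x * C.h) - 1 ∧
      exp ((C.c : ℝ) + x * C.h) - 1 ≤ ev2 C.hiP x t := by
  have low := Real.sum_le_exp_of_nonneg hy0 4
  have up := Real.exp_bound' hy0 hy1 (n := 3) (by norm_num)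
  simp only [Finset.sum_range_succ, Finset.sum_range_zero, Nat.factorial] at low up
  norm_num at low up
  constructor
  · have h := mul_le_mul c1 low (by positivity) (exp_pos _).le
    simp only [Cell.loP, ev2_sub, ev2_add, ev2_mul, ev2_scale, ev2_const, ev2_lin, ev2_xP]
    push_cast
    rw [exp_add]; linear_combination h
  · have h := mul_le_mul c2 up (exp_pos _).le ((exp_pos _).le.trans c2)
    simp only [Cell.hiP, ev2_sub, ev2_add, ev2_mul, ev2_scale, ev2_const, ev2_lin, ev2_xP]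
    push_cast
    rw [exp_add]; linear_combination h

theorem div_bounds {E z Bl Bh lo hi : ℝ} (hz : 0 < z) (hE : 0 < E) (hlo : lo ≤ E) (hhi : E ≤ hi)
    (hbh : 0 ≤ Bh) (p1 : 0 ≤ z - Bl * hi) (p2 : 0 ≤ Bh * lo - z) : Bl ≤ z / E ∧ z / E ≤ Bh := by
  constructor
  · rcases le_total Bl 0 with hneg | hpos
    · exact hneg.trans (by positivity)
    · rw [le_div_iff₀ hE]; linarith [mul_le_mul_of_nonneg_left hhi hpos]
  · rw [div_le_iff₀ hE]; linarith [mul_le_mul_of_nonneg_left hlo hbh]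

theorem Cell.bounds {C : Cell} (h : C.boundsOk = true) {x : ℝ} (hx : 0 ≤ x) (hx1 : x ≤ 1) (t : ℝ)
    (ht : 0 ≤ t) (ht1 : t ≤ 1) {z : ℝ} (hz : z = (C.c : ℝ) + x * C.h) (hz0 : 0 < z) :
    ev2 C.blP x t ≤ z / (exp z - 1) ∧ z / (exp z - 1) ≤ ev2 C.bhP x t ∧
      kOne z ≤ ev2 C.kP x t ∧ 1 / z - 1 / (exp z - 1) ≤ C.D := by
  have hh' : (0 : ℝ) < C.h := by exact_mod_cast Cell.h_pos h
  simp only [Cell.boundsOk, Bool.and_eq_true, Bool.or_eq_true, decide_eq_true_eq] at h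
  obtain ⟨⟨⟨⟨⟨⟨⟨⟨⟨⟨⟨⟨⟨-, -⟩, hh1⟩, -⟩, he1⟩, he2⟩, hx0⟩, hl0⟩, hl⟩, hb0⟩, hb1⟩, hB1⟩, hB2⟩, hD⟩ :=
    h
  obtain ⟨elo, ehi⟩ := Cell.exp_bounds (C := C) (x := x) (mul_nonneg hx hh'.le)
    (mul_le_one₀ hx1 hh'.le (by exact_mod_cast hh1)) (Fam.le_exp_of_leExp he1)
    (Fam.exp_le_of_expLe he2) t
  rw [← hz] at elo ehi
  have hE : 0 < exp z - 1 := by linarith [add_one_le_exp z]
  have hzP : ev2 C.zP x t = z := by rw [Cell.zP, ev2_lin, hz]
  have p1 := nonneg2_sound hB1 hx hx1 ht ht1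
  have p2 := nonneg2_sound hB2 hx hx1 ht ht1
  simp only [ev2_sub, ev2_mul, hzP] at p1 p2
  have hbh : 0 ≤ ev2 C.bhP x t := by
    rw [Cell.bhP, ev2_lin]
    have e0 : (0 : ℝ) ≤ C.bh0 := by exact_mod_cast hb0
    have e1 : (0 : ℝ) ≤ C.bh0 + C.bh1 := by exact_mod_cast hb1
    linarith [mul_nonneg (sub_nonneg.2 hx1) e0, mul_nonneg hx e1]
  obtain ⟨hbl, hbu⟩ := div_bounds hz0 hE elo ehi hbh p1 p2
  clear hB1 hB2 he1 he2
  refine ⟨hbl, hbu, ?_, ?_⟩
  · have hl' := Fam.le_exp_of_leExp hl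
    push_cast at hl'
    have h0 : (0 : ℝ) ≤ C.x0 := by exact_mod_cast hx0
    have hcoef : (0 : ℝ) ≤ (C.l0 : ℝ) - C.x0 / (1 + C.x0) := by
      have : (((C.x0 / (1 + C.x0)) : ℚ) : ℝ) ≤ C.l0 := by exact_mod_cast hl0
      push_cast at this; linarith
    have h1 := kOne_le hz0 h0 hl'
    have h2 := mul_le_mul_of_nonneg_left ehi hcoef
    simp only [Cell.kP, ev2_add, ev2_scale, ev2_const]
    push_cast
    linarith
  · rcases hD with hD | hD
    · refine (inv_sub_le_half hz0).trans ?_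
      have h3 : (((1 / 2 : ℚ)) : ℝ) ≤ C.D := by exact_mod_cast hD
      simpa using h3
    · have p3 := nonneg2_sound hD hx hx1 ht ht1
      simp only [ev2_sub, ev2_add, ev2_scale, ev2_const, hzP, Rat.cast_one] at p3
      have h3 : 1 / z - 1 / (exp z - 1) = (1 - z / (exp z - 1)) / z := by field_simp
      rw [h3, div_le_iff₀ hz0]
      linarith

theorem Sub.sound {C : Data} {L : Cell} {R : Sub} (hs : 0 ≤ C.s) (hk : 0 ≤ C.kap)
    (hL : L.boundsOk = true) (ha : C.a.cellOk L = true) (h1 : C.r1.cellOk L = true)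
    (h2 : C.r2.cellOk L = true) (h : R.ok C L = true) (hd : R.d0 < R.d1) (hd0 : 0 ≤ R.d0)
    {z d β : ℝ} (hz0 : 0 < z) (hzc : (L.c : ℝ) ≤ z) (hzh : z ≤ L.c + L.h)
    (hdl : (R.d0 : ℝ) ≤ d) (hdr : d ≤ R.d1) (hβ : 0 ≤ β) (hβ1 : β ≤ 1) :
    (C.K : ℝ) ≤ C.gExpr z d β (z / (exp z - 1)) (kOne z) := by
  have hh : 0 < L.h := Cell.h_pos hL
  have hh' : (0 : ℝ) < L.h := by exact_mod_cast hh
  have hw : (0 : ℝ) < (R.d1 : ℝ) - R.d0 := by exact_mod_cast sub_pos.2 hd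
  set x := (z - L.c) / L.h with hxdef
  set t := (d - R.d0) / ((R.d1 : ℝ) - R.d0) with htdef
  have hx : 0 ≤ x := div_nonneg (by linarith) hh'.le
  have hx1 : x ≤ 1 := (div_le_one hh').2 (by linarith)
  have ht : 0 ≤ t := div_nonneg (by linarith) hw.le
  have ht1 : t ≤ 1 := (div_le_one hw).2 (by linarith)
  have hz : z = (L.c : ℝ) + x * L.h := by rw [hxdef, div_mul_cancel₀ _ hh'.ne']; ring
  have hzP : ev2 L.zP x t = z := by rw [Cell.zP, ev2_lin, hz]
  have hdP : ev2 R.dP x t = d := by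
    simp [Sub.dP, ev2_add, ev2_const, ev2_scale, ev2_tP]; rw [htdef]; field_simp; ring
  obtain ⟨b1, b2, b3, -⟩ := Cell.bounds hL hx hx1 t ht ht1 hz hz0
  obtain ⟨va, da⟩ := ev2_valP ha hh hx hx1 t
  obtain ⟨v1, d1⟩ := ev2_valP h1 hh hx hx1 t
  obtain ⟨v2, d2⟩ := ev2_valP h2 hh hx hx1 t
  rw [← hz] at va da v1 d1 v2 d2
  simp only [Sub.ok, parts, Bool.and_eq_true] at h
  obtain ⟨⟨⟨q1, q2⟩, q3⟩, q4⟩ := h
  have e1 := nonneg2_sound q1 hx hx1 ht ht1
  have e2 := nonneg2_sound q2 hx hx1 ht ht1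
  have e3 := nonneg2_sound q3 hx hx1 ht ht1
  have e4 := nonneg2_sound q4 hx hx1 ht ht1
  simp only [ev2_add, ev2_sub, ev2_mul, ev2_scale, ev2_const, va, da, v1, d1, v2, d2, hzP, hdP]
    at e1 e2 e3 e4
  push_cast at e1 e2 e3 e4
  set b := ev2 R.bP x t
  set Bl := ev2 L.blP x t
  set Bh := ev2 L.bhP x t
  set k := ev2 L.kP x t
  set B := z / (exp z - 1)
  have hs' : (0 : ℝ) ≤ C.s := by exact_mod_cast hs
  have hk' : (0 : ℝ) ≤ C.kap := by exact_mod_cast hk
  have hd' : 0 ≤ d := le_trans (by exact_mod_cast hd0) hdl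
  have t1 : 0 ≤ (C.s : ℝ) * z * (β - b) ^ 2 := by positivity
  have t2 : 0 ≤ (C.kap : ℝ) * d * (k - kOne z) := by
    have := sub_nonneg.2 b3; positivity
  rcases eq_or_lt_of_le (b1.trans b2) with he | hlt
  · have : B = Bl := le_antisymm (b2.trans he.ge) b1
    have w1 := mul_nonneg (sub_nonneg.2 hβ1) e1
    have w3 := mul_nonneg hβ e3
    rw [Data.gExpr, this]
    linarith
  · set θ := (B - Bl) / (Bh - Bl) with hθ
    have hθ0 : 0 ≤ θ := div_nonneg (by linarith) (by linarith)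
    have hθ1 : θ ≤ 1 := (div_le_one (by linarith)).2 (by linarith)
    have hB : B = Bl + θ * (Bh - Bl) := by rw [hθ, div_mul_cancel₀ _ (by linarith)]; ring
    have w1 := mul_nonneg (mul_nonneg (sub_nonneg.2 hβ1) (sub_nonneg.2 hθ1)) e1
    have w2 := mul_nonneg (mul_nonneg (sub_nonneg.2 hβ1) hθ0) e2
    have w3 := mul_nonneg (mul_nonneg hβ (sub_nonneg.2 hθ1)) e3
    have w4 := mul_nonneg (mul_nonneg hβ hθ0) e4
    rw [Data.gExpr, hB]
    linarith

theorem subs_sound {C : Data} {L : Cell} (hs : 0 ≤ C.s) (hk : 0 ≤ C.kap)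
    (hL : L.boundsOk = true) (ha : C.a.cellOk L = true) (h1 : C.r1.cellOk L = true)
    (h2 : C.r2.cellOk L = true) {z d β : ℝ} (hz0 : 0 < z) (hzc : (L.c : ℝ) ≤ z)
    (hzh : z ≤ L.c + L.h) (hdD : d ≤ L.D) (hβ : 0 ≤ β) (hβ1 : β ≤ 1) :
    ∀ (l : List Sub) (a : ℚ), subsOk C L a l = true → 0 ≤ a → (a : ℝ) ≤ d →
      (C.K : ℝ) ≤ C.gExpr z d β (z / (exp z - 1)) (kOne z) ∨ (l = [] ∧ (L.D : ℝ) ≤ a)
  | [], a, h, _, _ => by
    simp only [subsOk, decide_eq_true_eq] at h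
    exact Or.inr ⟨rfl, by exact_mod_cast h⟩
  | R :: l, a, h, ha0, had => by
    simp only [subsOk, Bool.and_eq_true, decide_eq_true_eq] at h
    obtain ⟨⟨⟨rfl, hlt⟩, hok⟩, hrest⟩ := h
    rcases le_or_gt d (R.d1 : ℝ) with hd | hd
    · exact Or.inl (Sub.sound hs hk hL ha h1 h2 hok hlt ha0 hz0 hzc hzh had hd hβ hβ1)
    · rcases subs_sound hs hk hL ha h1 h2 hz0 hzc hzh hdD hβ hβ1 l R.d1 hrest (ha0.trans hlt.le) hd.le with
        h' | ⟨-, h'⟩
      · exact Or.inl h'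
      · linarith

theorem Cell.sound {C : Data} {L : Cell} (hs : 0 ≤ C.s) (hk : 0 ≤ C.kap) (h : L.ok C = true)
    {z d β : ℝ} (hz0 : 0 < z) (hzc : (L.c : ℝ) ≤ z) (hzh : z ≤ L.c + L.h) (hd : 0 ≤ d)
    (hdm : d ≤ 1 / z - 1 / (exp z - 1)) (hβ : 0 ≤ β) (hβ1 : β ≤ 1) :
    (C.K : ℝ) ≤ C.gExpr z d β (z / (exp z - 1)) (kOne z) := by
  simp only [Cell.ok, Bool.and_eq_true] at h
  obtain ⟨⟨⟨⟨hb, ha⟩, h1⟩, h2⟩, hsub⟩ := h
  have hh : (0 : ℝ) < L.h := by exact_mod_cast Cell.h_pos hb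
  have hdD : d ≤ L.D := hdm.trans (Cell.bounds hb (x := (z - L.c) / L.h)
    (div_nonneg (by linarith) hh.le) ((div_le_one hh).2 (by linarith)) 0 le_rfl zero_le_one
    (by rw [div_mul_cancel₀ _ hh.ne']; ring) hz0).2.2.2
  cases hl : L.subs with
  | nil =>
    rw [hl] at hsub
    simp only [subsOk, decide_eq_true_eq] at hsub
    have hD : (L.D : ℝ) ≤ 0 := by exact_mod_cast hsub
    have := inv_sub_le_half hz0
    have hpos : 0 < 1 / z - 1 / (exp z - 1) :=
      sub_pos.2 (one_div_lt_one_div_of_lt hz0 (by linarith [add_one_lt_exp hz0.ne']))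
    have := (Cell.bounds hb (x := (z - L.c) / L.h)
      (div_nonneg (by linarith) hh.le) ((div_le_one hh).2 (by linarith)) 0 le_rfl zero_le_one
      (by rw [div_mul_cancel₀ _ hh.ne']; ring) hz0).2.2.2
    linarith
  | cons R l =>
    rw [hl] at hsub
    rcases subs_sound hs hk hb ha h1 h2 hz0 hzc hzh hdD hβ hβ1 (R :: l) 0 hsub le_rfl
      (by simpa using hd) with h' | ⟨h', -⟩
    · exact h'
    · exact absurd h' (by simp)

theorem cells_sound {C : Data} (hs : 0 ≤ C.s) (hk : 0 ≤ C.kap) {b : ℚ} :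
    ∀ (l : List Cell) (a : ℚ), cellsOk C b a l = true → ∀ {z d β : ℝ}, 0 < z → (a : ℝ) ≤ z →
      z ≤ (b : ℝ) → 0 ≤ d → d ≤ 1 / z - 1 / (exp z - 1) → 0 ≤ β → β ≤ 1 →
      (C.K : ℝ) ≤ C.gExpr z d β (z / (exp z - 1)) (kOne z) ∨ (l = [] ∧ z = (a : ℝ))
  | [], a, h, z, d, β, _, ha, hzb, _, _, _, _ => by
    simp only [cellsOk, decide_eq_true_eq] at h
    exact Or.inr ⟨rfl, le_antisymm (hzb.trans (by exact_mod_cast h)) ha⟩
  | L :: l, a, h, z, d, β, hz0, ha, hzb, hd, hdm, hβ, hβ1 => by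
    simp only [cellsOk, Bool.and_eq_true, decide_eq_true_eq] at h
    obtain ⟨⟨rfl, hL⟩, hrest⟩ := h
    rcases le_or_gt z ((L.c : ℝ) + L.h) with hz | hz
    · exact Or.inl (Cell.sound hs hk hL hz0 ha hz hd hdm hβ hβ1)
    · rcases cells_sound hs hk l _ hrest hz0 (by push_cast; linarith) hzb hd hdm hβ hβ1 with
        h' | ⟨-, h'⟩
      · exact Or.inl h'
      · push_cast at h'; linarith

/-- A nonempty list of cells proves the inequality on its range. -/
theorem covers_of_cells {C : Data} {a b : ℚ} {L : Cell} {l : List Cell} (hs : 0 ≤ C.s)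
    (hk : 0 ≤ C.kap) (h : cellsOk C b a (L :: l) = true) : C.Covers a b := by
  intro z d β hz haz hzb hd hdm hβ hβ1
  rcases cells_sound hs hk _ a h hz haz hzb hd hdm hβ hβ1 with h' | ⟨h', -⟩
  · exact h'
  · exact absurd h' (by simp)

theorem Data.Covers.trans {C : Data} {a b c : ℚ} (h1 : C.Covers a b) (h2 : C.Covers b c) :
    C.Covers a c := fun z d β hz haz hzc hd hdm hβ hβ1 =>
  (le_total z (b : ℝ)).elim (fun h => h1 z d β hz haz h hd hdm hβ hβ1)
    fun h => h2 z d β hz h hzc hd hdm hβ hβ1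

/-- **The certificate implies the inequality on `(0, Z]`.** -/
theorem Data.Covers.main {C : Data} (h : C.Covers 0 C.Z) : C.Main :=
  fun z d β hz hzZ hd hdm hβ hβ1 => h z d β hz (by simpa using hz.le) hzZ hd hdm hβ hβ1

end Vale.Agent.P254.Unc.Cert
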