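import Vale.Agent.P254.Unc.OneDimCalib

/-!
# P254: the shape of the calibrations used for the step inequality

With `d = 1/r - 1/(exp z - 1)` the calibration is
`W = -z - K₁ z + log ((exp z - 1)/r) + a z + z (r₁ z d + r₂ z d²)`,
`K₁ z = -(exp z - 1) log (1 - exp (-z))`, where `a`, `r₁`, `r₂` are cubic splines that are constant
beyond `Z`. Along the flow `W' - W - log r - κ Ω - 2 s (β - z β²)` becomes the expression `gExpr`
below, polynomial in `z`, `d`, `β` and linear in `B = z/(exp z - 1)` and in `K₁`.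
-/

namespace Vale.Agent.P254.Unc.Cert

/-- A spline written with reversed truncated powers: constant for `z ≥ top`. -/
structure Spl where
  c : ℚ
  cubes : List (ℚ × ℚ)
  top : ℚ
  e : ℚ

/-- Its value. -/
noncomputable def Spl.val (S : Spl) (z : ℝ) : ℝ :=
  (S.c : ℝ) + (S.cubes.map fun kv => (kv.2 : ℝ) * max ((kv.1 : ℝ) - z) 0 ^ 3).sum +
    (S.e : ℝ) * max ((S.top : ℝ) - z) 0 ^ 2

/-- Its derivative. -/
noncomputable def Spl.der (S : Spl) (z : ℝ) : ℝ :=
  (S.cubes.map fun kv => -(3 * (kv.2 : ℝ)) * max ((kv.1 : ℝ) - z) 0 ^ 2).sum +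
    -(2 * (S.e : ℝ)) * max ((S.top : ℝ) - z) 0

/-- The data of one calibration. -/
structure Data where
  kap : ℚ
  s : ℚ
  K : ℚ
  Z : ℚ
  a : Spl
  r1 : Spl
  r2 : Spl

/-- `K₁ z = -(exp z - 1) log (1 - exp (-z))`. -/
noncomputable def kOne (z : ℝ) : ℝ := -((Real.exp z - 1) * Real.log (1 - Real.exp (-z)))

/-- The linearised integrand, with `B` and `k` standing for `z/(exp z - 1)` and `K₁ z`. -/
noncomputable def Data.gExpr (C : Data) (z d β B k : ℝ) : ℝ :=
  C.a.der z - C.a.val z + 1 - d - β - (C.kap : ℝ) * (2 * k * d + z * d ^ 2) -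
    2 * (C.s : ℝ) * (β - z * β ^ 2) +
    (C.r1.val z + z * C.r1.der z - z * C.r1.val z) * d +
    (C.r2.val z + z * C.r2.der z - z * C.r2.val z) * d ^ 2 +
    (C.r1.val z + 2 * C.r2.val z * d) * (B * (1 - 2 * d - β) - z * d ^ 2 - z * β * d)

/-- The calibration. -/
noncomputable def Data.W (C : Data) (z r : ℝ) : ℝ :=
  -z - kOne z + Real.log ((Real.exp z - 1) / r) + C.a.val z +
    z * (C.r1.val z * (1 / r - 1 / (Real.exp z - 1)) +
      C.r2.val z * (1 / r - 1 / (Real.exp z - 1)) ^ 2)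

/-- The inequality on `(0, Z]`. -/
def Data.Main (C : Data) : Prop :=
  ∀ z d β : ℝ, 0 < z → z ≤ (C.Z : ℝ) → 0 ≤ d → d ≤ 1 / z - 1 / (Real.exp z - 1) → 0 ≤ β → β ≤ 1 →
    (C.K : ℝ) ≤ C.gExpr z d β (z / (Real.exp z - 1)) (kOne z)

/-- The spline is constant beyond `Z`. -/
def Spl.flatOk (S : Spl) (Z : ℚ) : Bool :=
  decide (S.top ≤ Z) && S.cubes.all fun kv => decide (kv.1 ≤ Z)

/-- The conditions for the range `z ≥ Z`. -/
def Data.tailOk (C : Data) : Bool :=
  decide (0 < C.Z) && decide (0 ≤ C.kap) && decide (0 < C.s) && C.a.flatOk C.Z && C.r1.flatOk C.Z &&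
    C.r2.flatOk C.Z && decide (C.r1.c = 0) && decide (C.r2.c = 0) &&
    decide (C.a.c ≤ 1 - C.K - (1 + 3 * C.kap) / C.Z - (1 + 2 * C.s) ^ 2 / (8 * C.s * C.Z))

end Vale.Agent.P254.Unc.Cert
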