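import Vale.Agent.P254.Unc.ConvCmp

/-!
# P254: the conversion inequality reduces to the one-parameter family
-/

open MeasureTheory Set Filter
open scoped Topology

namespace Vale.Agent.P254.Unc

variable {L : ℝ} {g : ℝ → ℝ}

/-- The density extended by zero. -/
noncomputable def ext0 (L : ℝ) (g : ℝ → ℝ) : ℝ → ℝ := (Iic L).indicator (dens L g)

lemma mass_pos (hM : Marg L g) : 0 < mass L g :=
  intervalIntegral.intervalIntegral_pos_of_pos
    (((hM.smooth.continuous.neg.rexp)).intervalIntegrable _ _)
    (fun _ => Real.exp_pos _) hM.pos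

lemma dens_pos (hM : Marg L g) (x : ℝ) : 0 < dens L g x :=
  div_pos (Real.exp_pos _) (mass_pos hM)

lemma prof_ext0 (hM : Marg L g) : Prof L (ext0 L g) := by
  have hm := mass_pos hM
  have hmem : ∀ x, 0 < ext0 L g x → x ≤ L := fun x hx => by
    by_contra h
    rw [ext0, indicator_of_notMem (show x ∉ Iic L from h)] at hx
    exact lt_irrefl _ hx
  refine ⟨⟨?_, ?_⟩, ?_, fun x hx => ?_, fun x y p q hx hy hp hq hpq hFx hFy => ?_⟩
  · exact Measurable.indicator (by
      have := hM.smooth.continuous.measurable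
      unfold dens
      fun_prop) measurableSet_Iic
  · refine ⟨dens L g 0 * Real.exp L, 1, one_pos, fun x hx => ?_⟩
    rcases le_or_gt x L with h | h
    · rw [ext0, indicator_of_mem (show x ∈ Iic L from h)]
      refine ⟨(dens_pos hM x).le, ?_⟩
      rw [mul_assoc, ← Real.exp_add]
      refine le_trans ?_ (le_mul_of_one_le_right (dens_pos hM 0).le
        (Real.one_le_exp (by linarith)))
      exact div_le_div_of_nonneg_right (Real.exp_le_exp.2 (neg_le_neg
        (hM.mono ⟨le_rfl, hM.pos.le⟩ ⟨hx.le, h⟩ hx.le))) hm.le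
    · rw [ext0, indicator_of_notMem (show x ∉ Iic L from not_le.2 h)]
      exact ⟨le_rfl, mul_nonneg (mul_nonneg (dens_pos hM 0).le (Real.exp_nonneg _))
        (Real.exp_nonneg _)⟩
  · intro x (hx : 0 < x) y (hy : 0 < y) hxy
    rcases le_or_gt y L with h | h
    · rw [ext0, indicator_of_mem (show y ∈ Iic L from h),
        indicator_of_mem (show x ∈ Iic L from hxy.trans h)]
      exact div_le_div_of_nonneg_right (Real.exp_le_exp.2 (neg_le_neg
        (hM.mono ⟨hx.le, hxy.trans h⟩ ⟨hy.le, h⟩ hxy))) hm.le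
    · rw [ext0, indicator_of_notMem (show y ∉ Iic L from not_le.2 h)]
      exact indicator_nonneg (fun z _ => (dens_pos hM z).le) x
  · rw [ext0, indicator_of_notMem (show x ∉ Iic L from not_le.2 hx)]
  · have hxL := hmem x hFx
    have hyL := hmem y hFy
    have hz : p * x + q * y ≤ L := by
      calc p * x + q * y ≤ p * L + q * L := by
            exact add_le_add (mul_le_mul_of_nonneg_left hxL hp.le)
              (mul_le_mul_of_nonneg_left hyL hq.le)
        _ = L := by rw [← add_mul, hpq, one_mul]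
    have hg := hM.convex.2 ⟨hx.le, hxL⟩ ⟨hy.le, hyL⟩ hp.le hq.le hpq
    simp only [smul_eq_mul] at hg
    rw [ext0, indicator_of_mem (show x ∈ Iic L from hxL),
      indicator_of_mem (show y ∈ Iic L from hyL),
      indicator_of_mem (show p * x + q * y ∈ Iic L from hz), dens, dens, dens,
      Real.div_rpow (Real.exp_nonneg _) hm.le, Real.div_rpow (Real.exp_nonneg _) hm.le,
      div_mul_div_comm, ← Real.rpow_add hm, hpq, Real.rpow_one, ← Real.exp_mul, ← Real.exp_mul,
      ← Real.exp_add]
    exact div_le_div_of_nonneg_right (Real.exp_le_exp.2 (by linarith)) hm.le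

lemma ext0_moment (hM : Marg L g) (φ : ℝ → ℝ) :
    ∫ x in Ioi (0 : ℝ), ext0 L g x * φ x = ∫ x in (0 : ℝ)..L, dens L g x * φ x := by
  rw [intervalIntegral.integral_of_le hM.pos.le, ← Ioi_inter_Iic,
    ← setIntegral_indicator measurableSet_Iic]
  refine setIntegral_congr_fun measurableSet_Ioi fun x _ => ?_
  rcases le_or_gt x L with h | h
  · rw [ext0, indicator_of_mem (show x ∈ Iic L from h), indicator_of_mem (show x ∈ Iic L from h)]
  · rw [ext0, indicator_of_notMem (show x ∉ Iic L from not_le.2 h),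
      indicator_of_notMem (show x ∉ Iic L from not_le.2 h), zero_mul]

lemma ext0_mass (hM : Marg L g) : ∫ x in Ioi (0 : ℝ), ext0 L g x = 1 := by
  have h := ext0_moment hM fun _ => 1
  simp only [mul_one] at h
  rw [h]
  unfold dens
  rw [intervalIntegral.integral_div]
  exact div_self (mass_pos hM).ne'

/-- The excess log-variance is nonnegative. -/
theorem logExcess_nonneg_of_marg (hM : Marg L g) : 0 ≤ logExcess L g := by
  have h := excess_nonneg (prof_ext0 hM).nice (prof_ext0 hM).anti (ext0_mass hM)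
  rw [ext0_moment hM, ext0_moment hM] at h
  rw [logExcess, logMean]
  linarith

lemma famExcess_nonneg {t : ℝ} (ht : 0 ≤ t) : 0 ≤ famExcess t := by
  have h := excess_nonneg (nice_fam ht) (fun x _ y _ hxy =>
    div_le_div_of_nonneg_right (Real.exp_le_exp.2 (neg_le_neg
      (max_le_max (sub_le_sub_right hxy t) le_rfl))) (by linarith)) (fam_mass ht)
  rw [← famMean] at h
  rw [famExcess]
  linarith

/-- The conversion inequality follows from its case of the family. -/
theorem convIneq_of_fam {ψ s : ℝ → ℝ} {m : ℝ} (hP : Pot ψ s) (hfam : FamIneq ψ m) :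
    ConvIneq ψ m := by
  intro L g hM
  have hU0 := logExcess_nonneg_of_marg hM
  obtain ⟨U, hU⟩ : ∃ U, U = logExcess L g := ⟨_, rfl⟩
  rw [← hU] at hU0 ⊢
  have hmono : ∀ u v, 0 ≤ u → u ≤ v → ψ u ≤ ψ v := fun u v hu huv =>
    le_trans (le_add_of_nonneg_right (mul_nonneg (hP.slope_nonneg u hu) (sub_nonneg.2 huv)))
      (hP.support u v hu (hu.trans huv))
  -- the bound through one member of the family
  have key : ∀ t, 0 ≤ t → (t = 0 ∨ U ≤ famExcess t) →
      Real.log (sndMoment L g) / 2 + 1 - Real.log 2 + m ≤ logMean L g + ψ (famExcess t) := by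
    intro t ht hv
    obtain ⟨r, hr⟩ : ∃ r, r = Real.exp (logMean L g - famMean t) := ⟨_, rfl⟩
    have hr0 : 0 < r := hr ▸ Real.exp_pos _
    have hlr : Real.log r + famMean t = logMean L g := by rw [hr, Real.log_exp]; ring
    have hsnd := snd_le (prof_ext0 hM) ht hr0 (ext0_mass hM)
      (by rw [ext0_moment hM, hlr, logMean]) (hv.imp_right fun h => by
        rw [ext0_moment hM, hlr]
        rw [hU, logExcess] at h
        linarith)
    rw [ext0_moment hM, ← sndMoment] at hsnd
    have hpos : 0 < sndMoment L g := by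
      refine intervalIntegral.intervalIntegral_pos_of_pos_on ?_ (fun x hx => ?_) hM.pos
      · have hc := hM.smooth.continuous
        exact Continuous.intervalIntegrable (by unfold dens; fun_prop) _ _
      · exact mul_pos (dens_pos hM x) (pow_pos hx.1 2)
    have hX0 : 0 < famSnd t := pos_of_mul_pos_right (hpos.trans_le hsnd) (sq_nonneg r)
    have h1 := Real.log_le_log hpos hsnd
    rw [Real.log_mul (by positivity) hX0.ne', Real.log_pow] at h1
    have h2 := hfam t ht
    push_cast at h1
    linarith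
  by_cases hbig : famExcess 0 ≤ U
  · linarith [key 0 le_rfl (Or.inl rfl), hmono _ _ (famExcess_nonneg le_rfl) hbig]
  push Not at hbig
  by_cases hex : ∃ t, 0 ≤ t ∧ famExcess t = U
  · obtain ⟨t, ht, e⟩ := hex
    have := key t ht (Or.inr e.ge)
    rwa [e] at this
  -- otherwise let `t` tend to infinity
  have hge : ∀ t, 0 ≤ t → U ≤ famExcess t := by
    intro t ht
    by_contra hlt
    push Not at hlt
    obtain ⟨x, hx, e⟩ := intermediate_value_Icc' ht
      (continuousOn_famExcess.mono fun x hx => hx.1) ⟨hlt.le, hbig.le⟩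
    exact hex ⟨x, hx.1, e⟩
  refine le_of_forall_pos_le_add fun ε hε => ?_
  obtain ⟨t, ht1, ht2⟩ : ∃ t : ℝ, 3 ≤ t ∧ s 1 * (4 / (1 + t)) ≤ ε := by
    refine ⟨max 3 (4 * s 1 / ε), le_max_left _ _, ?_⟩
    have h0 := le_max_right (3 : ℝ) (4 * s 1 / ε)
    rw [div_le_iff₀ hε] at h0
    have h3 := le_max_left (3 : ℝ) (4 * s 1 / ε)
    rw [← mul_div_assoc, div_le_iff₀ (by linarith)]
    linarith
  have hs1 := hP.slope_nonneg 1 zero_le_one
  have ht : 0 ≤ t := by linarith
  have hk := key t ht (Or.inr (hge t ht))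
  have hle := famExcess_le (show 1 ≤ t by linarith)
  have hu1 : famExcess t ≤ 1 := hle.trans (by rw [div_le_iff₀ (by linarith)]; linarith)
  have hnn := famExcess_nonneg ht
  have hsu : s (famExcess t) ≤ s 1 := hP.slope_mono hnn (show (0 : ℝ) ≤ 1 from zero_le_one) hu1
  have hsup := hP.support (famExcess t) U hnn hU0
  have h5 : s (famExcess t) * (famExcess t - U) ≤ s 1 * (4 / (1 + t)) :=
    mul_le_mul hsu (by linarith) (sub_nonneg.2 (hge t ht)) hs1
  linarith

end Vale.Agent.P254.Unc
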