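import Vale.Agent.P254.Unc.Marg

/-!
# P254: test functions with prescribed signs

For `h = exp (2 ·)` or a convex `h` there is a quadratic, resp. affine, interpolant at given nodes
whose error changes sign exactly at the nodes; coincident nodes are allowed.
-/

open MeasureTheory Set

namespace Vale.Agent.P254.Unc

/-- The affine interpolant of a convex function. -/
lemma interp2 {h : ℝ → ℝ} (hc : ConvexOn ℝ univ h) {p q : ℝ} (hpq : p ≤ q) :
    ∃ c0 c1 : ℝ, (Monotone h → 0 ≤ c1) ∧ ∀ y,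
      ((y ≤ p ∨ q ≤ y) → 0 ≤ h y - c0 - c1 * y) ∧
      (p ≤ y → y ≤ q → h y - c0 - c1 * y ≤ 0) := by
  have sec : ∀ x y, x ≠ p → y ≠ p → x ≤ y → (h x - h p) / (x - p) ≤ (h y - h p) / (y - p) :=
    fun x y hx hy hxy => hc.secant_mono (mem_univ p) (mem_univ x) (mem_univ y) hx hy hxy
  rcases hpq.eq_or_lt with rfl | hlt
  · obtain ⟨S, hS⟩ : ∃ S, S = (fun x => (h x - h p) / (x - p)) '' Iio p := ⟨_, rfl⟩
    have hne : S.Nonempty := hS ▸ nonempty_Iio.image _
    have hbd : BddAbove S := ⟨(h (p + 1) - h p) / (p + 1 - p), by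
      rw [hS]; rintro _ ⟨x, hx, rfl⟩
      exact sec x (p + 1) (ne_of_lt hx) (by simp) (by linarith [show x < p from hx])⟩
    refine ⟨h p - sSup S * p, sSup S, fun hm => ?_, fun y => ⟨fun _ => ?_, fun h1 h2 => ?_⟩⟩
    · refine le_trans ?_ (le_csSup hbd (show (h (p - 1) - h p) / (p - 1 - p) ∈ S by
        rw [hS]; exact ⟨p - 1, by simp, rfl⟩))
      exact div_nonneg_iff.2 (Or.inr ⟨sub_nonpos.2 (hm (by linarith)), by linarith⟩)
    · rcases lt_trichotomy y p with hy | rfl | hy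
      · have := le_csSup hbd (hS ▸ ⟨y, hy, rfl⟩ : (h y - h p) / (y - p) ∈ S)
        rw [div_le_iff_of_neg (sub_neg.2 hy)] at this
        linarith
      · linarith
      · have : sSup S ≤ (h y - h p) / (y - p) := csSup_le hne (by
          rw [hS]; rintro _ ⟨x, hx, rfl⟩
          exact sec x y (ne_of_lt hx) hy.ne' (le_of_lt (lt_trans hx hy)))
        rw [le_div_iff₀ (sub_pos.2 hy)] at this
        linarith
    · obtain rfl : y = p := le_antisymm h2 h1
      linarith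
  · obtain ⟨d, hd⟩ : ∃ d, d = (h q - h p) / (q - p) := ⟨_, rfl⟩
    refine ⟨h p - d * p, d, fun hm => ?_, fun y => ⟨fun hy => ?_, fun h1 h2 => ?_⟩⟩
    · exact hd ▸ div_nonneg (sub_nonneg.2 (hm hlt.le)) (sub_pos.2 hlt).le
    · rcases hy with hy | hy
      · rcases hy.eq_or_lt with rfl | hy
        · linarith
        · have := sec y q hy.ne hlt.ne' (hy.le.trans hlt.le)
          rw [← hd, div_le_iff_of_neg (sub_neg.2 hy)] at this
          linarith
      · have := sec q y hlt.ne' (hlt.trans_le hy).ne' hy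
        rw [← hd, le_div_iff₀ (by linarith)] at this
        linarith
    · rcases h1.eq_or_lt with rfl | h1
      · linarith
      · have := sec y q h1.ne' hlt.ne' h2
        rw [← hd, div_le_iff₀ (sub_pos.2 h1)] at this
        linarith

/-- The difference quotient of `exp (2 ·)` at `y₁`, as an integral. -/
noncomputable def quot (y1 y : ℝ) : ℝ := ∫ s in (0 : ℝ)..1, 2 * Real.exp (2 * (y1 + s * (y - y1)))

lemma quot_integrable (y1 y : ℝ) :
    IntervalIntegrable (fun s => 2 * Real.exp (2 * (y1 + s * (y - y1)))) volume 0 1 :=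
  (by fun_prop : Continuous fun s => 2 * Real.exp (2 * (y1 + s * (y - y1)))).intervalIntegrable _ _

lemma quot_spec (y1 y : ℝ) : (y - y1) * quot y1 y = Real.exp (2 * y) - Real.exp (2 * y1) := by
  have key := intervalIntegral.integral_eq_sub_of_hasDerivAt
    (f := fun s => Real.exp (2 * (y1 + s * (y - y1))))
    (f' := fun s => (y - y1) * (2 * Real.exp (2 * (y1 + s * (y - y1))))) (a := 0) (b := 1)
    (fun s _ => ((((hasDerivAt_id s).mul_const (y - y1)).const_add y1).const_mul 2).exp.congr_deriv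
      (by simp; ring))
    ((quot_integrable y1 y).const_mul _)
  rw [intervalIntegral.integral_const_mul] at key
  rw [quot, key]
  norm_num

lemma quot_convex (y1 : ℝ) : ConvexOn ℝ univ (quot y1) := by
  refine ⟨convex_univ, fun a _ b _ p q hp hq hpq => ?_⟩
  simp only [quot, smul_eq_mul]
  rw [← intervalIntegral.integral_const_mul, ← intervalIntegral.integral_const_mul,
    ← intervalIntegral.integral_add ((quot_integrable y1 a).const_mul _)
      ((quot_integrable y1 b).const_mul _)]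
  refine intervalIntegral.integral_mono_on zero_le_one (quot_integrable _ _)
    (((quot_integrable y1 a).const_mul _).add ((quot_integrable y1 b).const_mul _)) fun s _ => ?_
  have h := convexOn_exp.2 (mem_univ (2 * (y1 + s * (a - y1)))) (mem_univ (2 * (y1 + s * (b - y1))))
    hp hq hpq
  simp only [smul_eq_mul] at h
  have e : p * (2 * (y1 + s * (a - y1))) + q * (2 * (y1 + s * (b - y1))) =
      2 * (y1 + s * (p * a + q * b - y1)) := by linear_combination (2 * y1 - 2 * s * y1) * hpq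
  rw [e] at h
  linarith

lemma quot_mono (y1 : ℝ) : Monotone (quot y1) := fun a b hab =>
  intervalIntegral.integral_mono_on zero_le_one (quot_integrable _ _) (quot_integrable _ _)
    fun s hs => mul_le_mul_of_nonneg_left (Real.exp_le_exp.2 (by
      have := mul_le_mul_of_nonneg_left (sub_le_sub_right hab y1) hs.1
      linarith)) (by norm_num)

/-- The quadratic interpolant of `exp (2 y)`. -/
lemma interp3 {y1 y2 y3 : ℝ} (h12 : y1 ≤ y2) (h23 : y2 ≤ y3) :
    ∃ c0 c1 c2 : ℝ, 0 ≤ c2 ∧ ∀ y,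
      ((y ≤ y1 ∨ (y2 ≤ y ∧ y ≤ y3)) → Real.exp (2 * y) - c0 - c1 * y - c2 * y ^ 2 ≤ 0) ∧
      (((y1 ≤ y ∧ y ≤ y2) ∨ y3 ≤ y) → 0 ≤ Real.exp (2 * y) - c0 - c1 * y - c2 * y ^ 2) := by
  obtain ⟨a, b, hb, hab⟩ := interp2 (quot_convex y1) h23
  refine ⟨Real.exp (2 * y1) - y1 * a, a - b * y1, b, hb (quot_mono y1), fun y => ?_⟩
  have e : Real.exp (2 * y) - (Real.exp (2 * y1) - y1 * a) - (a - b * y1) * y - b * y ^ 2 =
      (y - y1) * (quot y1 y - a - b * y) := by linear_combination -quot_spec y1 y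
  rw [e]
  refine ⟨fun h => ?_, fun h => ?_⟩
  · rcases h with h | ⟨h, h'⟩
    · exact mul_nonpos_of_nonpos_of_nonneg (sub_nonpos.2 h) ((hab y).1 (Or.inl (h.trans h12)))
    · exact mul_nonpos_of_nonneg_of_nonpos (sub_nonneg.2 (h12.trans h)) ((hab y).2 h h')
  · rcases h with ⟨h, h'⟩ | h
    · exact mul_nonneg (sub_nonneg.2 h) ((hab y).1 (Or.inl h'))
    · exact mul_nonneg (sub_nonneg.2 ((h12.trans h23).trans h)) ((hab y).1 (Or.inr h))

lemma exp_two_log {x : ℝ} (hx : 0 < x) : Real.exp (2 * Real.log x) = x ^ 2 := by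
  rw [two_mul, Real.exp_add, Real.exp_log hx, sq]

/-- Three nodes for `x²` against `1, log x, log² x`. -/
lemma test3 {a b c : ℝ} (ha : 0 < a) (hab : a ≤ b) (hbc : b ≤ c) :
    ∃ c0 c1 c2 : ℝ, 0 ≤ c2 ∧ ∀ x, 0 < x →
      ((x ≤ a ∨ (b ≤ x ∧ x ≤ c)) → x ^ 2 - c0 - c1 * Real.log x - c2 * Real.log x ^ 2 ≤ 0) ∧
      (((a ≤ x ∧ x ≤ b) ∨ c ≤ x) → 0 ≤ x ^ 2 - c0 - c1 * Real.log x - c2 * Real.log x ^ 2) := by
  obtain ⟨c0, c1, c2, h2, h⟩ := interp3 (Real.log_le_log ha hab)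
    (Real.log_le_log (ha.trans_le hab) hbc)
  refine ⟨c0, c1, c2, h2, fun x hx => ?_⟩
  have hb := ha.trans_le hab
  have := h (Real.log x)
  rw [exp_two_log hx, Real.log_le_log_iff hx ha, Real.log_le_log_iff ha hx,
    Real.log_le_log_iff hx hb, Real.log_le_log_iff hb hx,
    Real.log_le_log_iff hx (hb.trans_le hbc), Real.log_le_log_iff (hb.trans_le hbc) hx] at this
  exact this

lemma convexOn_exp_two : ConvexOn ℝ univ fun y : ℝ => Real.exp (2 * y) := by
  refine ⟨convex_univ, fun a _ b _ p q hp hq hpq => ?_⟩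
  have h := convexOn_exp.2 (mem_univ (2 * a)) (mem_univ (2 * b)) hp hq hpq
  simp only [smul_eq_mul] at h ⊢
  rwa [show p * (2 * a) + q * (2 * b) = 2 * (p * a + q * b) by ring] at h

/-- Two nodes for a function convex in `log x`. -/
lemma test2 {h : ℝ → ℝ} (hc : ConvexOn ℝ univ h) {b c : ℝ} (hb : 0 < b) (hbc : b ≤ c) :
    ∃ c0 c1 : ℝ, ∀ x, 0 < x →
      ((x ≤ b ∨ c ≤ x) → 0 ≤ h (Real.log x) - c0 - c1 * Real.log x) ∧
      (b ≤ x → x ≤ c → h (Real.log x) - c0 - c1 * Real.log x ≤ 0) := by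
  obtain ⟨c0, c1, -, h⟩ := interp2 hc (Real.log_le_log hb hbc)
  refine ⟨c0, c1, fun x hx => ?_⟩
  have := h (Real.log x)
  rw [Real.log_le_log_iff hx hb, Real.log_le_log_iff hb hx,
    Real.log_le_log_iff hx (hb.trans_le hbc), Real.log_le_log_iff (hb.trans_le hbc) hx] at this
  exact this

lemma convexOn_sq : ConvexOn ℝ univ fun y : ℝ => y ^ 2 := Even.convexOn_pow (by norm_num)

/-! ### The sign patterns of the difference of two profiles -/

/-- Antitone differences change sign at most once. -/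
lemma antitone_split {D : ℝ → ℝ} {t : ℝ} (ht : 0 ≤ t)
    (hd : ∀ x y, 0 < x → x ≤ y → y ≤ t → D y ≤ D x) :
    ∃ a, 0 ≤ a ∧ a ≤ t ∧ (∀ x, 0 < x → x < a → 0 ≤ D x) ∧ (∀ x, a < x → x ≤ t → D x ≤ 0) := by
  obtain ⟨S, hS⟩ : ∃ S : Set ℝ, S = insert 0 {x | 0 < x ∧ x ≤ t ∧ 0 ≤ D x} := ⟨_, rfl⟩
  have hbd : BddAbove S := ⟨t, by rw [hS]; rintro x (rfl | hx); exacts [ht, hx.2.1]⟩
  have h0 : (0 : ℝ) ∈ S := hS ▸ mem_insert _ _
  refine ⟨sSup S, le_csSup hbd h0, csSup_le ⟨0, h0⟩ (by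
    rw [hS]; rintro x (rfl | hx); exacts [ht, hx.2.1]), fun x hx hxa => ?_, fun x hxa hxt => ?_⟩
  · obtain ⟨y, hy, hxy⟩ := exists_lt_of_lt_csSup ⟨0, h0⟩ hxa
    rw [hS] at hy
    rcases hy with rfl | hy
    · linarith
    · exact hy.2.2.trans (hd x y hx hxy.le hy.2.1)
  · by_contra hneg
    push Not at hneg
    have h1 : 0 < x := lt_of_le_of_lt (le_csSup hbd h0) hxa
    exact (not_le.2 hxa) (le_csSup hbd (hS ▸ Or.inr ⟨h1, hxt, hneg.le⟩))

/-- An order connected set of nonnegativity beyond `t`. -/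
lemma interval_split {D : ℝ → ℝ} {t R : ℝ} (hR : ∀ x, t ≤ x → R < x → D x < 0)
    (hc : ∀ x y z, t ≤ x → x < z → z < y → 0 ≤ D x → 0 ≤ D y → 0 ≤ D z) :
    ∃ b c, t ≤ b ∧ b ≤ c ∧ (∀ x, t ≤ x → x < b → D x ≤ 0) ∧ (∀ x, b < x → x < c → 0 ≤ D x) ∧
      (∀ x, c < x → D x ≤ 0) := by
  obtain ⟨P, hP⟩ : ∃ P : Set ℝ, P = {x | t ≤ x ∧ 0 ≤ D x} := ⟨_, rfl⟩
  rcases P.eq_empty_or_nonempty with he | hne
  · refine ⟨t, t, le_rfl, le_rfl, fun x h1 h2 => absurd h1 (not_le.2 h2),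
      fun x h1 h2 => absurd h2 (not_lt.2 h1.le), fun x hx => ?_⟩
    by_contra hneg
    push Not at hneg
    exact (eq_empty_iff_forall_notMem.1 he) x (hP ▸ ⟨hx.le, hneg.le⟩)
  · have hlo : BddBelow P := ⟨t, by rw [hP]; exact fun x hx => hx.1⟩
    have hhi : BddAbove P := ⟨R, by
      rw [hP]; intro x hx
      by_contra hlt
      push Not at hlt
      exact absurd hx.2 (not_le.2 (hR x hx.1 hlt))⟩
    have hmem : ∀ x ∈ P, t ≤ x ∧ 0 ≤ D x := fun x hx => by rw [hP] at hx; exact hx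
    refine ⟨sInf P, sSup P, le_csInf hne fun x hx => (hmem x hx).1, csInf_le_csSup hne hlo hhi,
      fun x hxt hx => ?_, fun x h1 h2 => ?_, fun x hx => ?_⟩
    · by_contra hneg
      push Not at hneg
      exact (not_le.2 hx) (csInf_le hlo (hP ▸ ⟨hxt, hneg.le⟩))
    · obtain ⟨p, hp, hpx⟩ := exists_lt_of_csInf_lt hne h1
      obtain ⟨q, hq, hxq⟩ := exists_lt_of_lt_csSup hne h2
      exact hc p q x (hmem p hp).1 hpx hxq (hmem p hp).2 (hmem q hq).2
    · by_contra hneg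
      push Not at hneg
      have ht : t ≤ x := ((hmem _ hne.some_mem).1.trans (le_csSup hhi hne.some_mem)).trans hx.le
      exact (not_le.2 hx) (le_csSup hhi (hP ▸ ⟨ht, hneg.le⟩))

end Vale.Agent.P254.Unc
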