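import Vale.Agent.P254.Unc.ConvInt
import Vale.Agent.P254.Unc.ConvSign

/-!
# P254: comparison of a log-concave decreasing profile with the family
-/

open MeasureTheory Set Filter
open scoped Topology

namespace Vale.Agent.P254.Unc

/-- A decreasing log-concave profile supported by `[0, R]`. -/
structure Prof (R : ℝ) (F : ℝ → ℝ) : Prop where
  nice : Nice F
  anti : AntitoneOn F (Ioi 0)
  supp : ∀ x, R < x → F x = 0
  logc : ∀ x y p q, 0 < x → 0 < y → 0 < p → 0 < q → p + q = 1 → 0 < F x → 0 < F y →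
    F x ^ p * F y ^ q ≤ F (p * x + q * y)

/-- The family scaled by `r`. -/
noncomputable def famS (t r x : ℝ) : ℝ := r⁻¹ * fam t (r⁻¹ * x)

variable {R : ℝ} {F G : ℝ → ℝ} {t r : ℝ}

lemma nice_famS (ht : 0 ≤ t) (hr : 0 < r) : Nice (famS t r) := by
  obtain ⟨hm, C, c, hc, h⟩ := nice_fam ht
  refine ⟨(hm.comp (measurable_const.mul measurable_id)).const_mul _, r⁻¹ * C, c * r⁻¹,
    by positivity, fun x hx => ?_⟩
  obtain ⟨h0, h1⟩ := h (r⁻¹ * x) (by positivity)
  refine ⟨mul_nonneg (inv_nonneg.2 hr.le) h0, ?_⟩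
  rw [mul_assoc r⁻¹]
  refine (mul_le_mul_of_nonneg_left h1 (inv_nonneg.2 hr.le)).trans_eq ?_
  ring_nf

lemma famS_pos (ht : 0 ≤ t) (hr : 0 < r) (x : ℝ) : 0 < famS t r x :=
  mul_pos (inv_pos.2 hr) (div_pos (Real.exp_pos _) (by linarith))

lemma famS_flat (hr : 0 < r) {x : ℝ} (hx : x ≤ r * t) : famS t r x = r⁻¹ * (1 / (1 + t)) := by
  have : r⁻¹ * x ≤ t := by rwa [inv_mul_le_iff₀ hr]
  rw [famS, fam_eq, famU_flat this]

lemma famS_tail (hr : 0 < r) {x : ℝ} (hx : r * t ≤ x) :
    famS t r x = r⁻¹ * (Real.exp (t - r⁻¹ * x) / (1 + t)) := by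
  have : t ≤ r⁻¹ * x := by rwa [le_inv_mul_iff₀ hr]
  rw [famS, fam_eq, famU_tail this, ← Real.exp_add, ← sub_eq_add_neg]

lemma famS_moment (hr : 0 < r) (φ : ℝ → ℝ) :
    ∫ x in Ioi (0 : ℝ), famS t r x * φ x = ∫ y in Ioi (0 : ℝ), fam t y * φ (r * y) := by
  have h := MeasureTheory.integral_comp_mul_left_Ioi (fun y => fam t y * φ (r * y)) 0 (inv_pos.2 hr)
  rw [mul_zero, smul_eq_mul, inv_inv] at h
  calc ∫ x in Ioi (0 : ℝ), famS t r x * φ x
      = r⁻¹ * ∫ x in Ioi (0 : ℝ), fam t (r⁻¹ * x) * φ (r * (r⁻¹ * x)) := by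
        rw [← integral_const_mul]
        refine setIntegral_congr_fun measurableSet_Ioi fun x _ => ?_
        rw [← mul_assoc r, mul_inv_cancel₀ hr.ne', one_mul, famS]
        ring
    _ = _ := by rw [h, ← mul_assoc, inv_mul_cancel₀ hr.ne', one_mul]

lemma famS_mass (ht : 0 ≤ t) (hr : 0 < r) : ∫ x in Ioi (0 : ℝ), famS t r x = 1 := by
  have h := famS_moment (t := t) hr fun _ => 1
  simpa [fam_mass ht] using h

lemma famS_logMean (ht : 0 ≤ t) (hr : 0 < r) :
    ∫ x in Ioi (0 : ℝ), famS t r x * Real.log x = Real.log r + famMean t := by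
  rw [famS_moment hr]
  calc ∫ y in Ioi (0 : ℝ), fam t y * Real.log (r * y)
      = ∫ y in Ioi (0 : ℝ), (Real.log r * fam t y + fam t y * Real.log y) :=
        setIntegral_congr_fun measurableSet_Ioi fun y (hy : 0 < y) => by
          rw [Real.log_mul hr.ne' hy.ne']; ring
    _ = _ := by
        rw [integral_add ((nice_fam ht).one.const_mul _) (nice_fam ht).log, integral_const_mul,
          fam_mass ht, mul_one, famMean]

lemma famS_logSq (ht : 0 ≤ t) (hr : 0 < r) :
    ∫ x in Ioi (0 : ℝ), famS t r x * Real.log x ^ 2 =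
      famExcess t + 1 + (Real.log r + famMean t) ^ 2 := by
  rw [famS_moment hr]
  calc ∫ y in Ioi (0 : ℝ), fam t y * Real.log (r * y) ^ 2
      = ∫ y in Ioi (0 : ℝ), ((Real.log r ^ 2 * fam t y + 2 * Real.log r * (fam t y * Real.log y))
          + fam t y * Real.log y ^ 2) :=
        setIntegral_congr_fun measurableSet_Ioi fun y (hy : 0 < y) => by
          rw [Real.log_mul hr.ne' hy.ne']; ring
    _ = _ := by
        have k1 : Integrable (fun y => Real.log r ^ 2 * fam t y) (volume.restrict (Ioi 0)) :=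
          (nice_fam ht).one.const_mul _
        have k2 : Integrable (fun y => 2 * Real.log r * (fam t y * Real.log y))
            (volume.restrict (Ioi 0)) := (nice_fam ht).log.const_mul _
        have k12 : Integrable (fun y => Real.log r ^ 2 * fam t y +
            2 * Real.log r * (fam t y * Real.log y)) (volume.restrict (Ioi 0)) := k1.add k2
        rw [integral_add k12 (nice_fam ht).logSq, integral_add k1 k2,
          integral_const_mul, integral_const_mul, fam_mass ht, famExcess, famMean]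
        ring

lemma famS_snd (hr : 0 < r) :
    ∫ x in Ioi (0 : ℝ), famS t r x * x ^ 2 = r ^ 2 * famSnd t := by
  rw [famS_moment hr, famSnd, ← integral_const_mul]
  exact setIntegral_congr_fun measurableSet_Ioi fun y _ => by ring

/-- The sign pattern of `F - famS t r`. -/
lemma pattern (hF : Prof R F) (ht : 0 ≤ t) (hr : 0 < r) :
    ∃ a b c, 0 ≤ a ∧ a ≤ b ∧ b ≤ c ∧ (t = 0 → a = 0) ∧ ∀ x, 0 < x →
      ((x < a ∨ (b < x ∧ x < c)) → famS t r x ≤ F x) ∧
      (((a < x ∧ x < b) ∨ c < x) → F x ≤ famS t r x) := by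
  have hrt : 0 ≤ r * t := by positivity
  obtain ⟨a, ha0, hat, h1, h2⟩ := antitone_split (D := fun x => F x - famS t r x) hrt
    fun x y hx hxy hy => by
      simp only [famS_flat hr (hxy.trans hy), famS_flat hr hy]
      linarith [hF.anti hx (show 0 < y from hx.trans_le hxy) hxy]
  obtain ⟨b0, c0, hb, hbc, h3, h4, h5⟩ := interval_split (D := fun x => if 0 < x then
      F x - famS t r x else -1) (t := r * t) (R := max R 0)
    (fun x hx hR => by
      have hx0 : 0 < x := (le_max_right _ _).trans_lt hR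
      simp only [if_pos hx0, hF.supp x ((le_max_left _ _).trans_lt hR)]
      linarith [famS_pos ht hr x])
    fun x y z hx hxz hzy hDx hDy => by
      by_cases hx0 : 0 < x
      · simp only [if_pos hx0, if_pos (hx0.trans (hxz.trans hzy)), if_pos (hx0.trans hxz)] at *
        obtain ⟨p, q, hp, hq, hpq, hz⟩ : ∃ p q : ℝ, 0 < p ∧ 0 < q ∧ p + q = 1 ∧
            p * x + q * y = z := ⟨(y - z) / (y - x), (z - x) / (y - x),
          div_pos (by linarith) (by linarith), div_pos (by linarith) (by linarith),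
          by rw [← add_div, div_eq_one_iff_eq (by linarith)]; ring,
          by
            have : y - x ≠ 0 := by linarith
            field_simp
            ring⟩
        have gx := famS_pos ht hr x
        have gy := famS_pos ht hr y
        have h := hF.logc x y p q hx0 (by linarith) hp hq hpq (by linarith) (by linarith)
        rw [hz] at h
        refine sub_nonneg.2 (le_trans ?_ h)
        have e : famS t r z = famS t r x ^ p * famS t r y ^ q := by
          rw [famS_tail hr (by linarith : r * t ≤ z), famS_tail hr hx,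
            famS_tail hr (by linarith : r * t ≤ y), ← hz]
          have hA : 0 < r⁻¹ / (1 + t) := div_pos (inv_pos.2 hr) (by linarith)
          simp only [show ∀ e : ℝ, r⁻¹ * (e / (1 + t)) = r⁻¹ / (1 + t) * e from fun e => by ring]
          rw [Real.mul_rpow hA.le (Real.exp_nonneg _), Real.mul_rpow hA.le (Real.exp_nonneg _),
            ← Real.exp_mul, ← Real.exp_mul]
          calc r⁻¹ / (1 + t) * Real.exp (t - r⁻¹ * (p * x + q * y))
              = (r⁻¹ / (1 + t)) ^ (p + q) *
                Real.exp ((t - r⁻¹ * x) * p + (t - r⁻¹ * y) * q) := by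
                rw [hpq, Real.rpow_one]; congr 2; linear_combination (-t) * hpq
            _ = _ := by rw [Real.rpow_add hA, Real.exp_add]; ring
        rw [e]
        exact mul_le_mul (Real.rpow_le_rpow gx.le (by linarith) hp.le)
          (Real.rpow_le_rpow gy.le (by linarith) hq.le) (Real.rpow_nonneg gy.le _)
          (Real.rpow_nonneg (by linarith) _)
      · simp only [if_neg hx0] at hDx
        linarith
  refine ⟨a, b0, c0, ha0, hat.trans hb, hbc, fun h0 => ?_, fun x hx => ⟨fun h => ?_, fun h => ?_⟩⟩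
  · rw [h0, mul_zero] at hat
    exact le_antisymm hat ha0
  · rcases h with h | ⟨h, h'⟩
    · linarith [h1 x hx h]
    · have := h4 x h h'
      simp only [if_pos hx] at this
      linarith
  · rcases h with ⟨h, h'⟩ | h
    · rcases le_total x (r * t) with hxt | hxt
      · linarith [h2 x h hxt]
      · have := h3 x hxt h'
        simp only [if_pos hx] at this
        linarith
    · have := h5 x h
      simp only [if_pos hx] at this
      linarith

lemma ae_notMem_of_finite (s : Set ℝ) (hs : s.Finite) :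
    ∀ᵐ x ∂(volume.restrict (Ioi (0 : ℝ))), x ∉ s :=
  ae_restrict_of_ae (hs.countable.ae_notMem _)

/-- Moments of the difference against a test function. -/
lemma diff_integral (hF : Nice F) (hG : Nice G) (c0 c1 c2 : ℝ) :
    IntegrableOn
        (fun x => (F x - G x) * (x ^ 2 - c0 - c1 * Real.log x - c2 * Real.log x ^ 2)) (Ioi 0) ∧
    ∫ x in Ioi (0 : ℝ), (F x - G x) * (x ^ 2 - c0 - c1 * Real.log x - c2 * Real.log x ^ 2) =
      ((∫ x in Ioi (0 : ℝ), F x * x ^ 2) - ∫ x in Ioi (0 : ℝ), G x * x ^ 2) -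
      c0 * ((∫ x in Ioi (0 : ℝ), F x) - ∫ x in Ioi (0 : ℝ), G x) -
      c1 * ((∫ x in Ioi (0 : ℝ), F x * Real.log x) - ∫ x in Ioi (0 : ℝ), G x * Real.log x) -
      c2 * ((∫ x in Ioi (0 : ℝ), F x * Real.log x ^ 2) -
        ∫ x in Ioi (0 : ℝ), G x * Real.log x ^ 2) := by
  have e : (fun x => (F x - G x) * (x ^ 2 - c0 - c1 * Real.log x - c2 * Real.log x ^ 2)) =
      fun x => (((F x * x ^ 2 - G x * x ^ 2) - c0 * (F x - G x)) -
        c1 * (F x * Real.log x - G x * Real.log x)) -
        c2 * (F x * Real.log x ^ 2 - G x * Real.log x ^ 2) := by funext x; ring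
  rw [e]
  have i2 : Integrable (fun x => F x * x ^ 2 - G x * x ^ 2) (volume.restrict (Ioi 0)) :=
    hF.sq.sub hG.sq
  have i0 : Integrable (fun x => c0 * (F x - G x)) (volume.restrict (Ioi 0)) :=
    (hF.one.sub hG.one).const_mul c0
  have i1 : Integrable (fun x => c1 * (F x * Real.log x - G x * Real.log x))
      (volume.restrict (Ioi 0)) := (hF.log.sub hG.log).const_mul c1
  have i3 : Integrable (fun x => c2 * (F x * Real.log x ^ 2 - G x * Real.log x ^ 2))
      (volume.restrict (Ioi 0)) := (hF.logSq.sub hG.logSq).const_mul c2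
  refine ⟨((i2.sub i0).sub i1).sub i3, ?_⟩
  have i20 : Integrable (fun x => (F x * x ^ 2 - G x * x ^ 2) - c0 * (F x - G x))
      (volume.restrict (Ioi 0)) := i2.sub i0
  have i201 : Integrable (fun x => ((F x * x ^ 2 - G x * x ^ 2) - c0 * (F x - G x)) -
      c1 * (F x * Real.log x - G x * Real.log x)) (volume.restrict (Ioi 0)) := i20.sub i1
  rw [integral_sub i201 i3, integral_sub i20 i1, integral_sub i2 i0,
    integral_sub hF.sq hG.sq, integral_const_mul, integral_const_mul, integral_const_mul,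
    integral_sub hF.one hG.one, integral_sub hF.log hG.log, integral_sub hF.logSq hG.logSq]

/-- Matched mass and log-mean: a larger log-variance gives a larger second moment. -/
lemma snd_le (hF : Prof R F) (ht : 0 ≤ t) (hr : 0 < r)
    (hmass : ∫ x in Ioi (0 : ℝ), F x = 1)
    (hmean : ∫ x in Ioi (0 : ℝ), F x * Real.log x = Real.log r + famMean t)
    (hvar : t = 0 ∨
      (∫ x in Ioi (0 : ℝ), F x * Real.log x ^ 2) ≤
        famExcess t + 1 + (Real.log r + famMean t) ^ 2) :
    ∫ x in Ioi (0 : ℝ), F x * x ^ 2 ≤ r ^ 2 * famSnd t := by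
  obtain ⟨a, b, c, ha, hab, hbc, hat, hs⟩ := pattern hF ht hr
  have key : ∀ c0 c1 c2 : ℝ, 0 ≤ c2 → (t = 0 → 0 < a ∨ c2 = 0) →
      (∀ x, 0 < x → ((x < a ∨ (b < x ∧ x < c)) →
        x ^ 2 - c0 - c1 * Real.log x - c2 * Real.log x ^ 2 ≤ 0) ∧
        (((a < x ∧ x < b) ∨ c < x) → 0 ≤ x ^ 2 - c0 - c1 * Real.log x - c2 * Real.log x ^ 2)) →
      ∫ x in Ioi (0 : ℝ), F x * x ^ 2 ≤ r ^ 2 * famSnd t := by
    intro c0 c1 c2 hc2 hz hsign
    obtain ⟨-, he⟩ := diff_integral hF.nice (nice_famS ht hr) c0 c1 c2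
    have hle : ∫ x in Ioi (0 : ℝ),
        (F x - famS t r x) * (x ^ 2 - c0 - c1 * Real.log x - c2 * Real.log x ^ 2) ≤ 0 := by
      refine integral_nonpos_of_ae ?_
      filter_upwards [ae_restrict_mem measurableSet_Ioi,
        ae_notMem_of_finite {a, b, c} (by simp)] with x hx hne
      simp only [Set.mem_insert_iff, Set.mem_singleton_iff, not_or] at hne
      obtain ⟨h1, h2⟩ := hs x hx
      obtain ⟨g1, g2⟩ := hsign x hx
      simp only [Pi.zero_apply]
      rcases lt_or_gt_of_ne hne.1 with h | h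
      · exact mul_nonpos_of_nonneg_of_nonpos (sub_nonneg.2 (h1 (Or.inl h))) (g1 (Or.inl h))
      rcases lt_or_gt_of_ne hne.2.1 with h' | h'
      · exact mul_nonpos_of_nonpos_of_nonneg (sub_nonpos.2 (h2 (Or.inl ⟨h, h'⟩)))
          (g2 (Or.inl ⟨h, h'⟩))
      rcases lt_or_gt_of_ne hne.2.2 with h'' | h''
      · exact mul_nonpos_of_nonneg_of_nonpos (sub_nonneg.2 (h1 (Or.inr ⟨h', h''⟩)))
          (g1 (Or.inr ⟨h', h''⟩))
      · exact mul_nonpos_of_nonpos_of_nonneg (sub_nonpos.2 (h2 (Or.inr h'')))
          (g2 (Or.inr h''))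
    rw [he, hmass, famS_mass ht hr, hmean, famS_logMean ht hr, famS_logSq ht hr, famS_snd hr,
      sub_self, sub_self, mul_zero, mul_zero] at hle
    rcases hvar with h0 | hv
    · rcases hz h0 with h | h
      · linarith [hat h0]
      · rw [h] at hle; linarith
    · nlinarith
  rcases ha.eq_or_lt with ha0 | ha0
  · rcases (ha.trans hab).eq_or_lt with hb0 | hb0
    · refine key (c ^ 2) 0 0 le_rfl (fun _ => Or.inr rfl) fun x hx => ⟨fun h => ?_, fun h => ?_⟩
      · rcases h with h | ⟨-, h⟩
        · linarith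
        · simp only [zero_mul, sub_zero]; nlinarith
      · rcases h with ⟨h, h'⟩ | h
        · linarith
        · simp only [zero_mul, sub_zero]
          have : 0 ≤ c := (ha.trans hab).trans hbc
          nlinarith
    · obtain ⟨c0, c1, h⟩ := test2 convexOn_exp_two hb0 hbc
      refine key c0 c1 0 le_rfl (fun _ => Or.inr rfl) fun x hx => ⟨fun hh => ?_, fun hh => ?_⟩ <;>
        simp only [zero_mul, sub_zero] <;> have h' := h x hx <;> rw [exp_two_log hx] at h'
      · rcases hh with hh | ⟨hh, hh'⟩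
        · linarith
        · exact h'.2 hh.le hh'.le
      · rcases hh with ⟨-, hh⟩ | hh
        · exact h'.1 (Or.inl hh.le)
        · exact h'.1 (Or.inr hh.le)
  · obtain ⟨c0, c1, c2, hc2, h⟩ := test3 ha0 hab hbc
    refine key c0 c1 c2 hc2 (fun _ => Or.inl ha0) fun x hx => ⟨fun hh => (h x hx).1 ?_,
      fun hh => (h x hx).2 ?_⟩
    · exact hh.imp le_of_lt fun p => ⟨p.1.le, p.2.le⟩
    · exact hh.imp (fun p => ⟨p.1.le, p.2.le⟩) le_of_lt

/-- A decreasing density has log-variance at least one. -/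
lemma excess_nonneg (hF : Nice F) (hanti : AntitoneOn F (Ioi 0)) (hmass : ∫ x in Ioi (0 : ℝ), F x = 1) :
    (∫ x in Ioi (0 : ℝ), F x * Real.log x) ^ 2 + 1 ≤
      ∫ x in Ioi (0 : ℝ), F x * Real.log x ^ 2 := by
  obtain ⟨M, hM⟩ : ∃ M, M = ∫ x in Ioi (0 : ℝ), F x * Real.log x := ⟨_, rfl⟩
  obtain ⟨A, hA⟩ : ∃ A, A = Real.exp (M + 1) := ⟨_, rfl⟩
  have hA0 : 0 < A := hA ▸ Real.exp_pos _
  rw [← hM]
  obtain ⟨U, hU⟩ : ∃ U : ℝ → ℝ, U = (Iic A).indicator fun _ => A⁻¹ := ⟨_, rfl⟩
  have hUle : ∀ x, x ≤ A → U x = A⁻¹ := fun x hx => by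
    rw [hU, indicator_of_mem (show x ∈ Iic A from hx)]
  have hUgt : ∀ x, A < x → U x = 0 := fun x hx => by
    rw [hU, indicator_of_notMem (show x ∉ Iic A from not_le.2 hx)]
  have hUn : Nice U := by
    refine ⟨hU ▸ measurable_const.indicator measurableSet_Iic, A⁻¹ * Real.exp A, 1, one_pos,
      fun x hx => ?_⟩
    rcases le_or_gt x A with h | h
    · rw [hUle x h]
      refine ⟨by positivity, ?_⟩
      rw [mul_assoc, ← Real.exp_add]
      exact le_mul_of_one_le_right (by positivity) (Real.one_le_exp (by linarith))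
    · rw [hUgt x h]; exact ⟨le_rfl, by positivity⟩
  have hUmom : ∀ φ : ℝ → ℝ,
      ∫ x in Ioi (0 : ℝ), U x * φ x = A⁻¹ * ∫ x in (0 : ℝ)..A, φ x := fun φ => by
    rw [intervalIntegral.integral_of_le hA0.le, ← integral_const_mul,
      ← Ioi_inter_Iic, ← setIntegral_indicator measurableSet_Iic]
    refine setIntegral_congr_fun measurableSet_Ioi fun x _ => ?_
    rcases le_or_gt x A with h | h
    · rw [hUle x h, indicator_of_mem (show x ∈ Iic A from h)]
    · rw [hUgt x h, indicator_of_notMem (show x ∉ Iic A from not_le.2 h), zero_mul]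
  have u0 : ∫ x in Ioi (0 : ℝ), U x = 1 := by
    have := hUmom fun _ => 1
    simp only [mul_one, intervalIntegral.integral_const, sub_zero, smul_eq_mul] at this
    rw [this, inv_mul_cancel₀ hA0.ne']
  have hlA : Real.log A - 1 = M := by rw [hA, Real.log_exp]; ring
  have u1 : ∫ x in Ioi (0 : ℝ), U x * Real.log x = M := by
    rw [hUmom, integral_log, ← hlA]
    simp only [Real.log_zero, mul_zero, sub_zero]
    field_simp
    ring
  have u2 : ∫ x in Ioi (0 : ℝ), U x * Real.log x ^ 2 = M ^ 2 + 1 := by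
    have h := log_shift_sq hA0
    rw [hlA] at h
    have h2 : ∫ x in Ioi (0 : ℝ), U x * (Real.log x - M) ^ 2 = 1 := by
      rw [hUmom, h, inv_mul_cancel₀ hA0.ne']
    have e : (fun x => U x * (Real.log x - M) ^ 2) = fun x =>
        (U x * Real.log x ^ 2 - 2 * M * (U x * Real.log x)) + M ^ 2 * U x := by funext x; ring
    have j1 : Integrable (fun x => 2 * M * (U x * Real.log x)) (volume.restrict (Ioi 0)) :=
      hUn.log.const_mul _
    have j01 : Integrable (fun x => U x * Real.log x ^ 2 - 2 * M * (U x * Real.log x))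
        (volume.restrict (Ioi 0)) := hUn.logSq.sub j1
    rw [e, integral_add j01 (hUn.one.const_mul _), integral_sub hUn.logSq j1,
      integral_const_mul, integral_const_mul, u0, u1] at h2
    linarith
  obtain ⟨a, ha, haA, h1, h2⟩ := antitone_split (D := fun x => F x - U x) hA0.le
    fun x y hx hxy hy => by
      simp only [hUle x (hxy.trans hy), hUle y hy]
      linarith [hanti hx (show 0 < y from hx.trans_le hxy) hxy]
  have hFnn : ∀ x, 0 < x → 0 ≤ F x := fun x hx => by
    obtain ⟨-, C, c, -, h⟩ := hF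
    exact (h x hx).1
  -- the integral of the difference against an affine function of `log x` vanishes
  have hzero : ∀ c0 c1 : ℝ, ∫ x in Ioi (0 : ℝ), (F x - U x) * (-c0 - c1 * Real.log x) = 0 := by
    intro c0 c1
    have e : (fun x => (F x - U x) * (-c0 - c1 * Real.log x)) =
        fun x => -c0 * (F x - U x) - c1 * (F x * Real.log x - U x * Real.log x) := by
      funext x; ring
    have k1 : Integrable (fun x => -c0 * (F x - U x)) (volume.restrict (Ioi 0)) :=
      (hF.one.sub hUn.one).const_mul _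
    have k2 : Integrable (fun x => c1 * (F x * Real.log x - U x * Real.log x))
        (volume.restrict (Ioi 0)) := (hF.log.sub hUn.log).const_mul _
    rw [e, integral_sub k1 k2, integral_const_mul, integral_const_mul,
      integral_sub hF.one hUn.one, integral_sub hF.log hUn.log, hmass, u0, u1, ← hM]
    ring
  have hsplit : ∀ c0 c1 : ℝ,
      ∫ x in Ioi (0 : ℝ), (F x - U x) * (Real.log x ^ 2 - c0 - c1 * Real.log x) =
        (∫ x in Ioi (0 : ℝ), F x * Real.log x ^ 2) - (M ^ 2 + 1) := by
    intro c0 c1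
    have j1 : Integrable (fun x => F x * Real.log x ^ 2 - U x * Real.log x ^ 2)
        (volume.restrict (Ioi 0)) := hF.logSq.sub hUn.logSq
    have j2 : Integrable (fun x => (F x - U x) * (-c0 - c1 * Real.log x))
        (volume.restrict (Ioi 0)) := by
      have := ((hF.one.sub hUn.one).const_mul (-c0)).sub
        ((hF.log.sub hUn.log).const_mul c1)
      refine this.congr (Eventually.of_forall fun x => ?_)
      simp only [Pi.sub_apply]
      ring
    have e : (fun x => (F x - U x) * (Real.log x ^ 2 - c0 - c1 * Real.log x)) =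
        fun x => (F x * Real.log x ^ 2 - U x * Real.log x ^ 2) +
          (F x - U x) * (-c0 - c1 * Real.log x) := by
      funext x; ring
    rw [e, integral_add j1 j2, integral_sub hF.logSq hUn.logSq, u2, hzero, add_zero]
  rcases ha.eq_or_lt with ha0 | ha0
  · -- then `F` is the uniform density
    have hj : Integrable (fun x => (F x - U x) * (-Real.log A - -1 * Real.log x))
        (volume.restrict (Ioi 0)) := by
      have := ((hF.one.sub hUn.one).const_mul (-Real.log A)).add
        (hF.log.sub hUn.log)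
      refine this.congr (Eventually.of_forall fun x => ?_)
      simp only [Pi.add_apply, Pi.sub_apply]
      ring
    have hnn : (0 : ℝ → ℝ) ≤ᵐ[volume.restrict (Ioi 0)]
        fun x => (F x - U x) * (-Real.log A - -1 * Real.log x) := by
      filter_upwards [ae_restrict_mem measurableSet_Ioi] with x (hx : 0 < x)
      simp only [Pi.zero_apply]
      rcases le_or_gt x A with h | h
      · exact mul_nonneg_of_nonpos_of_nonpos (h2 x (ha0 ▸ hx) h)
          (by linarith [Real.log_le_log hx h])
      · refine mul_nonneg ?_ (by linarith [Real.log_le_log hA0 h.le])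
        rw [hUgt x h, sub_zero]
        exact hFnn x hx
    have hae := (integral_eq_zero_iff_of_nonneg_ae hnn hj).1 (hzero _ _)
    have : ∫ x in Ioi (0 : ℝ), (F x - U x) * (Real.log x ^ 2 - 0 - 0 * Real.log x) = 0 := by
      refine integral_eq_zero_of_ae ?_
      filter_upwards [hae, ae_restrict_mem measurableSet_Ioi,
        ae_notMem_of_finite {A} (finite_singleton A)] with x hx hx0 hxA
      simp only [Pi.zero_apply] at hx ⊢
      rcases mul_eq_zero.1 hx with h | h
      · rw [h, zero_mul]
      · exact absurd (Real.log_injOn_pos hx0 hA0 (by linarith)) (by simpa using hxA)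
    rw [hsplit] at this
    linarith
  · obtain ⟨c0, c1, h⟩ := test2 convexOn_sq ha0 haA
    have : 0 ≤ ∫ x in Ioi (0 : ℝ), (F x - U x) * (Real.log x ^ 2 - c0 - c1 * Real.log x) := by
      refine integral_nonneg_of_ae ?_
      filter_upwards [ae_restrict_mem measurableSet_Ioi,
        ae_notMem_of_finite {a} (finite_singleton a)] with x hx hxa
      simp only [Pi.zero_apply]
      rcases lt_or_gt_of_ne (by simpa using hxa : x ≠ a) with hxl | hxg
      · exact mul_nonneg (h1 x hx hxl) ((h x hx).1 (Or.inl hxl.le))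
      rcases le_or_gt x A with hh | hh
      · exact mul_nonneg_of_nonpos_of_nonpos (h2 x hxg hh) ((h x hx).2 hxg.le hh)
      · refine mul_nonneg ?_ ((h x hx).1 (Or.inr hh.le))
        rw [hUgt x hh, sub_zero]
        exact hFnn x hx
    rw [hsplit] at this
    linarith

end Vale.Agent.P254.Unc
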