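import Vale.Agent.P254.Unc.Marg

/-!
# P254: the one-parameter family of the conversion inequality

The profile is flat on `[0, t]` and then `exp (-(x - t))`.
-/

open MeasureTheory Set

namespace Vale.Agent.P254.Unc

/-- The normalised profile, flat on `[0, t]` and then exponential with unit rate. -/
noncomputable def fam (t x : ℝ) : ℝ := Real.exp (-max (x - t) 0) / (1 + t)

/-- The mean of `log x` of the profile. -/
noncomputable def famMean (t : ℝ) : ℝ := ∫ x in Ioi (0 : ℝ), fam t x * Real.log x

/-- The variance of `log x` of the profile, minus one. -/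
noncomputable def famExcess (t : ℝ) : ℝ :=
  (∫ x in Ioi (0 : ℝ), fam t x * Real.log x ^ 2) - famMean t ^ 2 - 1

/-- The second moment of the profile. -/
noncomputable def famSnd (t : ℝ) : ℝ := ∫ x in Ioi (0 : ℝ), fam t x * x ^ 2

/-- The conversion inequality on the family. -/
def FamIneq (ψ : ℝ → ℝ) (m : ℝ) : Prop :=
  ∀ t, 0 ≤ t → Real.log (famSnd t) / 2 + 1 - Real.log 2 + m ≤ famMean t + ψ (famExcess t)

end Vale.Agent.P254.Unc
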