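import Vale.Agent.P254.Unc.ConvFam

/-!
# P254: integrability and elementary properties of the family
-/

open MeasureTheory Set Filter
open scoped Topology

namespace Vale.Agent.P254.Unc

/-- A nonnegative profile with an exponential tail. -/
def Nice (f : ℝ → ℝ) : Prop :=
  Measurable f ∧ ∃ C c : ℝ, 0 < c ∧ ∀ x, 0 < x → 0 ≤ f x ∧ f x ≤ C * Real.exp (-c * x)

/-- The dominating weight. -/
noncomputable def dom (x : ℝ) : ℝ := x ^ (-(1 / 4) : ℝ) + x ^ (2 : ℝ)

lemma dom_nonneg {x : ℝ} (hx : 0 ≤ x) : 0 ≤ dom x := by unfold dom; positivity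

lemma one_le_dom {x : ℝ} (hx : 0 < x) : 1 ≤ dom x := by
  rcases le_or_gt x 1 with h | h
  · exact le_add_of_le_of_nonneg (Real.one_le_rpow_of_pos_of_le_one_of_nonpos hx h (by norm_num))
      (by positivity)
  · exact le_add_of_nonneg_of_le (by positivity) (Real.one_le_rpow h.le (by norm_num))

lemma log_sq_le_dom {x : ℝ} (hx : 0 < x) : Real.log x ^ 2 ≤ 64 * dom x := by
  rcases le_or_gt x 1 with h | h
  · have h0 := (Real.abs_log_mul_self_rpow_lt x (1 / 8) hx h (by norm_num)).le
    have hp : 0 < x ^ (1 / 8 : ℝ) := Real.rpow_pos_of_pos hx _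
    rw [abs_mul, abs_of_pos hp, ← le_div_iff₀ hp] at h0
    have h1 := pow_le_pow_left₀ (abs_nonneg _) h0 2
    rw [sq_abs] at h1
    refine h1.trans (le_of_eq_of_le ?_ (mul_le_mul_of_nonneg_left
      (show x ^ (-(1 / 4) : ℝ) ≤ dom x from le_add_of_nonneg_right (by positivity))
      (by norm_num : (0 : ℝ) ≤ 64)))
    rw [Real.rpow_neg hx.le, div_pow, show (1 / 4 : ℝ) = 1 / 8 * (2 : ℕ) by norm_num,
      Real.rpow_mul_natCast hx.le]
    field_simp
    norm_num
  · have h1 := pow_le_pow_left₀ (Real.log_nonneg h.le)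
      ((Real.log_le_sub_one_of_pos hx).trans (by linarith : x - 1 ≤ x)) 2
    refine h1.trans ?_
    have h2 : x ^ 2 ≤ dom x := by
      rw [← Real.rpow_natCast]
      exact le_add_of_nonneg_left (a := x ^ (2 : ℝ)) (by positivity)
    linarith [sq_nonneg x]

lemma abs_log_le_dom {x : ℝ} (hx : 0 < x) : |Real.log x| ≤ 65 * dom x := by
  nlinarith [one_le_dom hx, log_sq_le_dom hx, sq_abs (Real.log x), sq_nonneg (|Real.log x| - 1)]

lemma sq_le_dom {x : ℝ} (hx : 0 < x) : x ^ 2 ≤ dom x := by
  rw [← Real.rpow_natCast]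
  exact le_add_of_nonneg_left (a := x ^ (2 : ℝ)) (by positivity)

lemma dom_exp_integrable {c : ℝ} (hc : 0 < c) :
    IntegrableOn (fun x => dom x * Real.exp (-c * x)) (Ioi 0) := by
  have h1 := integrableOn_rpow_mul_exp_neg_mul_rpow (p := 1) (s := (-(1 / 4) : ℝ)) (by norm_num)
    one_pos hc
  have h2 := integrableOn_rpow_mul_exp_neg_mul_rpow (p := 1) (s := (2 : ℝ)) (by norm_num)
    one_pos hc
  simp only [Real.rpow_one] at h1 h2
  simp only [dom, add_mul]
  exact h1.add h2

/-- Moments of nice profiles exist. -/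
lemma Nice.integrable {f φ : ℝ → ℝ} (hf : Nice f) (hφ : Measurable φ) {K : ℝ}
    (hb : ∀ x, 0 < x → |φ x| ≤ K * dom x) : IntegrableOn (fun x => f x * φ x) (Ioi 0) := by
  obtain ⟨hm, C, c, hc, h⟩ := hf
  refine ((dom_exp_integrable hc).const_mul (C * K)).mono' ((hm.mul hφ).aestronglyMeasurable) ?_
  filter_upwards [ae_restrict_mem measurableSet_Ioi] with x hx
  obtain ⟨h0, hC⟩ := h x hx
  rw [Real.norm_eq_abs, abs_mul, abs_of_nonneg h0]
  calc f x * |φ x| ≤ C * Real.exp (-c * x) * (K * dom x) :=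
        mul_le_mul hC (hb x hx) (abs_nonneg _) (h0.trans hC)
    _ = _ := by ring

lemma Nice.one {f : ℝ → ℝ} (hf : Nice f) : IntegrableOn f (Ioi 0) := by
  simpa using hf.integrable measurable_const (φ := fun _ => 1) (K := 1)
    fun x hx => by simpa using one_le_dom hx

lemma Nice.log {f : ℝ → ℝ} (hf : Nice f) :
    IntegrableOn (fun x => f x * Real.log x) (Ioi 0) :=
  hf.integrable Real.measurable_log fun _ hx => abs_log_le_dom hx

lemma Nice.logSq {f : ℝ → ℝ} (hf : Nice f) :
    IntegrableOn (fun x => f x * Real.log x ^ 2) (Ioi 0) :=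
  hf.integrable (Real.measurable_log.pow_const 2) fun x hx => by
    rw [abs_of_nonneg (sq_nonneg _)]; exact log_sq_le_dom hx

lemma Nice.sq {f : ℝ → ℝ} (hf : Nice f) : IntegrableOn (fun x => f x * x ^ 2) (Ioi 0) :=
  hf.integrable (measurable_id.pow_const 2) (K := 1) fun x hx => by
    rw [one_mul, abs_of_nonneg (sq_nonneg _)]; exact sq_le_dom hx

/-! ### The family -/

/-- The unnormalised profile. -/
noncomputable def famU (t x : ℝ) : ℝ := Real.exp (-max (x - t) 0)

lemma fam_eq (t x : ℝ) : fam t x = famU t x / (1 + t) := rfl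

lemma famU_le {t x T : ℝ} (hT : t ≤ T) : famU t x ≤ Real.exp T * Real.exp (-(1 : ℝ) * x) := by
  rw [famU, ← Real.exp_add]
  exact Real.exp_le_exp.2 (by linarith [le_max_left (x - t) 0])

lemma nice_fam {t : ℝ} (ht : 0 ≤ t) : Nice (fam t) := by
  refine ⟨(by unfold fam; fun_prop), Real.exp t, 1, one_pos, fun x _ => ?_⟩
  have h1 : 0 < 1 + t := by linarith
  refine ⟨div_nonneg (Real.exp_nonneg _) h1.le, ?_⟩
  rw [fam_eq]
  exact (div_le_self (Real.exp_nonneg _) (by linarith)).trans (famU_le le_rfl)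

lemma continuous_famU_moment {φ : ℝ → ℝ} (hφ : Measurable φ) {K : ℝ}
    (hb : ∀ x, 0 < x → |φ x| ≤ K * dom x) :
    Continuous fun t => ∫ x in Ioi (0 : ℝ), famU t x * φ x := by
  refine continuous_iff_continuousAt.2 fun t0 => ?_
  refine continuousAt_of_dominated
    (bound := fun x => Real.exp (t0 + 1) * K * (dom x * Real.exp (-(1 : ℝ) * x)))
    (Eventually.of_forall fun t =>
      ((by unfold famU; fun_prop : Measurable (famU t)).mul hφ).aestronglyMeasurable) ?_
    ((dom_exp_integrable one_pos).const_mul _) ?_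
  · filter_upwards [Iio_mem_nhds (lt_add_one t0)] with t ht
    filter_upwards [ae_restrict_mem measurableSet_Ioi] with x hx
    rw [Real.norm_eq_abs, abs_mul, abs_of_pos (show 0 < famU t x from Real.exp_pos _)]
    calc famU t x * |φ x| ≤ Real.exp (t0 + 1) * Real.exp (-(1 : ℝ) * x) * (K * dom x) :=
          mul_le_mul (famU_le (le_of_lt ht)) (hb x hx) (abs_nonneg _) (by positivity)
      _ = _ := by ring
  · filter_upwards with x
    exact ((by unfold famU; fun_prop : Continuous fun t => famU t x).mul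
      continuous_const).continuousAt

lemma fam_moment (t : ℝ) (φ : ℝ → ℝ) :
    ∫ x in Ioi (0 : ℝ), fam t x * φ x = (∫ x in Ioi (0 : ℝ), famU t x * φ x) / (1 + t) := by
  rw [← integral_div]
  exact setIntegral_congr_fun measurableSet_Ioi fun x _ => by simp only [fam_eq]; ring

lemma continuousOn_famExcess : ContinuousOn famExcess (Ici 0) := by
  have h1 := continuous_famU_moment Real.measurable_log fun _ hx => abs_log_le_dom hx
  have h2 := continuous_famU_moment (Real.measurable_log.pow_const 2) (K := 64) fun x hx => by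
    rw [abs_of_nonneg (sq_nonneg _)]; exact log_sq_le_dom hx
  have hne : ∀ t ∈ Ici (0 : ℝ), 1 + t ≠ 0 := fun t (ht : 0 ≤ t) => by linarith
  have hd : ContinuousOn (fun t : ℝ => 1 + t) (Ici 0) := by fun_prop
  unfold famExcess famMean
  simp only [fam_moment]
  exact ((h2.continuousOn.div hd hne).sub ((h1.continuousOn.div hd hne).pow 2)).sub
    continuousOn_const

lemma famU_flat {t x : ℝ} (hx : x ≤ t) : famU t x = 1 := by
  simp [famU, max_eq_right (sub_nonpos.2 hx)]

lemma famU_tail {t x : ℝ} (hx : t ≤ x) : famU t x = Real.exp t * Real.exp (-x) := by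
  rw [famU, max_eq_left (sub_nonneg.2 hx), ← Real.exp_add]
  congr 1; ring

lemma famU_split {t : ℝ} (ht : 0 ≤ t) {φ : ℝ → ℝ}
    (hi : IntegrableOn (fun x => famU t x * φ x) (Ioi 0)) :
    ∫ x in Ioi (0 : ℝ), famU t x * φ x =
      (∫ x in (0 : ℝ)..t, φ x) + Real.exp t * ∫ x in Ioi t, Real.exp (-x) * φ x := by
  rw [← Ioc_union_Ioi_eq_Ioi ht] at hi ⊢
  rw [setIntegral_union Ioc_disjoint_Ioi_same measurableSet_Ioi hi.left_of_union hi.right_of_union,
    intervalIntegral.integral_of_le ht, ← integral_const_mul]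
  congr 1
  · exact setIntegral_congr_fun measurableSet_Ioc fun x hx => by simp [famU_flat hx.2]
  · exact setIntegral_congr_fun measurableSet_Ioi fun x (hx : t < x) => by
      simp only [famU_tail hx.le]; ring

lemma famU_integrable {t : ℝ} (ht : 0 ≤ t) {φ : ℝ → ℝ}
    (h : IntegrableOn (fun x => fam t x * φ x) (Ioi 0)) :
    IntegrableOn (fun x => famU t x * φ x) (Ioi 0) := by
  refine IntegrableOn.congr_fun (h.const_mul (1 + t)) (fun x _ => ?_) measurableSet_Ioi
  simp only [fam_eq]
  field_simp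

lemma fam_mass {t : ℝ} (ht : 0 ≤ t) : ∫ x in Ioi (0 : ℝ), fam t x = 1 := by
  have h := fam_moment t fun _ => 1
  simp only [mul_one] at h
  have h2 := famU_split ht (φ := fun _ => 1) (famU_integrable ht (by simpa using (nice_fam ht).one))
  simp only [mul_one, intervalIntegral.integral_const, sub_zero, smul_eq_mul,
    integral_exp_neg_Ioi] at h2
  rw [← Real.exp_add, add_neg_cancel, Real.exp_zero] at h2
  rw [h, h2, add_comm t, div_self (by linarith)]

/-- `∫_0^t (log (x / t) + 1)² = t`. -/
lemma log_shift_sq {t : ℝ} (ht : 0 < t) :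
    ∫ x in (0 : ℝ)..t, (Real.log x - (Real.log t - 1)) ^ 2 = t := by
  obtain ⟨k, hk⟩ : ∃ k, k = Real.log t - 1 := ⟨_, rfl⟩
  rw [← hk]
  have hi : IntervalIntegrable (fun x => (Real.log x - k) ^ 2) volume 0 t := by
    rw [intervalIntegrable_iff_integrableOn_Ioc_of_le ht.le]
    have h := ((nice_fam ht.le).integrable (φ := fun x => (Real.log x - k) ^ 2)
      ((Real.measurable_log.sub_const k).pow_const 2) (K := 128 + 2 * k ^ 2) fun x hx => ?_)
    · refine IntegrableOn.congr_fun ((h.mono_set Ioc_subset_Ioi_self).const_mul (1 + t))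
        (fun x hx => ?_)
        measurableSet_Ioc
      simp only [fam_eq, famU_flat hx.2]
      field_simp
    · rw [abs_of_nonneg (sq_nonneg _)]
      nlinarith [log_sq_le_dom hx, one_le_dom hx, sq_nonneg (Real.log x + k), sq_nonneg k]
  -- `x log² x = 4 (√x log √x)²`
  have hc : Continuous fun x : ℝ => 4 * (√x * Real.log √x) ^ 2 - 2 * (k + 1) * (x * Real.log x) +
      (2 + 2 * k + k ^ 2) * x := by
    exact (((Real.continuous_mul_log.comp Real.continuous_sqrt).pow 2).const_mul 4).sub
      (Real.continuous_mul_log.const_mul _) |>.add (continuous_id.const_mul _)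
  have key := intervalIntegral.integral_eq_sub_of_hasDerivAt_of_le ht.le
    (f := fun x : ℝ => 4 * (√x * Real.log √x) ^ 2 - 2 * (k + 1) * (x * Real.log x) +
      (2 + 2 * k + k ^ 2) * x) hc.continuousOn (fun x hx => ?_) hi
  · rw [key, Real.log_sqrt ht.le]
    simp only [Real.sqrt_zero, mul_pow, Real.sq_sqrt ht.le, hk]
    ring_nf
  · have hx0 : 0 < x := hx.1
    have e : (fun x : ℝ => 4 * (√x * Real.log √x) ^ 2 - 2 * (k + 1) * (x * Real.log x) +
        (2 + 2 * k + k ^ 2) * x) =ᶠ[𝓝 x] fun x => x * Real.log x ^ 2 -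
          2 * (k + 1) * (x * Real.log x) + (2 + 2 * k + k ^ 2) * x := by
      filter_upwards [lt_mem_nhds hx0] with y hy
      rw [Real.log_sqrt hy.le, mul_pow, Real.sq_sqrt hy.le]; ring
    refine HasDerivAt.congr_of_eventuallyEq ?_ e
    have hl := Real.hasDerivAt_log hx0.ne'
    have := (((hasDerivAt_id x).fun_mul (hl.fun_pow 2)).sub
      (((hasDerivAt_id x).fun_mul hl).const_mul (2 * (k + 1)))).add
      ((hasDerivAt_id x).const_mul (2 + 2 * k + k ^ 2))
    refine this.congr_deriv ?_
    simp only [id_eq]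
    field_simp
    push_cast
    ring

/-- The excess of the family tends to zero. -/
lemma famExcess_le {t : ℝ} (ht : 1 ≤ t) : famExcess t ≤ 4 / (1 + t) := by
  have ht0 : 0 ≤ t := by linarith
  obtain ⟨k, hk⟩ : ∃ k, k = Real.log t - 1 := ⟨_, rfl⟩
  have hn := nice_fam ht0
  have e : ∫ x in Ioi (0 : ℝ), fam t x * (Real.log x - k) ^ 2 =
      famExcess t + famMean t ^ 2 + 1 - 2 * k * famMean t + k ^ 2 := by
    rw [famExcess, famMean]
    simp only [sub_sq, mul_add, mul_sub, ← mul_assoc]
    rw [integral_add, integral_sub,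
      show (fun x => fam t x * 2 * Real.log x * k) = fun x => 2 * k * (fam t x * Real.log x) by
        funext x; ring, integral_const_mul, integral_mul_const, fam_mass ht0]
    · ring
    · exact hn.logSq
    · exact IntegrableOn.congr_fun ((hn.log).const_mul (2 * k)) (fun x _ => by ring) measurableSet_Ioi
    · exact hn.logSq.sub
        (IntegrableOn.congr_fun ((hn.log).const_mul (2 * k)) (fun x _ => by ring) measurableSet_Ioi)
    · exact hn.one.mul_const _
  have hint : IntegrableOn (fun x => fam t x * (Real.log x - k) ^ 2) (Ioi 0) :=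
    hn.integrable ((Real.measurable_log.sub_const k).pow_const 2) (K := 128 + 2 * k ^ 2)
      fun x hx => by
        rw [abs_of_nonneg (sq_nonneg _)]
        nlinarith [log_sq_le_dom hx, one_le_dom hx, sq_nonneg (Real.log x + k), sq_nonneg k]
  have htail : Real.exp t * ∫ x in Ioi t, Real.exp (-x) * (Real.log x - k) ^ 2 ≤ 5 := by
    have hg : ∀ x ∈ Ici t, HasDerivAt (fun x => -(Real.exp (-x) * ((x / t) ^ 2 + 2 * x / t ^ 2 +
        2 / t ^ 2))) (Real.exp (-x) * (x / t) ^ 2) x := fun x _ => by
      have h1 := (hasDerivAt_neg x).exp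
      have h2 := ((((hasDerivAt_id x).div_const t).fun_pow 2).fun_add
        (((hasDerivAt_id x).const_mul 2).div_const (t ^ 2))).add_const (2 / t ^ 2)
      refine (h1.fun_mul h2).neg.congr_deriv ?_
      simp only [id_eq]
      push_cast
      field_simp
      ring
    have hlim : Tendsto (fun x => -(Real.exp (-x) * ((x / t) ^ 2 + 2 * x / t ^ 2 + 2 / t ^ 2)))
        atTop (𝓝 0) := by
      have h2 := Real.tendsto_pow_mul_exp_neg_atTop_nhds_zero 2
      have h1 := Real.tendsto_pow_mul_exp_neg_atTop_nhds_zero 1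
      have h0 := Real.tendsto_pow_mul_exp_neg_atTop_nhds_zero 0
      have := (((h2.const_mul (1 / t ^ 2)).add (h1.const_mul (2 / t ^ 2))).add
        (h0.const_mul (2 / t ^ 2))).neg
      simp only [mul_zero, add_zero, neg_zero] at this
      refine this.congr fun x => ?_
      ring
    have hint2 := integrableOn_Ioi_deriv_of_nonneg' hg (fun x _ => by positivity) hlim
    have hval := integral_Ioi_of_hasDerivAt_of_nonneg' hg (fun x _ => by positivity) hlim
    have hle : ∫ x in Ioi t, Real.exp (-x) * (Real.log x - k) ^ 2 ≤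
        ∫ x in Ioi t, Real.exp (-x) * (x / t) ^ 2 := by
      refine integral_mono_of_nonneg (Eventually.of_forall fun x => by positivity) hint2 ?_
      filter_upwards [ae_restrict_mem measurableSet_Ioi] with x (hx : t < x)
      refine mul_le_mul_of_nonneg_left (pow_le_pow_left₀ ?_ ?_ 2) (Real.exp_nonneg _)
      · rw [hk]; linarith [Real.log_le_log (by linarith : (0 : ℝ) < t) hx.le]
      · have := Real.log_le_sub_one_of_pos (show 0 < x / t from div_pos (by linarith) (by linarith))
        rw [Real.log_div (by linarith : x ≠ 0) (by linarith : t ≠ 0)] at this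
        rw [hk]; linarith
    refine (mul_le_mul_of_nonneg_left hle (Real.exp_nonneg _)).trans ?_
    rw [hval, sub_neg_eq_add, zero_add, ← mul_assoc, ← Real.exp_add, add_neg_cancel, Real.exp_zero,
      one_mul, div_self (by linarith : t ≠ 0)]
    have h1 : 2 * t / t ^ 2 ≤ 2 := by rw [div_le_iff₀ (by positivity)]; nlinarith
    have h2 : 2 / t ^ 2 ≤ 2 := by rw [div_le_iff₀ (by positivity)]; nlinarith
    linarith
  have hu := famU_split ht0 (famU_integrable ht0 hint)
  rw [fam_moment, hu, hk, log_shift_sq (by linarith)] at e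
  rw [hk] at htail
  have h1 : (t + Real.exp t * ∫ x in Ioi t, Real.exp (-x) * (Real.log x - (Real.log t - 1)) ^ 2) /
      (1 + t) ≤ (t + 5) / (1 + t) :=
    div_le_div_of_nonneg_right (by linarith) (by linarith)
  have h2 : (t + 5) / (1 + t) = 1 + 4 / (1 + t) := by field_simp; ring
  nlinarith [sq_nonneg (famMean t - (Real.log t - 1))]

end Vale.Agent.P254.Unc
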