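import Mathlib

/-!
# P254: smooth dependence on a parameter of an integral over a compact set
-/

open MeasureTheory Set Filter Metric
open scoped Topology

namespace Vale.Agent.P254.Unc

variable {P Y : Type*} [NormedAddCommGroup P] [NormedSpace ℝ P] [ProperSpace P]
  [NormedAddCommGroup Y] [NormedSpace ℝ Y] [MeasurableSpace Y] [BorelSpace Y]
  [SecondCountableTopology Y] {μ : Measure Y} [IsFiniteMeasureOnCompacts μ] {K : Set Y}
  {E : Type*} [NormedAddCommGroup E] [NormedSpace ℝ E]

/-- The derivative in the parameter. -/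
noncomputable def pderiv (g : P × Y → E) (p : P) (y : Y) : P →L[ℝ] E :=
  (fderiv ℝ g (p, y)).comp (ContinuousLinearMap.inl ℝ P Y)

theorem hasFDerivAt_slice {g : P × Y → E} {p : P} {y : Y} (h : DifferentiableAt ℝ g (p, y)) :
    HasFDerivAt (fun q => g (q, y)) (pderiv g p y) p := by
  have h1 : HasFDerivAt (fun q : P => (q, y)) (ContinuousLinearMap.inl ℝ P Y) p := by
    simpa [ContinuousLinearMap.inl] using (hasFDerivAt_id p).prodMk (hasFDerivAt_const y p)
  exact h.hasFDerivAt.comp p h1

theorem hasFDerivAt_setIntegral (hK : IsCompact K) {g : P × Y → E}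
    (hg : ∀ p, ∀ y ∈ K, ContDiffAt ℝ 1 g (p, y)) (p₀ : P) :
    HasFDerivAt (fun p => ∫ y in K, g (p, y) ∂μ) (∫ y in K, pderiv g p₀ y ∂μ) p₀ := by
  set S : Set (P × Y) := closedBall p₀ 1 ×ˢ K with hSdef
  have hS : IsCompact S := (isCompact_closedBall p₀ 1).prod hK
  have hgc : ∀ p, ContinuousOn (fun y => g (p, y)) K := fun p y hy =>
    ((hg p y hy).continuousAt.comp (f := fun z => (p, z)) (by fun_prop)).continuousWithinAt
  have hd : ContinuousOn (fun q : P × Y => pderiv g q.1 q.2) S := by
    intro q hq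
    have h : ContinuousAt (fderiv ℝ g) q :=
      ((hg q.1 q.2 hq.2).fderiv_right (m := 0) (by norm_num)).continuousAt
    exact (h.clm_comp continuousAt_const).continuousWithinAt
  obtain ⟨C, hC⟩ := hS.exists_bound_of_continuousOn hd
  have hKm : MeasurableSet K := hK.measurableSet
  haveI : IsFiniteMeasure (μ.restrict K) := isFiniteMeasure_restrict.2 hK.measure_lt_top.ne
  refine hasFDerivAt_integral_of_dominated_of_fderiv_le (s := closedBall p₀ 1)
    (F := fun p y => g (p, y)) (F' := fun p y => pderiv g p y) (bound := fun _ => C)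
    (closedBall_mem_nhds _ one_pos)
    (Eventually.of_forall fun p => (hgc p).aestronglyMeasurable hKm)
    ((hgc p₀).integrableOn_compact hK) ?_ ?_ (integrable_const _) ?_
  · refine ContinuousOn.aestronglyMeasurable ?_ hKm
    exact hd.comp (f := fun y => (p₀, y)) (by fun_prop)
      fun y hy => ⟨mem_closedBall_self zero_le_one, hy⟩
  · filter_upwards [ae_restrict_mem hKm] with y hy p hp
    exact hC (p, y) ⟨hp, hy⟩
  · filter_upwards [ae_restrict_mem hKm] with y hy p _
    exact hasFDerivAt_slice ((hg p y hy).differentiableAt one_ne_zero)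

theorem continuous_setIntegral (hK : IsCompact K) {g : P × Y → E}
    (hg : ∀ p, ∀ y ∈ K, ContinuousAt g (p, y)) :
    Continuous fun p => ∫ y in K, g (p, y) ∂μ := by
  refine continuous_iff_continuousAt.2 fun p₀ => ?_
  have hS : IsCompact (closedBall p₀ 1 ×ˢ K) := (isCompact_closedBall p₀ 1).prod hK
  obtain ⟨C, hC⟩ := hS.exists_bound_of_continuousOn
    (fun q hq => (hg q.1 q.2 hq.2).continuousWithinAt)
  have hKm : MeasurableSet K := hK.measurableSet
  haveI : IsFiniteMeasure (μ.restrict K) := isFiniteMeasure_restrict.2 hK.measure_lt_top.ne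
  refine continuousAt_of_dominated (bound := fun _ => C) (Eventually.of_forall fun p => ?_) ?_
    (integrable_const _) ?_
  · exact ContinuousOn.aestronglyMeasurable (fun y hy =>
      ((hg p y hy).comp (f := fun z => (p, z)) (by fun_prop)).continuousWithinAt) hKm
  · filter_upwards [closedBall_mem_nhds p₀ one_pos] with p hp
    filter_upwards [ae_restrict_mem hKm] with y hy
    exact hC (p, y) ⟨hp, hy⟩
  · filter_upwards [ae_restrict_mem hKm] with y hy
    exact (hg p₀ y hy).comp (f := fun q => (q, y)) (by fun_prop)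

theorem contDiff_one_setIntegral (hK : IsCompact K) {g : P × Y → E}
    (hg : ∀ p, ∀ y ∈ K, ContDiffAt ℝ 1 g (p, y)) :
    ContDiff ℝ 1 fun p => ∫ y in K, g (p, y) ∂μ := by
  rw [contDiff_one_iff_hasFDerivAt]
  refine ⟨fun p => ∫ y in K, pderiv g p y ∂μ, ?_, hasFDerivAt_setIntegral hK hg⟩
  refine continuous_setIntegral hK (g := fun q : P × Y => pderiv g q.1 q.2) fun p y hy => ?_
  exact (((hg p y hy).fderiv_right (m := 0) (by norm_num)).continuousAt).clm_comp continuousAt_const

theorem contDiff_two_setIntegral (hK : IsCompact K) {g : P × Y → ℝ}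
    (hg : ∀ p, ∀ y ∈ K, ContDiffAt ℝ 2 g (p, y)) :
    ContDiff ℝ 2 fun p => ∫ y in K, g (p, y) ∂μ := by
  rw [show (2 : WithTop ℕ∞) = ((1 : ℕ) : WithTop ℕ∞) + 1 from rfl, contDiff_succ_iff_hasFDerivAt]
  refine ⟨fun p => ∫ y in K, pderiv g p y ∂μ, ?_,
    hasFDerivAt_setIntegral hK fun p y hy => (hg p y hy).of_le one_le_two⟩
  refine contDiff_one_setIntegral hK (g := fun q : P × Y => pderiv g q.1 q.2) fun p y hy => ?_
  exact ((hg p y hy).fderiv_right (m := 1) (by norm_num)).clm_comp contDiffAt_const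

/-- The derivative in a real parameter. -/
theorem hasDerivAt_setIntegral (hK : IsCompact K) {g g' : ℝ × Y → ℝ}
    (hg : ∀ t, ∀ y ∈ K, ContDiffAt ℝ 1 g (t, y))
    (hg' : ∀ t, ∀ y ∈ K, HasDerivAt (fun s => g (s, y)) (g' (t, y)) t) (t : ℝ) :
    HasDerivAt (fun s => ∫ y in K, g (s, y) ∂μ) (∫ y in K, g' (t, y) ∂μ) t := by
  have h := (hasFDerivAt_setIntegral (μ := μ) hK hg t).hasDerivAt
  have hi : IntegrableOn (fun y => pderiv g t y) K μ := by
    refine ContinuousOn.integrableOn_compact hK fun y hy => ?_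
    have h1 : ContinuousAt (fderiv ℝ g) (t, y) :=
      ((hg t y hy).fderiv_right (m := 0) (by norm_num)).continuousAt
    exact ((h1.comp (f := fun z => (t, z)) (by fun_prop)).clm_comp
      continuousAt_const).continuousWithinAt
  rw [ContinuousLinearMap.integral_apply hi] at h
  refine h.congr_deriv (setIntegral_congr_fun hK.measurableSet fun y hy => ?_)
  exact (hasFDerivAt_slice ((hg t y hy).differentiableAt one_ne_zero)).hasDerivAt.unique (hg' t y hy)

end Vale.Agent.P254.Unc
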