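import Vale.Agent.P254.Unc.Step
import Vale.Agent.P254.Unc.Smooth

/-!
# P254: the curvature lemma

For `W` jointly convex, nondecreasing in the integration variables, the function
`t ↦ -ln ∫ exp (-W (p + t θ, x) + t a·ln x) + t² |a|²` over a box in the open orthant has
nonnegative second derivative at `0`.
-/

open MeasureTheory Set
open scoped Topology

namespace Vale.Agent.P254.Unc

/-- The box `[δ, L]ⁿ`. -/
def box (δ L : ℝ) (n : ℕ) : Set (Fin n → ℝ) := Set.pi univ fun _ => Icc δ L

/-- A logarithmic linear form. -/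
noncomputable def logForm {n : ℕ} (a x : Fin n → ℝ) : ℝ := ∑ i, a i * Real.log (x i)

/-- The tilted potential along a line of parameters. -/
noncomputable def tilt {P : Type*} [AddCommGroup P] [Module ℝ P] {n : ℕ} (δ L : ℝ)
    (W : P × (Fin n → ℝ) → ℝ) (p θ : P) (a : Fin n → ℝ) (t : ℝ) : ℝ :=
  -Real.log (∫ x in box δ L n, Real.exp (-W (p + t • θ, x) + t * logForm a x)) +
    t ^ 2 * ∑ i, a i ^ 2

variable {δ L : ℝ}

theorem isCompact_box (n : ℕ) : IsCompact (box δ L n) := isCompact_univ_pi fun _ => isCompact_Icc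

theorem setIntegral_box_pos (hL : δ < L) {n : ℕ} {f : (Fin n → ℝ) → ℝ}
    (hf : ContinuousOn f (box δ L n)) (hpos : ∀ x ∈ box δ L n, 0 < f x) :
    0 < ∫ x in box δ L n, f x := by
  rw [setIntegral_pos_iff_support_of_nonneg_ae ?_ (hf.integrableOn_compact (isCompact_box n))]
  · refine lt_of_lt_of_le ?_ (measure_mono fun x hx => ⟨(hpos x hx).ne', hx⟩)
    rw [box, volume_pi_pi]
    exact CanonicallyOrderedAdd.prod_pos.2 fun i _ => by simp [hL]
  · filter_upwards [ae_restrict_mem (isCompact_box n).measurableSet] with x hx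
    exact (hpos x hx).le

theorem setIntegral_box_succ {n : ℕ} {f : (Fin (n + 1) → ℝ) → ℝ}
    (hf : ContinuousOn f (box δ L (n + 1))) :
    ∫ x in box δ L (n + 1), f x = ∫ x₀ in Icc δ L, ∫ y in box δ L n, f (Fin.cons x₀ y) := by
  have hmp := (volume_preserving_piFinSuccAbove (fun _ : Fin (n + 1) => ℝ) 0).symm
  have he : ∀ z : ℝ × (Fin n → ℝ),
      (MeasurableEquiv.piFinSuccAbove (fun _ : Fin (n + 1) => ℝ) 0).symm z = Fin.cons z.1 z.2 :=
    fun z => by simp [MeasurableEquiv.piFinSuccAbove, Fin.insertNthEquiv, Fin.insertNth_zero']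
  have hpre : (MeasurableEquiv.piFinSuccAbove (fun _ : Fin (n + 1) => ℝ) 0).symm ⁻¹'
      box δ L (n + 1) = Icc δ L ×ˢ box δ L n := by
    ext z
    simp only [mem_preimage, he, box, mem_univ_pi, mem_prod, Fin.forall_fin_succ, Fin.cons_zero,
      Fin.cons_succ]
  rw [← hmp.setIntegral_preimage_emb (MeasurableEquiv.measurableEmbedding _), hpre]
  simp only [he]
  refine setIntegral_prod (fun z : ℝ × (Fin n → ℝ) => f (Fin.cons z.1 z.2)) ?_
  rw [← Measure.volume_eq_prod]
  refine ContinuousOn.integrableOn_compact (isCompact_Icc.prod (isCompact_box n))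
    (hf.comp (Continuous.continuousOn (by fun_prop)) fun z hz => ?_)
  simp only [box, mem_univ_pi, Fin.forall_fin_succ, Fin.cons_zero, Fin.cons_succ]
  exact ⟨hz.1, fun i => hz.2 i trivial⟩

variable {P : Type*} [NormedAddCommGroup P] [NormedSpace ℝ P]

theorem contDiff_cons {E : Type*} [NormedAddCommGroup E] [NormedSpace ℝ E] {n : ℕ} {f : E → ℝ}
    {g : E → Fin n → ℝ} (hf : ContDiff ℝ 2 f) (hg : ContDiff ℝ 2 g) :
    ContDiff ℝ 2 fun q => (Fin.cons (f q) (g q) : Fin (n + 1) → ℝ) := by
  refine contDiff_pi.2 fun i => ?_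
  refine Fin.cases ?_ (fun j => ?_) i
  · simpa using hf
  · simpa using contDiff_pi.1 hg j

theorem contDiffAt_weight {n : ℕ} (hδ : 0 < δ) {W : P × (Fin n → ℝ) → ℝ} (hW : ContDiff ℝ 2 W)
    (p θ : P) (a : Fin n → ℝ) (t : ℝ) {x : Fin n → ℝ} (hx : x ∈ box δ L n) :
    ContDiffAt ℝ 2 (fun q : ℝ × (Fin n → ℝ) =>
      Real.exp (-W (p + q.1 • θ, q.2) + q.1 * logForm a q.2)) (t, x) := by
  refine ContDiffAt.exp (ContDiffAt.add ?_ (contDiffAt_fst.mul ?_))
  · exact (hW.comp ((contDiff_const.add (contDiff_fst.smul contDiff_const)).prodMk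
      contDiff_snd)).contDiffAt.neg
  · exact ContDiffAt.sum fun i _ => contDiffAt_const.mul
      (((contDiff_apply ℝ ℝ i).comp contDiff_snd).contDiffAt.log
        (hδ.trans_le (hx i trivial).1).ne')

/-- The marginal potential along a line, as a function of the parameter and the kept variable. -/
noncomputable def marg {n : ℕ} (δ L : ℝ) (W : P × (Fin (n + 1) → ℝ) → ℝ) (p θ : P)
    (a : Fin (n + 1) → ℝ) (q : ℝ × ℝ) : ℝ :=
  -Real.log (∫ y in box δ L n,
      Real.exp (-W (p + q.1 • θ, Fin.cons q.2 y) + q.1 * logForm (Fin.tail a) y)) +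
    q.1 ^ 2 * ∑ i, Fin.tail a i ^ 2

theorem contDiff_marg (hδ : 0 < δ) (hL : δ < L) {n : ℕ} {W : P × (Fin (n + 1) → ℝ) → ℝ}
    (hW : ContDiff ℝ 2 W) (p θ : P) (a : Fin (n + 1) → ℝ) :
    ContDiff ℝ 2 (marg δ L W p θ a) := by
  have hcons : ContDiff ℝ 2 (fun q : (ℝ × ℝ) × (Fin n → ℝ) =>
      (Fin.cons q.1.2 q.2 : Fin (n + 1) → ℝ)) := by
    exact contDiff_cons (contDiff_snd.comp contDiff_fst) contDiff_snd
  have hg : ∀ q : ℝ × ℝ, ∀ y ∈ box δ L n, ContDiffAt ℝ 2
      (fun q : (ℝ × ℝ) × (Fin n → ℝ) => Real.exp (-W (p + q.1.1 • θ, Fin.cons q.1.2 q.2) +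
        q.1.1 * logForm (Fin.tail a) q.2)) (q, y) := fun q y hy => by
    refine ContDiffAt.exp (ContDiffAt.add ?_ ((contDiff_fst.comp contDiff_fst).contDiffAt.mul ?_))
    · exact (hW.comp ((contDiff_const.add ((contDiff_fst.comp contDiff_fst).smul
        contDiff_const)).prodMk hcons)).contDiffAt.neg
    · exact ContDiffAt.sum fun i _ => contDiffAt_const.mul
        (((contDiff_apply ℝ ℝ i).comp contDiff_snd).contDiffAt.log
          (hδ.trans_le (hy i trivial).1).ne')
  refine ContDiff.add (ContDiff.neg ?_) ((contDiff_fst.pow 2).mul contDiff_const)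
  refine (contDiff_two_setIntegral (isCompact_box n) hg).log fun q => ?_
  exact (setIntegral_box_pos hL (fun y hy => ((hg q y hy).continuousAt.comp
    (f := fun z => (q, z)) (by fun_prop)).continuousWithinAt) fun _ _ => Real.exp_pos _).ne'

theorem monotoneOn_marg (hδ : 0 < δ) (hL : δ < L) {n : ℕ} {W : P × (Fin (n + 1) → ℝ) → ℝ}
    (hW : ContDiff ℝ 2 W) (p θ : P) (a : Fin (n + 1) → ℝ)
    (hmono : MonotoneOn (fun x => W (p, x)) (box δ L (n + 1))) :
    MonotoneOn (fun x => marg δ L W p θ a (0, x)) (Icc δ L) := by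
  intro x hx y hy hxy
  simp only [marg, zero_smul, add_zero, zero_mul, ne_eq, OfNat.ofNat_ne_zero, not_false_eq_true,
    zero_pow]
  have hi : ∀ z : ℝ, IntegrableOn (fun u => Real.exp (-W (p, Fin.cons z u))) (box δ L n) := fun z =>
    (Continuous.continuousOn (by have := hW.continuous; fun_prop)).integrableOn_compact
      (isCompact_box n)
  refine neg_le_neg (Real.log_le_log (setIntegral_box_pos hL
    (Continuous.continuousOn (by have := hW.continuous; fun_prop)) fun _ _ => Real.exp_pos _)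
    (setIntegral_mono_on (hi y) (hi x) (isCompact_box n).measurableSet fun u hu => ?_))
  refine Real.exp_le_exp.2 (neg_le_neg (hmono ?_ ?_ ?_))
  · exact fun i _ => Fin.cases (by simpa using hx) (fun j => by simpa using hu j trivial) i
  · exact fun i _ => Fin.cases (by simpa using hy) (fun j => by simpa using hu j trivial) i
  · exact fun i => Fin.cases (by simpa using hxy) (fun j => by simp) i

theorem tilt_zero_dim (W : P × (Fin 0 → ℝ) → ℝ) (p θ : P) (a : Fin 0 → ℝ) (t : ℝ) :
    tilt δ L W p θ a t = W (p + t • θ, 0) := by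
  have hbox : box δ L 0 = univ := by ext x; simp [box]
  have hv : (volume : Measure (Fin 0 → ℝ)).real univ = 1 := by
    rw [Measure.real, ← Set.pi_univ (univ : Set (Fin 0)), volume_pi_pi]
    simp
  simp [tilt, hbox, integral_unique, hv, logForm]
  exact congrArg W (Prod.ext rfl (Subsingleton.elim _ _))

theorem tilt_succ (hδ : 0 < δ) (hL : δ < L) {n : ℕ} {W : P × (Fin (n + 1) → ℝ) → ℝ}
    (hW : ContDiff ℝ 2 W) (p θ : P) (a : Fin (n + 1) → ℝ) (t : ℝ) :
    tilt δ L W p θ a t = -Real.log (∫ x in Icc δ L,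
      Real.exp (-marg δ L W p θ a (t, x) + t * (a 0 * Real.log x))) + t ^ 2 * a 0 ^ 2 := by
  have hc : ContinuousOn (fun x : Fin (n + 1) → ℝ =>
      Real.exp (-W (p + t • θ, x) + t * logForm a x)) (box δ L (n + 1)) := fun x hx =>
    ((contDiffAt_weight hδ hW p θ a t hx).continuousAt.comp
      (f := fun z => (t, z)) (by fun_prop)).continuousWithinAt
  have key : ∀ x, Real.exp (-marg δ L W p θ a (t, x) + t * (a 0 * Real.log x)) =
      Real.exp (-(t ^ 2 * ∑ i, Fin.tail a i ^ 2)) * ∫ y in box δ L n,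
        Real.exp (-W (p + t • θ, Fin.cons x y) + t * logForm a (Fin.cons x y)) := fun x => by
    have hpos : 0 < ∫ y in box δ L n,
        Real.exp (-W (p + t • θ, Fin.cons x y) + t * logForm (Fin.tail a) y) := by
      refine setIntegral_box_pos hL (fun y hy => ?_) fun _ _ => Real.exp_pos _
      have h := (contDiffAt_weight (P := P × ℝ) (W := fun z => W (z.1.1, Fin.cons z.1.2 z.2))
        hδ (hW.comp ((contDiff_fst.comp contDiff_fst).prodMk
          (contDiff_cons (contDiff_snd.comp contDiff_fst) contDiff_snd)))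
        (p, x) (θ, 0) (Fin.tail a) t hy).continuousAt.comp (f := fun z => (t, z)) (by fun_prop)
      simpa [Function.comp_def] using h.continuousWithinAt
    simp only [marg]
    rw [show ∀ u v w : ℝ, -(-u + v) + w = u + -v + w from fun u v w => by ring,
      Real.exp_add, Real.exp_add, Real.exp_log hpos, mul_comm (∫ _ in _, _) _, mul_assoc,
      ← integral_mul_const]
    refine congrArg _ (setIntegral_congr_fun (isCompact_box n).measurableSet fun y _ => ?_)
    rw [← Real.exp_add]
    simp only [logForm, Fin.sum_univ_succ, Fin.cons_zero, Fin.cons_succ, Fin.tail]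
    ring_nf
  simp only [key, integral_const_mul, ← setIntegral_box_succ hc, tilt]
  rw [Real.log_mul (Real.exp_pos _).ne'
    (setIntegral_box_pos hL hc fun _ _ => Real.exp_pos _).ne', Real.log_exp]
  simp only [Fin.sum_univ_succ, Fin.tail]
  ring

/-- The second derivative of a convex `C²` function of a real variable is nonnegative. -/
theorem deriv_deriv_nonneg {g : ℝ → ℝ} (hg : ContDiff ℝ 2 g) (hc : ConvexOn ℝ univ g) (t : ℝ) :
    0 ≤ deriv (deriv g) t :=
  (monotoneOn_univ.1 (hc.monotoneOn_deriv fun x _ =>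
    (hg.differentiable two_ne_zero) x)).deriv_nonneg

/-- The derivative along a line of a `C¹` function. -/
theorem hasDerivAt_line {F : Type*} [NormedAddCommGroup F] [NormedSpace ℝ F]
    {G : Type*} [NormedAddCommGroup G] [NormedSpace ℝ G]
    {f : F → G} (hf : ContDiff ℝ 1 f) (z w : F) (t : ℝ) :
    HasDerivAt (fun s : ℝ => f (z + s • w)) (fderiv ℝ f (z + t • w) w) t := by
  have h1 : HasDerivAt (fun s : ℝ => z + s • w) w t := by
    simpa using ((hasDerivAt_id t).smul_const w).const_add z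
  exact ((hf.differentiable one_ne_zero) _).hasFDerivAt.comp_hasDerivAt t h1

/-- The curvature lemma. -/
theorem curvature (hδ : 0 < δ) (hL : δ < L) :
    ∀ (n : ℕ) (P : Type) [NormedAddCommGroup P] [NormedSpace ℝ P]
      (W : P × (Fin n → ℝ) → ℝ), ContDiff ℝ 2 W → ConvexOn ℝ univ W →
      ∀ (p θ : P) (a : Fin n → ℝ), MonotoneOn (fun x => W (p, x)) (box δ L n) →
        0 ≤ deriv (deriv (tilt δ L W p θ a)) 0 := by
  intro n
  induction n with
  | zero =>
    intro P _ _ W hW hconv p θ a _
    rw [show tilt δ L W p θ a = fun t => W (p + t • θ, 0) from funext (tilt_zero_dim W p θ a)]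
    refine deriv_deriv_nonneg (hW.comp
      ((contDiff_const.add (contDiff_id.smul contDiff_const)).prodMk contDiff_const)) ?_ 0
    have h := (hconv.translate_right (p, (0 : Fin 0 → ℝ))).comp_linearMap
      ((LinearMap.toSpanSingleton ℝ (P × (Fin 0 → ℝ))) (θ, 0))
    simpa [Function.comp_def, LinearMap.toSpanSingleton_apply] using h
  | succ n ih =>
    intro P _ _ W hW hconv p θ a hmono
    set U := marg δ L W p θ a with hUdef
    have hU : ContDiff ℝ 2 U := contDiff_marg hδ hL hW p θ a
    have hUc : ContDiff ℝ 1 U := hU.of_le one_le_two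
    have hU1 : ContDiff ℝ 1 (fderiv ℝ U) := hU.fderiv_right (by norm_num)
    set D2 : ℝ × ℝ → ℝ × ℝ → ℝ × ℝ → ℝ := fun q u w => fderiv ℝ (fderiv ℝ U) q u w
    have hD2c : ∀ u w, Continuous fun q => D2 q u w := fun u w =>
      ((hU1.continuous_fderiv one_ne_zero).clm_apply continuous_const).clm_apply continuous_const
    have dT : ∀ q w u : ℝ × ℝ, ∀ s : ℝ, HasDerivAt (fun s : ℝ => fderiv ℝ U (q + s • w) u)
        (D2 (q + s • w) w u) s := fun q w u s =>
      (ContinuousLinearMap.apply ℝ ℝ u).hasFDerivAt.comp_hasDerivAt s (hasDerivAt_line hU1 q w s)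
    have hsymm : ∀ q u w, D2 q u w = D2 q w u := fun q u w =>
      (hU.contDiffAt.isSymmSndFDerivAt (by simp)).eq u w
    -- the induction hypothesis: the marginal is convex at parameter zero
    have hQ : ∀ x ∈ Icc δ L, ∀ s : ℝ, 0 ≤ D2 (0, x) (1, s) (1, s) := by
      intro x hx s
      let ι : (P × ℝ) × (Fin n → ℝ) →ₗ[ℝ] P × (Fin (n + 1) → ℝ) :=
        { toFun := fun z => (z.1.1, Fin.cons z.1.2 z.2)
          map_add' := fun z w => by
            refine Prod.ext rfl (funext fun i => ?_)
            refine Fin.cases ?_ (fun j => ?_) i <;> simp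
          map_smul' := fun c z => by
            refine Prod.ext rfl (funext fun i => ?_)
            refine Fin.cases ?_ (fun j => ?_) i <;> simp }
      have hι : ContDiff ℝ 2 ι :=
        (contDiff_fst.comp contDiff_fst).prodMk
          (contDiff_cons (contDiff_snd.comp contDiff_fst) contDiff_snd)
      have hconv' : ConvexOn ℝ univ (W ∘ ι) := by simpa using hconv.comp_linearMap ι
      have hmono' : MonotoneOn (fun y => (W ∘ ι) ((p, x), y)) (box δ L n) := by
        intro y hy z hz hyz
        refine hmono ?_ ?_ ?_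
        · exact fun i _ => Fin.cases (by simpa using hx) (fun j => by simpa using hy j trivial) i
        · exact fun i _ => Fin.cases (by simpa using hx) (fun j => by simpa using hz j trivial) i
        · exact fun i => Fin.cases (by simp) (fun j => by simpa using hyz j) i
      have h := ih (P × ℝ) (W ∘ ι) (hW.comp hι) hconv' (p, x) (θ, s) (Fin.tail a) hmono'
      have e : tilt δ L (W ∘ ι) (p, x) (θ, s) (Fin.tail a) =
          fun τ : ℝ => U ((0, x) + τ • ((1, s) : ℝ × ℝ)) := by
        funext τ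
        simp [tilt, hUdef, marg, ι, smul_eq_mul]
      have e2 : deriv (fun τ : ℝ => U ((0, x) + τ • ((1, s) : ℝ × ℝ))) =
          fun τ => fderiv ℝ U ((0, x) + τ • ((1, s) : ℝ × ℝ)) (1, s) :=
        funext fun τ => (hasDerivAt_line hUc _ _ τ).deriv
      rw [e, e2, (dT (0, x) (1, s) (1, s) 0).deriv] at h
      simpa using h
    -- derivatives in the parameter
    set ℓ : ℝ → ℝ := fun x => a 0 * Real.log x with hℓ
    have hℓd : ∀ q : ℝ × ℝ, q.2 ∈ Icc δ L → ContDiffAt ℝ 1 (fun z : ℝ × ℝ => ℓ z.2) q :=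
      fun q hq => contDiffAt_const.mul (contDiffAt_snd.log (hδ.trans_le hq.1).ne')
    set g0 : ℝ × ℝ → ℝ := fun q => Real.exp (-U q + q.1 * ℓ q.2) with hg0
    set h1 : ℝ × ℝ → ℝ := fun q => -fderiv ℝ U q (1, 0) + ℓ q.2 with hh1
    set g1 : ℝ × ℝ → ℝ := fun q => g0 q * h1 q with hg1
    set g2 : ℝ × ℝ → ℝ := fun q => g0 q * (h1 q ^ 2 - D2 q (1, 0) (1, 0)) with hg2
    have hg0c : ∀ t, ∀ x ∈ Icc δ L, ContDiffAt ℝ 1 g0 (t, x) := fun t x hx =>
      (hUc.contDiffAt.neg.add (contDiffAt_fst.mul (hℓd (t, x) hx))).exp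
    have hh1c : ∀ t, ∀ x ∈ Icc δ L, ContDiffAt ℝ 1 h1 (t, x) := fun t x hx =>
      ((hU1.clm_apply contDiff_const).contDiffAt.neg).add (hℓd (t, x) hx)
    have hg1c : ∀ t, ∀ x ∈ Icc δ L, ContDiffAt ℝ 1 g1 (t, x) := fun t x hx =>
      (hg0c t x hx).mul (hh1c t x hx)
    have eline : ∀ t x : ℝ, ((0, x) : ℝ × ℝ) + t • (1, 0) = (t, x) := fun t x => by simp
    have d0 : ∀ t, ∀ x ∈ Icc δ L, HasDerivAt (fun s => g0 (s, x)) (g1 (t, x)) t := fun t x _ => by
      have h := hasDerivAt_line hUc (0, x) (1, 0) t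
      simp only [eline] at h
      refine ((h.fun_neg.fun_add ((hasDerivAt_id' t).mul_const (ℓ x))).exp).congr_deriv ?_
      simp only [hg1, hg0, hh1]
      ring
    have d1 : ∀ t, ∀ x ∈ Icc δ L, HasDerivAt (fun s => g1 (s, x)) (g2 (t, x)) t := fun t x hx => by
      have h := dT (0, x) (1, 0) (1, 0) t
      simp only [eline] at h
      refine ((d0 t x hx).fun_mul (h.fun_neg.add_const (ℓ x))).congr_deriv ?_
      simp only [hg2, hg1, hh1]
      ring
    set D : ℝ → ℝ := fun t => ∫ x in Icc δ L, g0 (t, x) with hD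
    set D' : ℝ → ℝ := fun t => ∫ x in Icc δ L, g1 (t, x) with hD'
    have hDd : ∀ t, HasDerivAt D (D' t) t := hasDerivAt_setIntegral isCompact_Icc hg0c d0
    have hD'd : ∀ t, HasDerivAt D' (∫ x in Icc δ L, g2 (t, x)) t :=
      hasDerivAt_setIntegral isCompact_Icc hg1c d1
    have hicc : ∀ f : ℝ → ℝ, ∫ x in Icc δ L, f x = ∫ x in δ..L, f x := fun f => by
      rw [intervalIntegral.integral_of_le hL.le, integral_Icc_eq_integral_Ioc]
    have hDpos : ∀ t, 0 < D t := fun t => by
      rw [hD]; simp only [hicc]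
      refine intervalIntegral.intervalIntegral_pos_of_pos_on ?_ (fun x _ => Real.exp_pos _) hL
      exact ContinuousOn.intervalIntegrable_of_Icc hL.le fun x hx =>
        ((hg0c t x hx).continuousAt.comp (f := fun z => (t, z)) (by fun_prop)).continuousWithinAt
    have htilt : tilt δ L W p θ a = fun t => -Real.log (D t) + t ^ 2 * a 0 ^ 2 :=
      funext fun t => by rw [tilt_succ hδ hL hW]
    have hF1 : deriv (tilt δ L W p θ a) = fun t => -(D' t / D t) + 2 * t * a 0 ^ 2 := by
      funext t
      rw [htilt]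
      exact (((hDd t).log (hDpos t).ne').fun_neg.fun_add
        (((hasDerivAt_id' t).fun_pow 2).mul_const (a 0 ^ 2))).deriv.trans (by simp)
    rw [hF1, (((hD'd 0).fun_div (hDd 0) (hDpos 0).ne').fun_neg.fun_add
      (((hasDerivAt_id' (0 : ℝ)).const_mul 2).mul_const (a 0 ^ 2))).deriv]
    -- the one-dimensional step at parameter zero
    set c := D 0 with hc
    have hc0 : 0 < c := hDpos 0
    set f : ℝ → ℝ := fun x => fderiv ℝ U (0, x) (1, 0) - ℓ x with hf
    have evert : ∀ x y : ℝ, ((0, x) : ℝ × ℝ) + y • (0, 1) = (0, x + y) := fun x y => by simp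
    have dX : ∀ (u : ℝ × ℝ) (x : ℝ), HasDerivAt (fun z => fderiv ℝ U (0, z) u)
        (D2 (0, x) (0, 1) u) x := fun u x => by
      have h := dT (0, 0) (0, 1) u x
      simpa only [evert, zero_add] using h
    have dU : ∀ x, HasDerivAt (fun z => U (0, z) + Real.log c) (fderiv ℝ U (0, x) (0, 1)) x :=
      fun x => by
        have h := (hasDerivAt_line hUc (0, 0) (0, 1) x).add_const (Real.log c)
        simpa only [evert, zero_add] using h
    have cts : ∀ u w, ContinuousOn (fun x => D2 (0, x) u w) (Icc δ L) := fun u w =>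
      ((hD2c u w).comp (by fun_prop)).continuousOn
    have hfd : ∀ x ∈ Icc δ L, HasDerivAt f (D2 (0, x) (0, 1) (1, 0) - a 0 / x) x := fun x hx => by
      refine ((dX (1, 0) x).fun_sub
        ((Real.hasDerivAt_log (hδ.trans_le hx.1).ne').const_mul (a 0))).congr_deriv ?_
      ring
    have hfc : ContinuousOn f (Icc δ L) := fun x hx => (hfd x hx).continuousAt.continuousWithinAt
    have hUm : ∀ x ∈ Icc δ L, 0 ≤ fderiv ℝ U (0, x) (0, 1) := fun x hx => by
      have hm : MonotoneOn (fun z => U (0, z) + Real.log c) (Icc δ L) :=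
        (monotoneOn_marg hδ hL hW p θ a hmono).add_const _
      rw [← (dU x).hasDerivWithinAt.derivWithin (uniqueDiffOn_Icc hL x hx)]
      exact hm.derivWithin_nonneg
    have hp : ∀ x, Real.exp (-(U (0, x) + Real.log c)) = g0 (0, x) / c := fun x => by
      rw [neg_add, Real.exp_add, Real.exp_neg (Real.log c), Real.exp_log hc0]
      simp [hg0, div_eq_mul_inv]
    have hnorm : ∫ x in δ..L, Real.exp (-(U (0, x) + Real.log c)) = 1 := by
      simp only [hp]
      rw [intervalIntegral.integral_div, ← hicc]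
      exact div_self hc0.ne'
    have hm : ∫ x in δ..L, Real.exp (-(U (0, x) + Real.log c)) * f x = -(D' 0 / c) := by
      simp only [hD', hicc]
      rw [← intervalIntegral.integral_div, ← intervalIntegral.integral_neg]
      refine intervalIntegral.integral_congr fun x _ => ?_
      simp only [hp, hf, hg1, hh1]
      ring
    obtain ⟨v, hv, hstep⟩ := variance_step hδ hL (U'' := fun x => D2 (0, x) (0, 1) (0, 1))
      (fun x _ => dU x) (fun x _ => dX (0, 1) x) (cts _ _) hfd
      ((cts _ _).sub (continuousOn_const.div continuousOn_id fun x hx => (hδ.trans_le hx.1).ne'))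
      hUm hnorm hm
    have hstep := hstep (-a 0)
    simp only [hp] at hstep
    have hcI : ∀ {u : ℝ → ℝ}, ContinuousOn u (Icc δ L) → IntervalIntegrable u volume δ L :=
      fun hu => hu.intervalIntegrable_of_Icc hL.le
    have hgc : ContinuousOn (fun x => g0 (0, x) / c) (Icc δ L) := fun x hx =>
      (((hg0c 0 x hx).continuousAt.comp (f := fun z : ℝ => ((0 : ℝ), z))
        (by fun_prop)).div_const c).continuousWithinAt
    have hb : (∫ x in δ..L, g0 (0, x) / c *
        (2 * (D2 (0, x) (0, 1) (1, 0) - a 0 / x - -a 0 / x) * v x -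
          D2 (0, x) (0, 1) (0, 1) * v x ^ 2)) ≤
        ∫ x in δ..L, g0 (0, x) / c * D2 (0, x) (1, 0) (1, 0) := by
      refine intervalIntegral.integral_mono_on hL.le ?_ (hcI (hgc.mul (cts _ _))) fun x hx => ?_
      · refine hcI (hgc.mul ?_)
        exact ((continuousOn_const.mul (((cts _ _).sub (continuousOn_const.div continuousOn_id
          fun x hx => (hδ.trans_le hx.1).ne')).sub (continuousOn_const.div continuousOn_id
          fun x hx => (hδ.trans_le hx.1).ne'))).mul hv).sub ((cts _ _).mul (hv.pow 2))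
      · refine mul_le_mul_of_nonneg_left ?_ (div_nonneg (Real.exp_pos _).le hc0.le)
        have h := hQ x hx (-v x)
        have e : ((1, -v x) : ℝ × ℝ) = (1, 0) + (-v x) • ((0, 1) : ℝ × ℝ) := by simp
        rw [e] at h
        simp only [D2, map_add, map_smul, add_apply, smul_apply, smul_eq_mul] at h
        have hs := hsymm (0, x) (1, 0) (0, 1)
        simp only [D2] at hs ⊢
        rw [hs] at h
        ring_nf at h ⊢
        linarith
    have i1 : IntervalIntegrable (fun x => g0 (0, x) / c * D2 (0, x) (1, 0) (1, 0)) volume δ L :=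
      hcI (hgc.mul (cts _ _))
    have i2 : IntervalIntegrable (fun x => g0 (0, x) / c * (f x - -(D' 0 / c)) ^ 2) volume δ L :=
      hcI (hgc.mul ((hfc.sub continuousOn_const).pow 2))
    have i3 : IntervalIntegrable (fun x => g0 (0, x) / c * (f x)) volume δ L :=
      hcI (hgc.mul hfc)
    have i4 : IntervalIntegrable (fun x => g0 (0, x) / c) volume δ L := hcI hgc
    have e2 : (∫ x in Icc δ L, g2 (0, x)) / c =
        (∫ x in δ..L, g0 (0, x) / c * (f x - -(D' 0 / c)) ^ 2) + (D' 0 / c) ^ 2 -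
          ∫ x in δ..L, g0 (0, x) / c * D2 (0, x) (1, 0) (1, 0) := by
      have e : ∀ x, g2 (0, x) / c = (g0 (0, x) / c * (f x - -(D' 0 / c)) ^ 2 -
          2 * (D' 0 / c) * (g0 (0, x) / c * f x) - (D' 0 / c) ^ 2 * (g0 (0, x) / c)) -
          g0 (0, x) / c * D2 (0, x) (1, 0) (1, 0) := fun x => by
        simp only [hg2, hh1, hf]
        ring
      simp only [hp] at hm hnorm
      rw [hicc, ← intervalIntegral.integral_div]
      simp only [e]
      rw [intervalIntegral.integral_sub ((i2.sub (i3.const_mul _)).sub (i4.const_mul _)) i1,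
        intervalIntegral.integral_sub (i2.sub (i3.const_mul _)) (i4.const_mul _),
        intervalIntegral.integral_sub i2 (i3.const_mul _),
        intervalIntegral.integral_const_mul, intervalIntegral.integral_const_mul, hm, hnorm]
      ring
    have e3 : ((∫ x in Icc δ L, g2 (0, x)) * c - D' 0 * D' 0) / c ^ 2 =
        (∫ x in Icc δ L, g2 (0, x)) / c - (D' 0 / c) ^ 2 := by field_simp
    rw [e3, e2]
    nlinarith

end Vale.Agent.P254.Unc
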