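import Vale.Agent.P254.Unc.Step

/-!
# P254: the gap inequality for one kept variable

`f = exp (-ψ)` is a probability density on `[a, b]`, `S` its tail, `Z = -ln S`, `r = S / f` and
`β = 1 - ψ' r`. Then `E [Z r² ψ''] = E β - E Z β²` and, by the Laguerre spectral gap,
`Var φ ≤ E [Z r² φ'²]`. So `∑ φᵢ'² ≤ 2 ψ''` gives `∑ Var φᵢ ≤ 2 (E β - E Z β²)`.
-/

open MeasureTheory Set intervalIntegral Real

namespace Vale.Agent.P254.Unc

/-- The tail of the density `exp (-ψ)` on an interval ending at `b`. -/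
noncomputable def rawTail (ψ : ℝ → ℝ) (b t : ℝ) : ℝ := ∫ x in t..b, exp (-ψ x)

/-- The exponential coordinate `-ln` of the tail. -/
noncomputable def expCoord (ψ : ℝ → ℝ) (b t : ℝ) : ℝ := -log (rawTail ψ b t)

/-- The speed `S / f` of the exponential coordinate. -/
noncomputable def speed (ψ : ℝ → ℝ) (b t : ℝ) : ℝ := rawTail ψ b t * exp (ψ t)

/-- The mean of `g` for the density `exp (-ψ)` on `[a, b]`. -/
noncomputable def dMean (ψ : ℝ → ℝ) (a b : ℝ) (g : ℝ → ℝ) : ℝ := ∫ x in a..b, exp (-ψ x) * g x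

/-- The variance of `g` for the density `exp (-ψ)` on `[a, b]`. -/
noncomputable def dVar (ψ : ℝ → ℝ) (a b : ℝ) (g : ℝ → ℝ) : ℝ :=
  dMean ψ a b (fun x => g x ^ 2) - dMean ψ a b g ^ 2

/-- The weight `f Z r²` of the Laguerre form. -/
noncomputable def rawWeight (ψ : ℝ → ℝ) (b t : ℝ) : ℝ := negMulLog (rawTail ψ b t) * speed ψ b t

variable {a b : ℝ} {ψ ψ' ψ'' : ℝ → ℝ}

theorem hasDerivAt_tail (hψ : ContinuousOn ψ (Icc a b)) {t : ℝ} (ht : t ∈ Ioo a b) :
    HasDerivAt (rawTail ψ b) (-exp (-ψ t)) t := by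
  have hf : ContinuousOn (fun x => exp (-ψ x)) (Icc a b) := hψ.neg.rexp
  exact integral_hasDerivAt_left ((hf.mono (Icc_subset_Icc ht.1.le le_rfl)).intervalIntegrable_of_Icc
    ht.2.le) ((hf.mono Ioo_subset_Icc_self).stronglyMeasurableAtFilter isOpen_Ioo t ht)
    (hf.continuousAt (Icc_mem_nhds ht.1 ht.2))

theorem continuousOn_tail (hab : a < b) (hψ : ContinuousOn ψ (Icc a b)) :
    ContinuousOn (rawTail ψ b) (Icc a b) := by
  have hf : ContinuousOn (fun x => exp (-ψ x)) (Icc a b) := hψ.neg.rexp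
  have h := continuousOn_primitive_interval_left (a := a) (b := b) (f := fun x => exp (-ψ x))
    (μ := volume) (hf.integrableOn_Icc.mono_set (uIcc_of_le hab.le).le)
  rw [uIcc_of_le hab.le] at h
  exact h

theorem tail_mem (hψ : ContinuousOn ψ (Icc a b)) (h1 : rawTail ψ b a = 1) {t : ℝ} (ht : t ∈ Icc a b) :
    0 ≤ rawTail ψ b t ∧ rawTail ψ b t ≤ 1 ∧ (t < b → 0 < rawTail ψ b t) := by
  have hf : ContinuousOn (fun x => exp (-ψ x)) (Icc a b) := hψ.neg.rexp
  refine ⟨intervalIntegral.integral_nonneg ht.2 fun x _ => (exp_pos _).le, ?_, fun htb => ?_⟩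
  · rw [← h1, rawTail, rawTail, ← integral_add_adjacent_intervals (a := a) (b := t) (c := b)
      ((hf.mono (Icc_subset_Icc le_rfl ht.2)).intervalIntegrable_of_Icc ht.1)
      ((hf.mono (Icc_subset_Icc ht.1 le_rfl)).intervalIntegrable_of_Icc ht.2)]
    linarith [intervalIntegral.integral_nonneg (μ := volume) ht.1 fun x _ => (exp_pos (-ψ x)).le]
  · exact intervalIntegral_pos_of_pos_on
      ((hf.mono (Icc_subset_Icc ht.1 le_rfl)).intervalIntegrable_of_Icc ht.2)
      (fun x _ => exp_pos _) htb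

theorem hasDerivAt_negMulLog_tail (hψ : ContinuousOn ψ (Icc a b)) (h1 : rawTail ψ b a = 1) {t : ℝ}
    (ht : t ∈ Ioo a b) :
    HasDerivAt (fun s => negMulLog (rawTail ψ b s))
      (exp (-ψ t) * (1 - expCoord ψ b t)) t := by
  refine ((hasDerivAt_negMulLog ((tail_mem hψ h1 (Ioo_subset_Icc_self ht)).2.2 ht.2).ne').comp t
    (hasDerivAt_tail hψ ht)).congr_deriv ?_
  rw [expCoord]; ring

/-- `f Z` is integrable, and has integral one. -/
theorem expCoord_integral (hab : a < b) (hψ : ContinuousOn ψ (Icc a b)) (h1 : rawTail ψ b a = 1) :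
    IntervalIntegrable (fun t => exp (-ψ t) * expCoord ψ b t) volume a b ∧
      ∫ t in a..b, exp (-ψ t) * expCoord ψ b t = 1 := by
  have hc : ContinuousOn (fun t => -(negMulLog (rawTail ψ b t) + rawTail ψ b t)) (Icc a b) :=
    ((continuous_negMulLog.comp_continuousOn (continuousOn_tail hab hψ)).add
      (continuousOn_tail hab hψ)).neg
  have hd : ∀ t ∈ Ioo a b, HasDerivAt (fun t => -(negMulLog (rawTail ψ b t) + rawTail ψ b t))
      (exp (-ψ t) * expCoord ψ b t) t := fun t ht => by
    refine (((hasDerivAt_negMulLog_tail hψ h1 ht).fun_add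
      (hasDerivAt_tail hψ ht)).fun_neg).congr_deriv ?_
    ring
  have hi : IntervalIntegrable (fun t => exp (-ψ t) * expCoord ψ b t) volume a b := by
    refine intervalIntegrable_deriv_of_nonneg (uIcc_of_le hab.le ▸ hc) (fun t ht => ?_) fun t ht => ?_
    all_goals rw [min_eq_left hab.le, max_eq_right hab.le] at ht
    · exact hd t ht
    · refine mul_nonneg (exp_pos _).le (neg_nonneg.2 ?_)
      have h := tail_mem hψ h1 (Ioo_subset_Icc_self ht)
      exact log_nonpos h.1 h.2.1
  refine ⟨hi, ?_⟩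
  rw [integral_eq_sub_of_hasDerivAt_of_le hab.le hc hd hi, h1]
  simp [rawTail]

/-- The integral of the weight against `g'`, as a covariance with the exponential coordinate. -/
theorem weight_integral_eq (hab : a < b) (hψ : ContinuousOn ψ (Icc a b)) (h1 : rawTail ψ b a = 1)
    {K K' : ℝ → ℝ} (hK : ContinuousOn K (Icc a b))
    (hKd : ∀ t ∈ Ioo a b, HasDerivAt K (K' t) t) (hK' : ContinuousOn K' (Icc a b)) :
    ∫ t in a..b, negMulLog (rawTail ψ b t) * K' t =
      (∫ t in a..b, exp (-ψ t) * expCoord ψ b t * K t) - ∫ t in a..b, exp (-ψ t) * K t := by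
  have hu := (uIcc_of_le hab.le).symm ▸ hK
  have i1 := (expCoord_integral hab hψ h1).1.mul_continuousOn hu
  have i2 : IntervalIntegrable (fun t => exp (-ψ t) * K t) volume a b :=
    (hψ.neg.rexp.mul hK).intervalIntegrable_of_Icc hab.le
  have hS : ContinuousOn (fun t => negMulLog (rawTail ψ b t)) (Icc a b) :=
    continuous_negMulLog.comp_continuousOn (continuousOn_tail hab hψ)
  have i3 : IntervalIntegrable (fun t => negMulLog (rawTail ψ b t) * K' t) volume a b :=
    (hS.mul hK').intervalIntegrable_of_Icc hab.le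
  have h := integral_eq_sub_of_hasDerivAt_of_le hab.le
    (f := fun t => negMulLog (rawTail ψ b t) * K t)
    (f' := fun t => (exp (-ψ t) * K t - exp (-ψ t) * expCoord ψ b t * K t) +
      negMulLog (rawTail ψ b t) * K' t) (hS.mul hK) (fun t ht => ?_) ((i2.sub i1).add i3)
  · rw [intervalIntegral.integral_add (i2.sub i1) i3, intervalIntegral.integral_sub i2 i1, h1] at h
    simp [rawTail] at h ⊢
    linarith
  · refine ((hasDerivAt_negMulLog_tail hψ h1 ht).fun_mul (hKd t ht)).congr_deriv ?_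
    ring

theorem continuousOn_speed (hab : a < b) (hψ : ContinuousOn ψ (Icc a b)) :
    ContinuousOn (speed ψ b) (Icc a b) :=
  (continuousOn_tail hab hψ).mul hψ.rexp

/-- The Laguerre spectral gap in the original coordinate. -/
theorem var_le (hab : a < b) (hψ : ContinuousOn ψ (Icc a b)) (h1 : rawTail ψ b a = 1)
    {φ φ' : ℝ → ℝ} (hφ : ∀ t ∈ Icc a b, HasDerivAt φ (φ' t) t)
    (hφ' : ContinuousOn φ' (Icc a b)) :
    dVar ψ a b φ ≤ ∫ t in a..b, rawWeight ψ b t * φ' t ^ 2 := by
  have hφc : ContinuousOn φ (Icc a b) := fun t ht => (hφ t ht).continuousAt.continuousWithinAt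
  have hfc : ContinuousOn (fun t => exp (-ψ t)) (Icc a b) := hψ.neg.rexp
  have hgc : ContinuousOn (fun t => φ' t ^ 2 * speed ψ b t) (Icc a b) :=
    (hφ'.pow 2).mul (continuousOn_speed hab hψ)
  set K : ℝ → ℝ := fun t => ∫ s in a..t, φ' s ^ 2 * speed ψ b s with hKdef
  have hKc : ContinuousOn K (Icc a b) := by
    have h := continuousOn_primitive_interval (a := a) (b := b)
      (f := fun s => φ' s ^ 2 * speed ψ b s) (μ := volume)
      (hgc.integrableOn_Icc.mono_set (uIcc_of_le hab.le).le)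
    rwa [uIcc_of_le hab.le] at h
  have hKd : ∀ t ∈ Ioo a b, HasDerivAt K (φ' t ^ 2 * speed ψ b t) t := fun t ht =>
    integral_hasDerivAt_right ((hgc.mono (Icc_subset_Icc le_rfl ht.2.le)).intervalIntegrable_of_Icc
      ht.1.le) ((hgc.mono Ioo_subset_Icc_self).stronglyMeasurableAtFilter isOpen_Ioo t ht)
      (hgc.continuousAt (Icc_mem_nhds ht.1 ht.2))
  -- the two-point bound
  have two : ∀ x ∈ Ico a b, ∀ y ∈ Ico a b,
      (φ y - φ x) ^ 2 ≤ (expCoord ψ b y - expCoord ψ b x) * (K y - K x) := by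
    have main : ∀ x ∈ Ico a b, ∀ y ∈ Ico a b, x ≤ y →
        (φ y - φ x) ^ 2 ≤ (expCoord ψ b y - expCoord ψ b x) * (K y - K x) := by
      intro x hx y hy hxy
      have hsub : Icc x y ⊆ Icc a b := Icc_subset_Icc hx.1 hy.2.le
      have hS : ∀ t ∈ Icc x y, 0 < rawTail ψ b t := fun t ht =>
        (tail_mem hψ h1 (hsub ht)).2.2 (ht.2.trans_lt hy.2)
      set p : ℝ → ℝ := fun t => exp (-ψ t) / rawTail ψ b t with hp
      have hpc : ContinuousOn p (Icc x y) :=
        (hfc.mono hsub).div ((continuousOn_tail hab hψ).mono hsub) fun t ht => (hS t ht).ne'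
      have hgc' : ContinuousOn (fun t => φ' t * speed ψ b t) (Icc x y) :=
        (hφ'.mul (continuousOn_speed hab hψ)).mono hsub
      have h := sq_integral_mul_le hxy hpc hgc' (h := fun _ => 1) continuousOn_const
        fun t ht => div_nonneg (exp_pos _).le (hS t ht).le
      have e1 : ∫ t in x..y, p t * (φ' t * speed ψ b t * 1) = φ y - φ x := by
        rw [← integral_eq_sub_of_hasDerivAt (fun t ht => hφ t (hsub (uIcc_of_le hxy ▸ ht)))
          ((hφ'.mono hsub).intervalIntegrable_of_Icc hxy)]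
        refine integral_congr fun t ht => ?_
        have := (hS t (uIcc_of_le hxy ▸ ht)).ne'
        simp only [hp, speed, exp_neg]
        field_simp
      have e2 : ∫ t in x..y, p t * (φ' t * speed ψ b t) ^ 2 = K y - K x := by
        rw [← integral_eq_sub_of_hasDerivAt_of_le hxy (hKc.mono hsub) (fun t ht => hKd t
          ⟨lt_of_le_of_lt hx.1 ht.1, lt_trans ht.2 hy.2⟩)
          ((hgc.mono hsub).intervalIntegrable_of_Icc hxy)]
        refine integral_congr fun t ht => ?_
        have := (hS t (uIcc_of_le hxy ▸ ht)).ne'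
        simp only [hp, speed, exp_neg]
        field_simp
      have e3 : ∫ t in x..y, p t * (1 : ℝ) ^ 2 = expCoord ψ b y - expCoord ψ b x := by
        have hz : ContinuousOn (expCoord ψ b) (Icc x y) :=
          (((continuousOn_tail hab hψ).mono hsub).log fun t ht => (hS t ht).ne').neg
        rw [← integral_eq_sub_of_hasDerivAt_of_le hxy hz (f' := fun t => p t) (fun t ht => ?_)
          (hpc.intervalIntegrable_of_Icc hxy)]
        · simp
        · refine ((hasDerivAt_tail hψ ⟨lt_of_le_of_lt hx.1 ht.1, lt_trans ht.2 hy.2⟩).log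
            (hS t (Ioo_subset_Icc_self ht)).ne').fun_neg.congr_deriv ?_
          simp [hp, neg_div]
      rw [e1, e2, e3] at h
      linarith
    intro x hx y hy
    rcases le_total x y with h | h
    · exact main x hx y hy h
    · have := main y hy x hx h
      nlinarith
  obtain ⟨iZ, eZ⟩ := expCoord_integral hab hψ h1
  have e0 : ∫ t in a..b, exp (-ψ t) = 1 := h1
  set m := ∫ t in a..b, exp (-ψ t) * φ t with hm
  set M := ∫ t in a..b, exp (-ψ t) * φ t ^ 2 with hM
  set EK := ∫ t in a..b, exp (-ψ t) * K t with hEK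
  set EZK := ∫ t in a..b, exp (-ψ t) * expCoord ψ b t * K t with hEZK
  have iφ : IntervalIntegrable (fun t => exp (-ψ t) * φ t) volume a b :=
    (hfc.mul hφc).intervalIntegrable_of_Icc hab.le
  have iφ2 : IntervalIntegrable (fun t => exp (-ψ t) * φ t ^ 2) volume a b :=
    (hfc.mul (hφc.pow 2)).intervalIntegrable_of_Icc hab.le
  have iK : IntervalIntegrable (fun t => exp (-ψ t) * K t) volume a b :=
    (hfc.mul hKc).intervalIntegrable_of_Icc hab.le
  have iZK : IntervalIntegrable (fun t => exp (-ψ t) * expCoord ψ b t * K t) volume a b :=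
    iZ.mul_continuousOn ((uIcc_of_le hab.le).symm ▸ hKc)
  have i1 : IntervalIntegrable (fun t => exp (-ψ t)) volume a b :=
    hfc.intervalIntegrable_of_Icc hab.le
  have row : ∀ y ∈ Ioo a b, φ y ^ 2 - 2 * m * φ y + M ≤
      expCoord ψ b y * K y - EK * expCoord ψ b y - K y + EZK := by
    intro y hy
    have eL : ∀ x, exp (-ψ x) * (φ y - φ x) ^ 2 = φ y ^ 2 * exp (-ψ x) -
        2 * φ y * (exp (-ψ x) * φ x) + exp (-ψ x) * φ x ^ 2 := fun x => by ring
    have eR : ∀ x, exp (-ψ x) * ((expCoord ψ b y - expCoord ψ b x) * (K y - K x)) =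
        expCoord ψ b y * K y * exp (-ψ x) - expCoord ψ b y * (exp (-ψ x) * K x) -
          K y * (exp (-ψ x) * expCoord ψ b x) + exp (-ψ x) * expCoord ψ b x * K x := fun x => by ring
    have jL : IntervalIntegrable (fun x => exp (-ψ x) * (φ y - φ x) ^ 2) volume a b := by
      simp only [eL]
      exact ((i1.const_mul _).sub (iφ.const_mul _)).add iφ2
    have jR : IntervalIntegrable (fun x => exp (-ψ x) *
        ((expCoord ψ b y - expCoord ψ b x) * (K y - K x))) volume a b := by
      simp only [eR]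
      exact (((i1.const_mul _).sub (iK.const_mul _)).sub (iZ.const_mul _)).add iZK
    have h : (∫ x in a..b, exp (-ψ x) * (φ y - φ x) ^ 2) ≤ ∫ x in a..b, exp (-ψ x) *
        ((expCoord ψ b y - expCoord ψ b x) * (K y - K x)) :=
      integral_mono_on_of_le_Ioo hab.le jL jR fun x hx => mul_le_mul_of_nonneg_left
        (two x ⟨hx.1.le, hx.2⟩ y ⟨hy.1.le, hy.2⟩) (exp_pos _).le
    simp only [eL, eR] at h
    rw [intervalIntegral.integral_add ((i1.const_mul _).sub (iφ.const_mul _)) iφ2,
      intervalIntegral.integral_sub (i1.const_mul _) (iφ.const_mul _),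
      intervalIntegral.integral_add (((i1.const_mul _).sub (iK.const_mul _)).sub (iZ.const_mul _))
        iZK,
      intervalIntegral.integral_sub ((i1.const_mul _).sub (iK.const_mul _)) (iZ.const_mul _),
      intervalIntegral.integral_sub (i1.const_mul _) (iK.const_mul _),
      intervalIntegral.integral_const_mul, intervalIntegral.integral_const_mul,
      intervalIntegral.integral_const_mul, intervalIntegral.integral_const_mul,
      intervalIntegral.integral_const_mul, e0, eZ, ← hm, ← hM, ← hEK, ← hEZK] at h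
    linarith
  have h := integral_mono_on_of_le_Ioo (a := a) (b := b) hab.le
    (f := fun y => exp (-ψ y) * φ y ^ 2 - 2 * m * (exp (-ψ y) * φ y) + M * exp (-ψ y))
    (g := fun y => exp (-ψ y) * expCoord ψ b y * K y - EK * (exp (-ψ y) * expCoord ψ b y) -
      exp (-ψ y) * K y + EZK * exp (-ψ y))
    ((iφ2.sub (iφ.const_mul _)).add (i1.const_mul _))
    (((iZK.sub (iZ.const_mul _)).sub iK).add (i1.const_mul _))
    fun y hy => by nlinarith [mul_le_mul_of_nonneg_left (row y hy) (exp_pos (-ψ y)).le]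
  rw [intervalIntegral.integral_add (iφ2.sub (iφ.const_mul _)) (i1.const_mul _),
    intervalIntegral.integral_sub iφ2 (iφ.const_mul _),
    intervalIntegral.integral_add ((iZK.sub (iZ.const_mul _)).sub iK) (i1.const_mul _),
    intervalIntegral.integral_sub (iZK.sub (iZ.const_mul _)) iK,
    intervalIntegral.integral_sub iZK (iZ.const_mul _),
    intervalIntegral.integral_const_mul, intervalIntegral.integral_const_mul,
    intervalIntegral.integral_const_mul, intervalIntegral.integral_const_mul, e0, eZ,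
    ← hm, ← hM, ← hEK, ← hEZK] at h
  have hw := weight_integral_eq hab hψ h1 hKc hKd hgc
  have ew : ∫ t in a..b, rawWeight ψ b t * φ' t ^ 2 =
      ∫ t in a..b, negMulLog (rawTail ψ b t) * (φ' t ^ 2 * speed ψ b t) :=
    integral_congr fun t _ => by simp only [rawWeight]; ring
  rw [dVar, dMean, dMean, ew, hw, ← hm, ← hM, ← hEK, ← hEZK]
  nlinarith

/-- The curvature of the density in the Laguerre form. -/
theorem weight_curvature (hab : a < b) (hψ : ∀ t ∈ Icc a b, HasDerivAt ψ (ψ' t) t)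
    (hψ' : ∀ t ∈ Icc a b, HasDerivAt ψ' (ψ'' t) t) (hψ'' : ContinuousOn ψ'' (Icc a b))
    (h1 : rawTail ψ b a = 1) :
    ∫ t in a..b, rawWeight ψ b t * ψ'' t =
      (∫ t in a..b, exp (-ψ t) * (1 - ψ' t * speed ψ b t)) -
        ∫ t in a..b, exp (-ψ t) * expCoord ψ b t * (1 - ψ' t * speed ψ b t) ^ 2 := by
  have hψc : ContinuousOn ψ (Icc a b) := fun t ht => (hψ t ht).continuousAt.continuousWithinAt
  have hψ'c : ContinuousOn ψ' (Icc a b) := fun t ht => (hψ' t ht).continuousAt.continuousWithinAt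
  have hr := continuousOn_speed hab hψc
  have hfc : ContinuousOn (fun t => exp (-ψ t)) (Icc a b) := hψc.neg.rexp
  set β : ℝ → ℝ := fun t => 1 - ψ' t * speed ψ b t with hβ
  have hβc : ContinuousOn β (Icc a b) := continuousOn_const.sub (hψ'c.mul hr)
  have hrd : ∀ t ∈ Ioo a b, HasDerivAt (speed ψ b) (-β t) t := fun t ht => by
    refine ((hasDerivAt_tail hψc ht).fun_mul (hψ t (Ioo_subset_Icc_self ht)).exp).congr_deriv ?_
    simp only [hβ, speed, exp_neg]
    field_simp
    ring
  have hu := uIcc_of_le hab.le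
  obtain ⟨iZ, eZ⟩ := expCoord_integral hab hψc h1
  -- the covariance identity with `K = ψ' r`
  have hw := weight_integral_eq hab hψc h1 (K := fun t => ψ' t * speed ψ b t)
    (K' := fun t => ψ'' t * speed ψ b t - ψ' t * β t) (hψ'c.mul hr)
    (fun t ht => ((hψ' t (Ioo_subset_Icc_self ht)).fun_mul (hrd t ht)).congr_deriv (by ring))
    ((hψ''.mul hr).sub (hψ'c.mul hβc))
  have hS : ContinuousOn (fun t => negMulLog (rawTail ψ b t)) (Icc a b) :=
    continuous_negMulLog.comp_continuousOn (continuousOn_tail hab hψc)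
  have j1 : IntervalIntegrable (fun t => rawWeight ψ b t * ψ'' t) volume a b :=
    ((hS.mul hr).mul hψ'').intervalIntegrable_of_Icc hab.le
  have j2 : IntervalIntegrable (fun t => negMulLog (rawTail ψ b t) * (ψ' t * β t)) volume a b :=
    (hS.mul (hψ'c.mul hβc)).intervalIntegrable_of_Icc hab.le
  have jβ : IntervalIntegrable (fun t => exp (-ψ t) * β t) volume a b :=
    (hfc.mul hβc).intervalIntegrable_of_Icc hab.le
  have jZβ : IntervalIntegrable (fun t => exp (-ψ t) * expCoord ψ b t * β t) volume a b :=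
    iZ.mul_continuousOn (hu.symm ▸ hβc)
  have jZβ2 : IntervalIntegrable (fun t => exp (-ψ t) * expCoord ψ b t * β t ^ 2) volume a b :=
    iZ.mul_continuousOn (hu.symm ▸ hβc.pow 2)
  have j0 : IntervalIntegrable (fun t => exp (-ψ t)) volume a b :=
    hfc.intervalIntegrable_of_Icc hab.le
  have e1 : ∫ t in a..b, negMulLog (rawTail ψ b t) * (ψ'' t * speed ψ b t - ψ' t * β t) =
      (∫ t in a..b, rawWeight ψ b t * ψ'' t) -
        ∫ t in a..b, negMulLog (rawTail ψ b t) * (ψ' t * β t) := by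
    rw [← intervalIntegral.integral_sub j1 j2]
    exact integral_congr fun t _ => by simp only [rawWeight]; ring
  have e2 : ∫ t in a..b, negMulLog (rawTail ψ b t) * (ψ' t * β t) =
      (∫ t in a..b, exp (-ψ t) * expCoord ψ b t * β t) -
        ∫ t in a..b, exp (-ψ t) * expCoord ψ b t * β t ^ 2 := by
    rw [← intervalIntegral.integral_sub jZβ jZβ2]
    refine integral_congr fun t _ => ?_
    simp only [hβ, negMulLog, expCoord, speed, exp_neg]
    field_simp
    ring
  have e3 : ∫ t in a..b, exp (-ψ t) * expCoord ψ b t * (ψ' t * speed ψ b t) =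
      1 - ∫ t in a..b, exp (-ψ t) * expCoord ψ b t * β t := by
    rw [← eZ, ← intervalIntegral.integral_sub iZ jZβ]
    exact integral_congr fun t _ => by simp only [hβ]; ring
  have e4 : ∫ t in a..b, exp (-ψ t) * (ψ' t * speed ψ b t) =
      1 - ∫ t in a..b, exp (-ψ t) * β t := by
    conv_rhs => rw [← (show ∫ t in a..b, exp (-ψ t) = 1 from h1)]
    rw [← intervalIntegral.integral_sub j0 jβ]
    exact integral_congr fun t _ => by simp only [hβ]; ring
  rw [e1, e2, e3, e4] at hw
  simp only [hβ] at hw ⊢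
  linarith

/-- The gap inequality. -/
theorem sum_var_le {ι : Type*} (s : Finset ι) (hab : a < b)
    (hψ : ∀ t ∈ Icc a b, HasDerivAt ψ (ψ' t) t)
    (hψ' : ∀ t ∈ Icc a b, HasDerivAt ψ' (ψ'' t) t) (hψ'' : ContinuousOn ψ'' (Icc a b))
    (h1 : rawTail ψ b a = 1) {φ φ' : ι → ℝ → ℝ}
    (hφ : ∀ i ∈ s, ∀ t ∈ Icc a b, HasDerivAt (φ i) (φ' i t) t)
    (hφ' : ∀ i ∈ s, ContinuousOn (φ' i) (Icc a b))
    (hcurv : ∀ t ∈ Icc a b, ∑ i ∈ s, φ' i t ^ 2 ≤ 2 * ψ'' t) :
    ∑ i ∈ s, dVar ψ a b (φ i) ≤
      2 * ((∫ t in a..b, exp (-ψ t) * (1 - ψ' t * speed ψ b t)) -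
        ∫ t in a..b, exp (-ψ t) * expCoord ψ b t * (1 - ψ' t * speed ψ b t) ^ 2) := by
  have hψc : ContinuousOn ψ (Icc a b) := fun t ht => (hψ t ht).continuousAt.continuousWithinAt
  have hwc : ContinuousOn (rawWeight ψ b) (Icc a b) :=
    (continuous_negMulLog.comp_continuousOn (continuousOn_tail hab hψc)).mul
      (continuousOn_speed hab hψc)
  have hi : ∀ i ∈ s, IntervalIntegrable (fun t => rawWeight ψ b t * φ' i t ^ 2) volume a b :=
    fun i hi => (hwc.mul ((hφ' i hi).pow 2)).intervalIntegrable_of_Icc hab.le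
  rw [← weight_curvature hab hψ hψ' hψ'' h1, ← intervalIntegral.integral_const_mul]
  refine (Finset.sum_le_sum fun i hi => var_le hab hψc h1 (hφ i hi) (hφ' i hi)).trans ?_
  rw [← intervalIntegral.integral_finsetSum hi]
  have jL : IntervalIntegrable (fun t => ∑ i ∈ s, rawWeight ψ b t * φ' i t ^ 2) volume a b :=
    (continuousOn_finsetSum _ fun i h => hwc.mul ((hφ' i h).pow 2)).intervalIntegrable_of_Icc hab.le
  refine intervalIntegral.integral_mono_on hab.le jL
    (((continuousOn_const.mul (hwc.mul hψ''))).intervalIntegrable_of_Icc hab.le) fun t ht => ?_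
  rw [← Finset.mul_sum]
  have h0 : 0 ≤ rawWeight ψ b t :=
    mul_nonneg (negMulLog_nonneg (tail_mem hψc h1 ht).1 (tail_mem hψc h1 ht).2.1)
      (mul_nonneg (tail_mem hψc h1 ht).1 (exp_pos _).le)
  nlinarith [mul_le_mul_of_nonneg_left (hcurv t ht) h0]

end Vale.Agent.P254.Unc
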