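import Vale.Agent.P254.Unc.OneDimBasic

/-!
# P254: the weighted Poincaré inequality `Var φ ≤ ∫ weight · φ'²`
-/

open MeasureTheory Set Real intervalIntegral

namespace Vale.Agent.P254.Unc

variable {L : ℝ} {g : ℝ → ℝ}

theorem hasDerivAt_primitive {G : ℝ → ℝ} (hi : IntervalIntegrable G volume 0 L)
    (hc : ContinuousOn G (Ioo 0 L)) {T : ℝ} (hT : T ∈ Ioo 0 L) :
    HasDerivAt (fun u => ∫ x in (0 : ℝ)..u, G x) (G T) T := by
  refine integral_hasDerivAt_right (hi.mono_set ?_) (hc.stronglyMeasurableAtFilter isOpen_Ioo T hT)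
    (hc.continuousAt (isOpen_Ioo.mem_nhds hT))
  rw [uIcc_of_le hT.1.le, uIcc_of_le (hT.1.trans hT.2).le]
  exact Icc_subset_Icc le_rfl hT.2.le

theorem continuousOn_primitive' {G : ℝ → ℝ} (hL : 0 ≤ L) (hi : IntervalIntegrable G volume 0 L) :
    ContinuousOn (fun u => ∫ x in (0 : ℝ)..u, G x) (Icc 0 L) := by
  simpa [uIcc_of_le hL] using continuousOn_primitive_interval' hi left_mem_uIcc

/-- A bounded function continuous on the open interval is interval integrable. -/
theorem intervalIntegrable_of_bounded {G : ℝ → ℝ} {B : ℝ} (hL : 0 ≤ L)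
    (hc : ContinuousOn G (Ioo 0 L)) (hB : ∀ x ∈ Ioo 0 L, |G x| ≤ B) :
    IntervalIntegrable G volume 0 L := by
  rw [intervalIntegrable_iff_integrableOn_Ioo_of_le hL]
  exact (integrableOn_const (C := B) measure_Ioo_lt_top.ne).mono'
    (hc.aestronglyMeasurable measurableSet_Ioo)
    ((ae_restrict_iff' measurableSet_Ioo).2 (Filter.Eventually.of_forall fun x hx => by
      rw [Real.norm_eq_abs]; exact hB x hx))

/-- **Weighted Poincaré inequality**: the derivative only has to be bounded and continuous inside. -/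
theorem weightedPoincare_of_bdd (h : Marg L g) {φ φ' : ℝ → ℝ} {B : ℝ}
    (cφ : ContinuousOn φ (Icc 0 L)) (dφ : ∀ x ∈ Ioo 0 L, HasDerivAt φ (φ' x) x)
    (cφ' : ContinuousOn φ' (Ioo 0 L)) (bφ' : ∀ x ∈ Ioo 0 L, |φ' x| ≤ B) :
    (∫ x in (0 : ℝ)..L, dens L g x * φ x ^ 2) - (∫ x in (0 : ℝ)..L, dens L g x * φ x) ^ 2 ≤
      ∫ x in (0 : ℝ)..L, weight L g x * φ' x ^ 2 := by
  set f := dens L g with hf
  set S := tail L g with hS
  set k : ℝ → ℝ := fun x => S x / f x * φ' x ^ 2 with hk
  have hL := h.pos
  have cf := h.cont_dens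
  have cS := h.cont_tail
  have cSf : Continuous fun x => S x / f x := cS.div cf fun x => (h.dens_pos x).ne'
  have ck : ContinuousOn k (Ioo 0 L) := cSf.continuousOn.mul (cφ'.pow 2)
  obtain ⟨C, hC⟩ := isCompact_Icc.exists_bound_of_continuousOn (s := Icc 0 L) cSf.continuousOn
  have ik : IntervalIntegrable k volume 0 L := by
    refine intervalIntegrable_of_bounded hL.le ck (B := C * B ^ 2) fun x hx => ?_
    rw [hk, abs_mul, abs_of_nonneg (sq_nonneg (φ' x))]
    exact mul_le_mul ((Real.norm_eq_abs _).symm.trans_le (hC x (Ioo_subset_Icc_self hx)))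
      (sq_le_sq' (abs_le.1 (bφ' x hx)).1 (abs_le.1 (bφ' x hx)).2) (sq_nonneg _)
      ((norm_nonneg _).trans (hC x (Ioo_subset_Icc_self hx)))
  have i1 : IntervalIntegrable (fun x => f x * φ x) volume 0 L :=
    (cf.continuousOn.mul cφ).intervalIntegrable_of_Icc hL.le
  have i2 : IntervalIntegrable (fun x => f x * φ x ^ 2) volume 0 L :=
    (cf.continuousOn.mul (cφ.pow 2)).intervalIntegrable_of_Icc hL.le
  have iA : IntervalIntegrable (fun x => k x * cdf L g x) volume 0 L :=
    ik.mul_continuousOn h.cont_cdf.continuousOn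
  have iB : IntervalIntegrable (fun x => k x * clockMass L g x) volume 0 L :=
    ik.mul_continuousOn h.cont_clockMass.continuousOn
  set M1 : ℝ → ℝ := fun u => ∫ x in (0 : ℝ)..u, f x * φ x with hM1
  set M2 : ℝ → ℝ := fun u => ∫ x in (0 : ℝ)..u, f x * φ x ^ 2 with hM2
  set K : ℝ → ℝ := fun u => ∫ x in (0 : ℝ)..u, k x with hK
  set A : ℝ → ℝ := fun u => ∫ x in (0 : ℝ)..u, k x * cdf L g x with hA
  set Bf : ℝ → ℝ := fun u => ∫ x in (0 : ℝ)..u, k x * clockMass L g x with hBf
  set D : ℝ → ℝ := fun u => (clockMass L g u * A u - cdf L g u * Bf u) -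
    (cdf L g u * M2 u - M1 u ^ 2) with hD
  have cD : ContinuousOn D (Icc 0 L) :=
    ((h.cont_clockMass.continuousOn.mul (continuousOn_primitive' hL.le iA)).sub
      (h.cont_cdf.continuousOn.mul (continuousOn_primitive' hL.le iB))).sub
      ((h.cont_cdf.continuousOn.mul (continuousOn_primitive' hL.le i2)).sub
        ((continuousOn_primitive' hL.le i1).pow 2))
  have dclock : ∀ x, x < L → HasDerivAt (clock L g) (f x / S x) x := fun x hx => h.hasDerivAt_clock hx
  have dD : ∀ T ∈ Ioo 0 L, HasDerivAt D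
      (f T * (clock L g T * A T - Bf T) -
        f T * (M2 T + cdf L g T * φ T ^ 2 - 2 * φ T * M1 T)) T := by
    intro T hT
    have dA := hasDerivAt_primitive iA (ck.mul h.cont_cdf.continuousOn) hT
    have dB := hasDerivAt_primitive iB (ck.mul h.cont_clockMass.continuousOn) hT
    have d1 := hasDerivAt_primitive i1 (cf.continuousOn.mul (cφ.mono Ioo_subset_Icc_self)) hT
    have d2 := hasDerivAt_primitive i2
      (cf.continuousOn.mul ((cφ.mono Ioo_subset_Icc_self).pow 2)) hT
    exact ((((h.hasDerivAt_clockMass hT.2).fun_mul dA).fun_sub ((h.hasDerivAt_cdf T).fun_mul dB)).fun_sub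
      (((h.hasDerivAt_cdf T).fun_mul d2).fun_sub (d1.fun_pow 2))).congr_deriv (by
        simp only [← hf, hA, hBf, hM1, hM2]; push_cast; ring)
  have hpos : ∀ T ∈ Ioo 0 L,
      f T * (M2 T + cdf L g T * φ T ^ 2 - 2 * φ T * M1 T) ≤ f T * (clock L g T * A T - Bf T) := by
    intro T hT
    refine mul_le_mul_of_nonneg_left ?_ (h.dens_pos T).le
    have sub : Icc 0 T ⊆ Icc 0 L := Icc_subset_Icc le_rfl hT.2.le
    have cφT := cφ.mono sub
    have cclock : ContinuousOn (clock L g) (Icc 0 T) := fun x hx =>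
      (dclock x (hx.2.trans_lt hT.2)).continuousAt.continuousWithinAt
    have cK : ContinuousOn K (Icc 0 T) := (continuousOn_primitive' hL.le ik).mono sub
    have cA : ContinuousOn A (Icc 0 T) := (continuousOn_primitive' hL.le iA).mono sub
    have cB : ContinuousOn Bf (Icc 0 T) := (continuousOn_primitive' hL.le iB).mono sub
    -- the closed form of `∫ f (clock T - clock) (K T - K)`
    have e : ∫ x in (0 : ℝ)..T, f x * ((clock L g T - clock L g x) * (K T - K x)) =
        clock L g T * A T - Bf T := by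
      set Θ : ℝ → ℝ := fun s => clock L g T * (A s + (K T - K s) * cdf L g s) -
        (Bf s + (K T - K s) * clockMass L g s) with hΘ
      have := integral_eq_sub_of_hasDerivAt_of_le (f := Θ) hT.1.le
        ((continuousOn_const.mul (cA.add ((continuousOn_const.sub cK).mul h.cont_cdf.continuousOn))).sub
          (cB.add ((continuousOn_const.sub cK).mul h.cont_clockMass.continuousOn)))
        (f' := fun x => f x * ((clock L g T - clock L g x) * (K T - K x)))
        (fun x hx => by
          have hxL : x ∈ Ioo 0 L := ⟨hx.1, hx.2.trans hT.2⟩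
          have dA := hasDerivAt_primitive iA (ck.mul h.cont_cdf.continuousOn) hxL
          have dB := hasDerivAt_primitive iB (ck.mul h.cont_clockMass.continuousOn) hxL
          have dK := (hasDerivAt_primitive ik ck hxL).const_sub (K T)
          exact (((dA.fun_add (dK.fun_mul (h.hasDerivAt_cdf x))).const_mul (clock L g T)).fun_sub
            (dB.fun_add (dK.fun_mul (h.hasDerivAt_clockMass hxL.2)))).congr_deriv (by
              simp only [← hf, hK]; ring))
        ((cf.continuousOn.mul ((continuousOn_const.sub cclock).mul (continuousOn_const.sub cK))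
          ).intervalIntegrable_of_Icc hT.1.le)
      rw [this]
      have h0 : clockMass L g 0 = 0 := by simp [clockMass, h.tail_zero]
      simp only [hΘ, h0, cdf, h.tail_zero, hA, hBf, hK, integral_same]
      ring
    have e' : ∫ x in (0 : ℝ)..T, f x * (φ T - φ x) ^ 2 =
        M2 T + cdf L g T * φ T ^ 2 - 2 * φ T * M1 T := by
      have hT0 : ∫ x in (0 : ℝ)..T, f x = cdf L g T := by
        have := integral_add_adjacent_intervals (h.dens_int 0 T) (h.dens_int T L)
        have := h.integral_dens
        simp only [cdf, tail, ← hf] at *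
        linarith
      rw [show (fun x => f x * (φ T - φ x) ^ 2) =
        fun x => f x * φ x ^ 2 + φ T ^ 2 * f x - 2 * φ T * (f x * φ x) from funext fun x => by ring,
        intervalIntegral.integral_sub, intervalIntegral.integral_add, intervalIntegral.integral_const_mul,
        intervalIntegral.integral_const_mul, hT0]
      · simp only [hM1, hM2]; ring
      · exact (cf.continuousOn.mul (cφT.pow 2)).intervalIntegrable_of_Icc hT.1.le
      · exact (continuous_const.mul cf).intervalIntegrable 0 T
      · exact ((cf.continuousOn.mul (cφT.pow 2)).add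
          (continuous_const.mul cf).continuousOn).intervalIntegrable_of_Icc hT.1.le
      · exact (continuousOn_const.mul (cf.continuousOn.mul cφT)).intervalIntegrable_of_Icc hT.1.le
    rw [← e, ← e']
    refine integral_mono_on hT.1.le
      ((cf.continuousOn.mul ((continuousOn_const.sub cφT).pow 2)).intervalIntegrable_of_Icc hT.1.le)
      ((cf.continuousOn.mul ((continuousOn_const.sub cclock).mul (continuousOn_const.sub cK))
        ).intervalIntegrable_of_Icc hT.1.le) fun x hx => ?_
    refine mul_le_mul_of_nonneg_left ?_ (h.dens_pos x).le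
    rcases hx.2.eq_or_lt with rfl | hxT
    · simp
    have subx : Ioo x T ⊆ Ioo 0 L := fun y hy => ⟨hx.1.trans_lt hy.1, hy.2.trans hT.2⟩
    refine sq_sub_le_mul hxT (φ' := φ') (G' := fun y => f y / S y) (K' := k)
      (cφT.mono (Icc_subset_Icc hx.1 le_rfl)) (cclock.mono (Icc_subset_Icc hx.1 le_rfl))
      (cK.mono (Icc_subset_Icc hx.1 le_rfl)) (fun y hy => dφ y (subx hy))
      (fun y hy => dclock y (hy.2.trans hT.2)) (fun y hy => hasDerivAt_primitive ik ck (subx hy))
      (fun y hy => div_pos (h.dens_pos y) (h.tail_pos (hy.2.trans hT.2))) fun y hy => ?_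
    have := (h.dens_pos y).ne'
    have := (h.tail_pos (hy.2.trans hT.2)).ne'
    simp only [hk, hf, hS]
    field_simp
  have hmono := monotoneOn_of_hasDerivWithinAt_nonneg (convex_Icc 0 L) cD
    (fun x hx => (dD x (by rwa [interior_Icc] at hx)).hasDerivWithinAt)
    (fun x hx => sub_nonneg.2 (hpos x (by rwa [interior_Icc] at hx)))
    (left_mem_Icc.2 hL.le) (right_mem_Icc.2 hL.le) hL.le
  have h0 : D 0 = 0 := by simp [hD, hA, hBf, hM1, hM2, cdf, clockMass, h.tail_zero]
  have hLe : D L = A L - Bf L - (M2 L - M1 L ^ 2) := by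
    simp [hD, cdf, clockMass, tail_top]
  have hw : A L - Bf L = ∫ x in (0 : ℝ)..L, weight L g x * φ' x ^ 2 := by
    simp only [hA, hBf]
    rw [← intervalIntegral.integral_sub iA iB]
    refine integral_congr fun x _ => ?_
    have := (h.dens_pos x).ne'
    simp only [hk, cdf, clockMass, weight, ← hf, ← hS]
    field_simp
    ring
  rw [h0, hLe, hw] at hmono
  simp only [hM1, hM2] at hmono
  linarith

/-- The weighted Poincaré inequality for a `C¹` function. -/
theorem weightedPoincare (h : Marg L g) {φ φ' : ℝ → ℝ}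
    (dφ : ∀ x ∈ Icc 0 L, HasDerivAt φ (φ' x) x) (cφ' : ContinuousOn φ' (Icc 0 L)) :
    (∫ x in (0 : ℝ)..L, dens L g x * φ x ^ 2) - (∫ x in (0 : ℝ)..L, dens L g x * φ x) ^ 2 ≤
      ∫ x in (0 : ℝ)..L, weight L g x * φ' x ^ 2 := by
  obtain ⟨B, hB⟩ := isCompact_Icc.exists_bound_of_continuousOn cφ'
  exact weightedPoincare_of_bdd h (fun x hx => (dφ x hx).continuousAt.continuousWithinAt)
    (fun x hx => dφ x (Ioo_subset_Icc_self hx)) (cφ'.mono Ioo_subset_Icc_self)
    fun x hx => hB x (Ioo_subset_Icc_self hx)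

end Vale.Agent.P254.Unc
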