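import Vale.Agent.P254.Unc.Slice
import Vale.Agent.P254.Unc.OneDimPoincare

/-!
# P254: the slicing induction

A potential satisfying the one-variable slicing inequality bounds the entropy of every smooth
log-concave decreasing density on a box by the sum of its values at the marginals.
-/

open MeasureTheory Set Filter
open scoped Topology

namespace Vale.Agent.P254.Unc

variable {n : ℕ} {L : ℝ}

theorem dens_eq_exp (L : ℝ) {g : ℝ → ℝ} (hm : 0 < mass L g) (s : ℝ) :
    dens L g s = Real.exp (-(g s + Real.log (mass L g))) := by
  rw [dens, neg_add, Real.exp_add, Real.exp_neg (Real.log _), Real.exp_log hm, div_eq_mul_inv]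

/-- The gap inequality for a marginal. -/
theorem sum_var_shift_le {W : (Fin (n + 1) → ℝ) → ℝ} (hW : Potential L W) (hL : 0 < L)
    (k : Fin (n + 1)) {δ : ℝ} (hδ : 0 < δ) :
    ∑ j, ((∫ s in (0 : ℝ)..L, dens L (margPot L W k) s * shiftMean L W k δ j s ^ 2) -
        (∫ s in (0 : ℝ)..L, dens L (margPot L W k) s * shiftMean L W k δ j s) ^ 2) ≤
      2 * curvI L (margPot L W k) := by
  set g := margPot L W k with hg
  have hM : Marg L g := hW.marg hL k
  have hw : weight L g = fun s => Real.negMulLog (tail L g s) * (tail L g s / dens L g s) := by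
    funext s
    simp only [weight, Real.negMulLog]
    ring
  have hwc : Continuous (weight L g) := by
    rw [hw]
    exact (Real.continuous_negMulLog.comp hM.cont_tail).mul
      (hM.cont_tail.div hM.cont_dens fun s => (hM.dens_pos s).ne')
  have hΦ'c : ∀ j, Continuous (deriv (shiftMean L W k δ j)) := fun j =>
    (contDiff_shiftMean hW hL k hδ j).continuous_deriv le_rfl
  refine (Finset.sum_le_sum fun j _ => weightedPoincare hM (φ := shiftMean L W k δ j)
    (fun s _ => (((contDiff_shiftMean hW hL k hδ j).differentiable one_ne_zero) s).hasDerivAt)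
    (hΦ'c j).continuousOn).trans ?_
  have hi : ∀ j, IntervalIntegrable (fun s => weight L g s * deriv (shiftMean L W k δ j) s ^ 2)
      volume 0 L := fun j => (hwc.mul ((hΦ'c j).pow 2)).intervalIntegrable _ _
  rw [← intervalIntegral.integral_finsetSum fun j _ => hi j, curvI,
    ← intervalIntegral.integral_const_mul]
  have h2 : Continuous (deriv (deriv g)) := by
    have h' := (contDiff_succ_iff_deriv.1
      (show ContDiff ℝ (1 + 1) g from hM.smooth)).2.2
    exact h'.continuous_deriv le_rfl
  refine intervalIntegral.integral_mono_on hL.le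
    ((continuous_finsetSum _ fun j _ => hwc.mul ((hΦ'c j).pow 2)).intervalIntegrable _ _)
    ((continuous_const.mul (hwc.mul h2)).intervalIntegrable _ _) fun s hs => ?_
  rw [← Finset.mul_sum]
  have h0 : 0 ≤ weight L g s := by
    rw [hw]
    exact mul_nonneg (Real.negMulLog_nonneg (hM.tail_nonneg hs.2) (hM.tail_le_one hs.1))
      (div_nonneg (hM.tail_nonneg hs.2) (hM.dens_pos s).le)
  nlinarith [mul_le_mul_of_nonneg_left (slice_curvature hW hL k hδ hs) h0]

theorem abs_shiftMean_le {W : (Fin (n + 1) → ℝ) → ℝ} (hW : Potential L W) (hL : 0 < L)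
    (k : Fin (n + 1)) (j : Fin n) :
    ∃ C : ℝ, ∀ δ ∈ Icc (0 : ℝ) 1, ∀ s ∈ Icc 0 L, |shiftMean L W k δ j s| ≤ C := by
  obtain ⟨s₀, -, hs₀'⟩ := (isCompact_Icc (a := (0 : ℝ)) (b := L)).exists_isMinOn
    (nonempty_Icc.2 hL.le) (hW.contDiff_slicePart k).continuous.continuousOn
  obtain ⟨B, hB⟩ := ((isCompact_Icc (a := (0 : ℝ)) (b := L)).prod
    (isCompact_box (δ := (0 : ℝ)) (L := L) n)).exists_bound_of_continuousOn
      (hW.contDiff_sliceFamily k).continuous.neg.rexp.continuousOn
  set I := ∫ y in box 0 L n, logBound L (y j)
  refine ⟨|B * I| / part L (sliceAt W k s₀), fun δ hδ s hs => ?_⟩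
  have hp := hW.slicePart_pos hL k s₀
  rw [shiftMean, pMean, abs_div, abs_of_pos (hW.slicePart_pos hL k s)]
  refine div_le_div₀ (abs_nonneg _) ((?_ : _ ≤ B * I).trans (le_abs_self _)) hp (hs₀' hs)
  rw [← integral_const_mul, ← Real.norm_eq_abs]
  refine norm_integral_le_of_norm_le ((integrableOn_logBound_coord hL.le j).const_mul B) ?_
  filter_upwards [ae_restrict_mem (isCompact_box n).measurableSet, ae_box_pos] with y hy hp'
  have hb := hB (s, y) ⟨hs, hy⟩
  rw [norm_mul, Real.norm_eq_abs (Real.log _)]
  exact mul_le_mul hb (abs_log_le hL.le (hp' j) (hy j trivial).2 hδ.1 hδ.2) (abs_nonneg _)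
    ((norm_nonneg _).trans hb)

theorem tendsto_shiftMean {W : (Fin (n + 1) → ℝ) → ℝ} (hW : Potential L W) (hL : 0 < L)
    (k : Fin (n + 1)) (j : Fin n) (s : ℝ) :
    Tendsto (fun m : ℕ => shiftMean L W k (1 / ((m : ℝ) + 1)) j s) atTop
      (𝓝 (lnMean L (sliceAt W k s) j)) := by
  refine Tendsto.div_const ?_ _
  have hc : Continuous fun y => Real.exp (-sliceAt W k s y) :=
    ((hW.contDiff_sliceFamily k).continuous.comp (continuous_const.prodMk continuous_id)).neg.rexp
  obtain ⟨B, hB⟩ := (isCompact_box (δ := (0 : ℝ)) (L := L) n).exists_bound_of_continuousOn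
    hc.continuousOn
  refine tendsto_integral_of_dominated_convergence (fun y => B * logBound L (y j))
    (fun m => hc.aestronglyMeasurable.mul (Measurable.aestronglyMeasurable (by fun_prop)))
    ((integrableOn_logBound_coord hL.le j).const_mul B) (fun m => ?_) ?_
  · filter_upwards [ae_restrict_mem (isCompact_box n).measurableSet, ae_box_pos] with y hy hp
    rw [norm_mul, Real.norm_eq_abs (Real.log _)]
    refine mul_le_mul (hB y hy) (abs_log_le hL.le (hp j) (hy j trivial).2 (by positivity) ?_)
      (abs_nonneg _) ((norm_nonneg _).trans (hB y hy))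
    rw [div_le_one (by positivity)]
    linarith [Nat.cast_nonneg (α := ℝ) m]
  · filter_upwards [ae_box_pos] with y hp
    refine Tendsto.const_mul _ ?_
    have h : Tendsto (fun m : ℕ => y j + 1 / ((m : ℝ) + 1)) atTop (𝓝 (y j)) := by
      simpa using tendsto_one_div_add_atTop_nhds_zero_nat.const_add (y j)
    exact (Real.continuousAt_log (hp j).ne').tendsto.comp h

/-- The gap inequality in the limit of no shift, with the integrability of the slice means. -/
theorem sum_var_le_curv {W : (Fin (n + 1) → ℝ) → ℝ} (hW : Potential L W) (hL : 0 < L)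
    (k : Fin (n + 1)) :
    (∀ j, IntervalIntegrable
        (fun s => dens L (margPot L W k) s * lnMean L (sliceAt W k s) j ^ 2) volume 0 L) ∧
      ∑ j, ((∫ s in (0 : ℝ)..L, dens L (margPot L W k) s * lnMean L (sliceAt W k s) j ^ 2) -
        (∫ s in (0 : ℝ)..L, dens L (margPot L W k) s * lnMean L (sliceAt W k s) j) ^ 2) ≤
      2 * curvI L (margPot L W k) := by
  set g := margPot L W k
  have hdc : Continuous (dens L g) :=
    ((hW.contDiff_margPot hL k).continuous.neg.rexp).div_const _
  obtain ⟨D, hD⟩ := (isCompact_Icc (a := (0 : ℝ)) (b := L)).exists_bound_of_continuousOn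
    hdc.continuousOn
  set δ : ℕ → ℝ := fun m => 1 / ((m : ℝ) + 1)
  have hδ : ∀ m, 0 < δ m ∧ δ m ≤ 1 := fun m => by
    refine ⟨by positivity, ?_⟩
    rw [div_le_one (by positivity)]
    linarith [Nat.cast_nonneg (α := ℝ) m]
  choose C hC using fun j => abs_shiftMean_le hW hL k j
  have hmeas : ∀ j (q : ℕ), AEStronglyMeasurable
      (fun s => dens L g s * lnMean L (sliceAt W k s) j ^ q) (volume.restrict (Ioc 0 L)) :=
    fun j q => hdc.aestronglyMeasurable.mul
      ((aestronglyMeasurable_of_tendsto_ae atTop
        (fun m => (contDiff_shiftMean hW hL k (hδ m).1 j).continuous.aestronglyMeasurable)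
        (Eventually.of_forall fun s => tendsto_shiftMean hW hL k j s)).pow q)
  have hbd : ∀ j, ∀ s ∈ Icc 0 L, |lnMean L (sliceAt W k s) j| ≤ C j := fun j s hs =>
    le_of_tendsto' (tendsto_shiftMean hW hL k j s).abs fun m =>
      hC j _ ⟨(hδ m).1.le, (hδ m).2⟩ s hs
  have hint : ∀ j (q : ℕ), IntervalIntegrable
      (fun s => dens L g s * lnMean L (sliceAt W k s) j ^ q) volume 0 L := fun j q => by
    rw [intervalIntegrable_iff_integrableOn_Ioc_of_le hL.le]
    refine Integrable.mono' (integrable_const (D * C j ^ q)) (hmeas j q) ?_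
    filter_upwards [ae_restrict_mem measurableSet_Ioc] with s hs
    have hs' : s ∈ Icc 0 L := Ioc_subset_Icc_self hs
    rw [norm_mul, norm_pow, Real.norm_eq_abs (lnMean L _ j)]
    exact mul_le_mul (hD s hs') (pow_le_pow_left₀ (abs_nonneg _) (hbd j s hs') q)
      (by positivity) ((norm_nonneg _).trans (hD s hs'))
  refine ⟨fun j => hint j 2, ?_⟩
  have hlim : ∀ j (q : ℕ), Tendsto
      (fun m => ∫ s in (0 : ℝ)..L, dens L g s * shiftMean L W k (δ m) j s ^ q) atTop
      (𝓝 (∫ s in (0 : ℝ)..L, dens L g s * lnMean L (sliceAt W k s) j ^ q)) := fun j q => by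
    refine intervalIntegral.tendsto_integral_filter_of_dominated_convergence
      (fun _ => D * C j ^ q) (Eventually.of_forall fun m => ?_) (Eventually.of_forall fun m => ?_)
      intervalIntegrable_const ?_
    · exact (hdc.mul
        ((contDiff_shiftMean hW hL k (hδ m).1 j).continuous.pow q)).aestronglyMeasurable
    · refine Eventually.of_forall fun s hs => ?_
      rw [uIoc_of_le hL.le] at hs
      have hs' : s ∈ Icc 0 L := Ioc_subset_Icc_self hs
      rw [norm_mul, norm_pow, Real.norm_eq_abs (shiftMean L W k _ j s)]
      exact mul_le_mul (hD s hs') (pow_le_pow_left₀ (abs_nonneg _)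
        (hC j _ ⟨(hδ m).1.le, (hδ m).2⟩ s hs') q) (by positivity)
        ((norm_nonneg _).trans (hD s hs'))
    · exact Eventually.of_forall fun s _ => ((tendsto_shiftMean hW hL k j s).pow q).const_mul _
  refine le_of_tendsto' (tendsto_finsetSum _ fun j _ =>
    (hlim j 2).sub (Tendsto.pow ?_ 2)) fun m => (sum_var_shift_le hW hL k (hδ m).1 : _)
  simpa only [pow_one] using hlim j 1

theorem pMean_coord {W : (Fin (n + 1) → ℝ) → ℝ} (hW : Potential L W) (hL : 0 < L)
    (k : Fin (n + 1)) :
    lnMean L W k = logMean L (margPot L W k) ∧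
      lnExcess L W k = logExcess L (margPot L W k) := by
  have hc := hW.smooth.continuous.neg.rexp.continuousOn (s := box 0 L (n + 1))
  obtain ⟨i1, i2⟩ := integrableOn_mul_log hL.le k hc le_rfl zero_le_one
  simp only [add_zero] at i1 i2
  have hs : ∀ s, Continuous (sliceAt W k s) := fun s =>
    (hW.contDiff_sliceFamily k).continuous.comp (continuous_const.prodMk continuous_id)
  have e1 := (hW.pMean_eq k hL i1).2
  have e2 := (hW.pMean_eq k hL i2).2
  simp only [Fin.insertNth_apply_same, pMean_const hL (hs _)] at e1 e2
  rw [lnExcess, lnMean, e1, e2]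
  exact ⟨rfl, rfl⟩

/-- The slicing induction. -/
theorem potential_bound {ψ s : ℝ → ℝ} (hψ : Pot ψ s) (hstep : StepIneq ψ s)
    (hexc : ∀ L g, Marg L g → 0 ≤ logExcess L g) :
    ∀ (n : ℕ) (L : ℝ), 0 < L → ∀ W : (Fin n → ℝ) → ℝ, Potential L W →
      ∑ i, (lnMean L W i + ψ (lnExcess L W i)) ≤ energy L W := by
  intro n
  induction n with
  | zero =>
    intro L _ W _
    have hbox : box (0 : ℝ) L 0 = univ := by ext x; simp [box]
    have hv : (volume : Measure (Fin 0 → ℝ)).real univ = 1 := by
      rw [Measure.real, ← Set.pi_univ (univ : Set (Fin 0)), volume_pi_pi]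
      simp
    simp [energy, pMean, part, hbox, integral_unique, hv]
  | succ n ih =>
    intro L hL W hW
    have hnn : ∀ i, 0 ≤ lnExcess L W i := fun i => by
      rw [(pMean_coord hW hL i).2]; exact hexc _ _ (hW.marg hL i)
    obtain ⟨k, -, hk⟩ := Finset.exists_max_image Finset.univ (lnExcess L W) Finset.univ_nonempty
    set g := margPot L W k with hg
    have hgc : Continuous g := (hW.contDiff_margPot hL k).continuous
    have hm : mass L g = part L W := hW.mass_margPot hL k
    have hc : ContinuousOn (fun x => Real.exp (-W x)) (box 0 L (n + 1)) :=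
      hW.smooth.continuous.neg.rexp.continuousOn
    obtain ⟨iM2, hgap⟩ := sum_var_le_curv hW hL k
    -- moments of the other coordinates
    have hmom : ∀ j : Fin n,
        (IntervalIntegrable (fun t => dens L g t * lnMean L (sliceAt W k t) j) volume 0 L ∧
          lnMean L W (k.succAbove j) = ∫ t in (0 : ℝ)..L,
            dens L g t * lnMean L (sliceAt W k t) j) ∧
        (IntervalIntegrable (fun t => dens L g t *
            pMean L (sliceAt W k t) fun y => Real.log (y j) ^ 2) volume 0 L ∧
          pMean L W (fun x => Real.log (x (k.succAbove j)) ^ 2) = ∫ t in (0 : ℝ)..L,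
            dens L g t * pMean L (sliceAt W k t) fun y => Real.log (y j) ^ 2) := fun j => by
      obtain ⟨i1, i2⟩ := integrableOn_mul_log hL.le (k.succAbove j) hc le_rfl zero_le_one
      simp only [add_zero] at i1 i2
      have e1 := hW.pMean_eq k hL i1
      have e2 := hW.pMean_eq k hL i2
      simp only [Fin.insertNth_apply_succAbove] at e1 e2
      exact ⟨e1, e2⟩
    obtain ⟨iW, eW⟩ := hW.pMean_eq k hL (g := W)
      (hc.mul hW.smooth.continuous.continuousOn |>.integrableOn_compact (isCompact_box _))
    have hdc : Continuous (dens L g) := hgc.neg.rexp.div_const _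
    have hd0 : ∀ t, 0 ≤ dens L g t := fun t =>
      div_nonneg (Real.exp_pos _).le (by rw [hm]; exact (part_pos hL hW.smooth.continuous).le)
    have hd1 : ∫ t in (0 : ℝ)..L, dens L g t = 1 := by
      simp only [dens, intervalIntegral.integral_div]
      exact div_self (show mass L g ≠ 0 by rw [hm]; exact (part_pos hL hW.smooth.continuous).ne')
    have idens : IntervalIntegrable (dens L g) volume 0 L := hdc.intervalIntegrable _ _
    have ig : IntervalIntegrable (fun t => dens L g t * g t) volume 0 L :=
      (hdc.mul hgc).intervalIntegrable _ _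
    -- the slice energies
    have hE : (∫ t in (0 : ℝ)..L, dens L g t * energy L (sliceAt W k t)) + entropy L g =
        energy L W := by
      have e : ∀ t, dens L g t * energy L (sliceAt W k t) =
          dens L g t * pMean L (sliceAt W k t) (fun y => W (k.insertNth t y)) -
            dens L g t * g t := fun t => by
        rw [energy, hg, margPot]
        unfold sliceAt
        ring
      have e' : ∀ t, dens L g t * (g t + Real.log (mass L g)) =
          dens L g t * g t + Real.log (mass L g) * dens L g t := fun t => by ring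
      simp only [e, entropy, e']
      rw [intervalIntegral.integral_sub iW ig, intervalIntegral.integral_add ig
        (idens.const_mul _), intervalIntegral.integral_const_mul, hd1, ← eW, hm, energy]
      ring
    -- the potential of the slices, from below by its supporting line
    have hlow : ∀ t ∈ Icc 0 L, dens L g t * (∑ j : Fin n, (lnMean L (sliceAt W k t) j +
        (ψ (lnExcess L W (k.succAbove j)) + s (lnExcess L W (k.succAbove j)) *
          ((pMean L (sliceAt W k t) fun y => Real.log (y j) ^ 2) -
            lnMean L (sliceAt W k t) j ^ 2 - 1 - lnExcess L W (k.succAbove j))))) ≤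
        dens L g t * energy L (sliceAt W k t) := fun t ht => by
      refine mul_le_mul_of_nonneg_left ((Finset.sum_le_sum fun j _ => ?_).trans
        (ih L hL _ (hW.slice k ht))) (hd0 t)
      have h0 : 0 ≤ lnExcess L (sliceAt W k t) j := by
        obtain _ | n' := n
        · exact j.elim0
        rw [(pMean_coord (hW.slice k ht) hL j).2]
        exact hexc _ _ ((hW.slice k ht).marg hL j)
      have h := hψ.support _ _ (hnn (k.succAbove j)) h0
      have e : lnExcess L (sliceAt W k t) j = (pMean L (sliceAt W k t) fun y => Real.log (y j) ^ 2) -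
          lnMean L (sliceAt W k t) j ^ 2 - 1 := rfl
      rw [← e]
      linarith
    have iterm : ∀ j : Fin n, IntervalIntegrable (fun t =>
        dens L g t * lnMean L (sliceAt W k t) j +
          s (lnExcess L W (k.succAbove j)) *
            (dens L g t * (pMean L (sliceAt W k t) fun y => Real.log (y j) ^ 2) -
              dens L g t * lnMean L (sliceAt W k t) j ^ 2) +
          (ψ (lnExcess L W (k.succAbove j)) - s (lnExcess L W (k.succAbove j)) *
            (1 + lnExcess L W (k.succAbove j))) * dens L g t) volume 0 L := fun j =>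
      (((hmom j).1.1).add (((hmom j).2.1.sub (iM2 j)).const_mul _)).add (idens.const_mul _)
    have hlow' : ∀ t ∈ Icc 0 L, ∑ j : Fin n, (dens L g t * lnMean L (sliceAt W k t) j +
          s (lnExcess L W (k.succAbove j)) *
            (dens L g t * (pMean L (sliceAt W k t) fun y => Real.log (y j) ^ 2) -
              dens L g t * lnMean L (sliceAt W k t) j ^ 2) +
          (ψ (lnExcess L W (k.succAbove j)) - s (lnExcess L W (k.succAbove j)) *
            (1 + lnExcess L W (k.succAbove j))) * dens L g t) ≤
        dens L g t * energy L (sliceAt W k t) := fun t ht => by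
      refine le_of_eq_of_le ?_ (hlow t ht)
      rw [Finset.mul_sum]
      exact Finset.sum_congr rfl fun j _ => by ring
    have ienergy : IntervalIntegrable (fun t => dens L g t * energy L (sliceAt W k t)) volume 0 L := by
      refine (iW.sub ig).congr fun t _ => ?_
      simp only [energy, hg, margPot]
      unfold sliceAt
      ring
    have hsumI : IntervalIntegrable (fun t => ∑ j : Fin n,
        (dens L g t * lnMean L (sliceAt W k t) j +
          s (lnExcess L W (k.succAbove j)) *
            (dens L g t * (pMean L (sliceAt W k t) fun y => Real.log (y j) ^ 2) -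
              dens L g t * lnMean L (sliceAt W k t) j ^ 2) +
          (ψ (lnExcess L W (k.succAbove j)) - s (lnExcess L W (k.succAbove j)) *
            (1 + lnExcess L W (k.succAbove j))) * dens L g t)) volume 0 L := by
      rw [intervalIntegrable_iff_integrableOn_Ioc_of_le hL.le]
      exact integrable_finsetSum _ fun j _ =>
        (intervalIntegrable_iff_integrableOn_Ioc_of_le hL.le).1 (iterm j)
    have hint := intervalIntegral.integral_mono_on hL.le hsumI ienergy hlow'
    rw [intervalIntegral.integral_finsetSum fun j _ => iterm j] at hint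
    -- the step at the kept coordinate
    have hkU := hnn k
    have hst := hstep L g (hW.marg hL k)
    rw [← (pMean_coord hW hL k).1, ← (pMean_coord hW hL k).2] at hst
    have hsk := hψ.slope_nonneg _ hkU
    have hterm : ∀ j : Fin n, lnMean L W (k.succAbove j) + ψ (lnExcess L W (k.succAbove j)) -
        s (lnExcess L W k) * ((∫ t in (0 : ℝ)..L, dens L g t * lnMean L (sliceAt W k t) j ^ 2) -
          (∫ t in (0 : ℝ)..L, dens L g t * lnMean L (sliceAt W k t) j) ^ 2) ≤
        ∫ t in (0 : ℝ)..L, (dens L g t * lnMean L (sliceAt W k t) j +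
          s (lnExcess L W (k.succAbove j)) *
            (dens L g t * (pMean L (sliceAt W k t) fun y => Real.log (y j) ^ 2) -
              dens L g t * lnMean L (sliceAt W k t) j ^ 2) +
          (ψ (lnExcess L W (k.succAbove j)) - s (lnExcess L W (k.succAbove j)) *
            (1 + lnExcess L W (k.succAbove j))) * dens L g t) := fun j => by
      have i1 := (hmom j).1.1
      have i2 := ((hmom j).2.1.sub (iM2 j)).const_mul (s (lnExcess L W (k.succAbove j)))
      rw [intervalIntegral.integral_add (i1.add i2) (idens.const_mul _),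
        intervalIntegral.integral_add i1 i2, intervalIntegral.integral_const_mul,
        intervalIntegral.integral_const_mul, intervalIntegral.integral_sub (hmom j).2.1 (iM2 j),
        hd1, ← (hmom j).1.2, ← (hmom j).2.2]
      have hU : lnExcess L W (k.succAbove j) = pMean L W
          (fun x => Real.log (x (k.succAbove j)) ^ 2) - lnMean L W (k.succAbove j) ^ 2 - 1 := rfl
      have hle : s (lnExcess L W (k.succAbove j)) ≤ s (lnExcess L W k) :=
        hψ.slope_mono (hnn _) hkU (hk _ (Finset.mem_univ _))
      have hD : 0 ≤ (∫ t in (0 : ℝ)..L, dens L g t * lnMean L (sliceAt W k t) j ^ 2) -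
          lnMean L W (k.succAbove j) ^ 2 := by
        have h := intervalIntegral.integral_nonneg (μ := volume) hL.le
          (f := fun t => dens L g t * lnMean L (sliceAt W k t) j ^ 2 +
            ((-2 * lnMean L W (k.succAbove j)) * (dens L g t * lnMean L (sliceAt W k t) j) +
              lnMean L W (k.succAbove j) ^ 2 * dens L g t)) fun t _ => by
          nlinarith [mul_nonneg (hd0 t)
            (sq_nonneg (lnMean L (sliceAt W k t) j - lnMean L W (k.succAbove j)))]
        rw [intervalIntegral.integral_add (iM2 j) ((i1.const_mul _).add (idens.const_mul _)),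
          intervalIntegral.integral_add (i1.const_mul _) (idens.const_mul _),
          intervalIntegral.integral_const_mul, intervalIntegral.integral_const_mul, hd1,
          ← (hmom j).1.2] at h
        linarith
      rw [hU] at hle ⊢
      nlinarith [mul_le_mul_of_nonneg_right hle hD]
    have hsum := (Finset.sum_le_sum fun j (_ : j ∈ Finset.univ) => hterm j).trans hint
    rw [Finset.sum_sub_distrib, ← Finset.mul_sum] at hsum
    rw [Fin.sum_univ_succAbove _ k]
    nlinarith [mul_le_mul_of_nonneg_left hgap hsk]

end Vale.Agent.P254.Unc
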