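import Vale.Agent.P254.Unc.Bound

/-!
# P254: powers of logarithms on boxes
-/

open MeasureTheory Set

namespace Vale.Agent.P254.Unc

/-- An integrable bound for `|ln x|` and `(ln x)²` on `(0, L]`, stable under small shifts. -/
noncomputable def logBound (L x : ℝ) : ℝ := 1 + 16 * x ^ (-(1 / 2) : ℝ) + Real.log (L + 2) ^ 2

theorem logBound_nonneg {L x : ℝ} (hx : 0 ≤ x) : 0 ≤ logBound L x := by
  have := Real.rpow_nonneg hx (-(1 / 2) : ℝ)
  unfold logBound; positivity

theorem log_sq_le {L x δ : ℝ} (hL : 0 ≤ L) (hx : 0 < x) (hxL : x ≤ L) (h0 : 0 ≤ δ) (h1 : δ ≤ 1) :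
    Real.log (x + δ) ^ 2 + 1 ≤ logBound L x := by
  have hA : 0 ≤ 16 * x ^ (-(1 / 2) : ℝ) := by positivity
  unfold logBound
  rcases le_or_gt (x + δ) 1 with h | h
  · have hy : 0 < x + δ := by linarith
    have hb := Real.abs_log_mul_self_rpow_lt (x + δ) (1 / 4) hy h (by norm_num)
    have hp : 0 < (x + δ) ^ (1 / 4 : ℝ) := Real.rpow_pos_of_pos hy _
    rw [abs_mul, abs_of_pos hp, ← lt_div_iff₀ hp] at hb
    have hsq : Real.log (x + δ) ^ 2 ≤ 16 * (x + δ) ^ (-(1 / 2) : ℝ) := by
      rw [← sq_abs]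
      refine (pow_le_pow_left₀ (abs_nonneg _) hb.le 2).trans_eq ?_
      rw [div_pow, ← Real.rpow_natCast ((x + δ) ^ (1 / 4 : ℝ)) 2, ← Real.rpow_mul hy.le,
        Real.rpow_neg hy.le]
      norm_num
      ring
    have hmono : (x + δ) ^ (-(1 / 2) : ℝ) ≤ x ^ (-(1 / 2) : ℝ) :=
      Real.rpow_le_rpow_of_nonpos hx (by linarith) (by norm_num)
    nlinarith [sq_nonneg (Real.log (L + 2))]
  · have h' : Real.log (x + δ) ≤ Real.log (L + 2) := Real.log_le_log (by linarith) (by linarith)
    nlinarith [Real.log_pos h]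

theorem abs_log_le {L x δ : ℝ} (hL : 0 ≤ L) (hx : 0 < x) (hxL : x ≤ L) (h0 : 0 ≤ δ) (h1 : δ ≤ 1) :
    |Real.log (x + δ)| ≤ logBound L x := by
  refine le_trans ?_ (log_sq_le hL hx hxL h0 h1)
  nlinarith [sq_nonneg (|Real.log (x + δ)| - 1), sq_abs (Real.log (x + δ))]

theorem integrableOn_logBound {L : ℝ} (hL : 0 ≤ L) : IntegrableOn (logBound L) (Icc 0 L) := by
  rw [← intervalIntegrable_iff_integrableOn_Icc_of_le hL]
  exact (intervalIntegrable_const.add
    ((intervalIntegral.intervalIntegrable_rpow' (by norm_num)).const_mul 16)).add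
      intervalIntegrable_const

/-- Fubini over any coordinate of the box. -/
theorem setIntegral_box_insert {δ L : ℝ} {n : ℕ} (k : Fin (n + 1)) {f : (Fin (n + 1) → ℝ) → ℝ}
    (hf : IntegrableOn f (box δ L (n + 1))) :
    IntegrableOn (fun s => ∫ y in box δ L n, f (k.insertNth s y)) (Icc δ L) ∧
      ∫ x in box δ L (n + 1), f x = ∫ s in Icc δ L, ∫ y in box δ L n, f (k.insertNth s y) := by
  have hmp := (volume_preserving_piFinSuccAbove (fun _ : Fin (n + 1) => ℝ) k).symm
  have he : ∀ z : ℝ × (Fin n → ℝ),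
      (MeasurableEquiv.piFinSuccAbove (fun _ : Fin (n + 1) => ℝ) k).symm z = k.insertNth z.1 z.2 :=
    fun z => by simp [MeasurableEquiv.piFinSuccAbove, Fin.insertNthEquiv]
  have he' : (fun z : ℝ × (Fin n → ℝ) => f (k.insertNth z.1 z.2)) =
      f ∘ (MeasurableEquiv.piFinSuccAbove (fun _ : Fin (n + 1) => ℝ) k).symm :=
    funext fun z => congrArg f (he z).symm
  have hpre : (MeasurableEquiv.piFinSuccAbove (fun _ : Fin (n + 1) => ℝ) k).symm ⁻¹'
      box δ L (n + 1) = Icc δ L ×ˢ box δ L n := by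
    ext z
    simp only [mem_preimage, he, box, mem_univ_pi, mem_prod, Fin.forall_iff_succAbove k,
      Fin.insertNth_apply_same, Fin.insertNth_apply_succAbove]
  have h := (hmp.integrableOn_comp_preimage (MeasurableEquiv.measurableEmbedding _)).2 hf
  rw [hpre, Measure.volume_eq_prod] at h
  rw [← hmp.setIntegral_preimage_emb (MeasurableEquiv.measurableEmbedding _), hpre]
  simp only [he]
  refine ⟨?_, setIntegral_prod (fun z : ℝ × (Fin n → ℝ) => f (k.insertNth z.1 z.2))
    (he' ▸ h)⟩
  have h' : Integrable (fun z : ℝ × (Fin n → ℝ) => f (k.insertNth z.1 z.2))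
      ((volume.restrict (Icc δ L)).prod (volume.restrict (box δ L n))) := by
    rw [Measure.prod_restrict, he']
    exact h
  exact h'.integral_prod_left

/-- The bound, at one coordinate, is integrable on the box. -/
theorem integrableOn_logBound_coord {L : ℝ} (hL : 0 ≤ L) {n : ℕ} (i : Fin n) :
    IntegrableOn (fun x => logBound L (x i)) (box 0 L n) := by
  obtain _ | n := n
  · exact i.elim0
  have hmp := (volume_preserving_piFinSuccAbove (fun _ : Fin (n + 1) => ℝ) i)
  have hpre : box (0 : ℝ) L (n + 1) =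
      MeasurableEquiv.piFinSuccAbove (fun _ : Fin (n + 1) => ℝ) i ⁻¹' (Icc 0 L ×ˢ box 0 L n) := by
    ext x
    simp only [box, mem_univ_pi, mem_preimage, mem_prod, Fin.forall_iff_succAbove i,
      MeasurableEquiv.piFinSuccAbove_apply, Fin.insertNthEquiv_symm_apply, Fin.removeNth]
  rw [hpre]
  have hc := (hmp.integrableOn_comp_preimage (MeasurableEquiv.measurableEmbedding _)
    (f := fun z : ℝ × (Fin n → ℝ) => logBound L z.1) (s := Icc 0 L ×ˢ box 0 L n)).2 ?_
  · exact hc
  · rw [Measure.volume_eq_prod, IntegrableOn, ← Measure.prod_restrict]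
    haveI : IsFiniteMeasure (volume.restrict (box (0 : ℝ) L n)) :=
      isFiniteMeasure_restrict.2 (isCompact_box n).measure_lt_top.ne
    simpa using (integrableOn_logBound hL).mul_prod
      (integrable_const (1 : ℝ) : Integrable _ (volume.restrict (box (0 : ℝ) L n)))

theorem ae_box_pos {L : ℝ} {n : ℕ} :
    ∀ᵐ x ∂(volume.restrict (box 0 L n)), ∀ i, 0 < x i := by
  refine ae_all_iff.2 fun i => ?_
  have h1 : ∀ᵐ x : Fin n → ℝ ∂volume, x i ≠ 0 :=
    ae_iff.2 (by simpa [volume_pi] using Measure.pi_hyperplane (fun _ : Fin n => (volume : Measure ℝ)) i 0)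
  filter_upwards [ae_restrict_mem (isCompact_box n).measurableSet, ae_restrict_of_ae h1]
    with x hx hne
  exact lt_of_le_of_ne (hx i trivial).1 (Ne.symm hne)

/-- Continuous functions times logarithmic powers are integrable on the box. -/
theorem integrableOn_mul_log {L : ℝ} (hL : 0 ≤ L) {n : ℕ} (i : Fin n) {g : (Fin n → ℝ) → ℝ}
    (hg : ContinuousOn g (box 0 L n)) {δ : ℝ} (h0 : 0 ≤ δ) (h1 : δ ≤ 1) :
    IntegrableOn (fun x => g x * Real.log (x i + δ)) (box 0 L n) ∧
      IntegrableOn (fun x => g x * Real.log (x i + δ) ^ 2) (box 0 L n) := by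
  obtain ⟨C, hC⟩ := (isCompact_box n).exists_bound_of_continuousOn hg
  have hm : AEStronglyMeasurable g (volume.restrict (box 0 L n)) :=
    hg.aestronglyMeasurable (isCompact_box n).measurableSet
  have hl : Measurable fun x : Fin n → ℝ => Real.log (x i + δ) := by fun_prop
  constructor
  · refine Integrable.mono' ((integrableOn_logBound_coord hL i).const_mul C)
      (hm.mul hl.aestronglyMeasurable) ?_
    filter_upwards [ae_restrict_mem (isCompact_box n).measurableSet, ae_box_pos] with x hx hp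
    show ‖g x * Real.log (x i + δ)‖ ≤ C * logBound L (x i)
    rw [norm_mul, Real.norm_eq_abs (Real.log _)]
    exact mul_le_mul (hC x hx) (abs_log_le hL (hp i) (hx i trivial).2 h0 h1) (abs_nonneg _)
      ((norm_nonneg _).trans (hC x hx))
  · refine Integrable.mono' ((integrableOn_logBound_coord hL i).const_mul C)
      (hm.mul (hl.pow_const 2).aestronglyMeasurable) ?_
    filter_upwards [ae_restrict_mem (isCompact_box n).measurableSet, ae_box_pos] with x hx hp
    show ‖g x * Real.log (x i + δ) ^ 2‖ ≤ C * logBound L (x i)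
    rw [norm_mul, norm_pow, Real.norm_eq_abs (Real.log _), sq_abs]
    exact mul_le_mul (hC x hx) (le_trans (le_add_of_nonneg_right zero_le_one)
      (log_sq_le hL (hp i) (hx i trivial).2 h0 h1)) (sq_nonneg _)
      ((norm_nonneg _).trans (hC x hx))

end Vale.Agent.P254.Unc
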