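import Mathlib

/-!
# P254: the one-dimensional quantities of the unconditional route

A marginal is `exp (-g)` on `[0, L]`, normalised, with `g` of class `C²`, convex and nondecreasing
there. A potential is a function `ψ` of the excess log-variance `Var (log x) - 1` together with a
choice `s` of nonnegative, nondecreasing slopes of supporting lines.
-/

open MeasureTheory Set

namespace Vale.Agent.P254.Unc

/-- A one-dimensional log-concave decreasing profile on `[0, L]`. -/
structure Marg (L : ℝ) (g : ℝ → ℝ) : Prop where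
  pos : 0 < L
  smooth : ContDiff ℝ 2 g
  convex : ConvexOn ℝ (Icc 0 L) g
  mono : MonotoneOn g (Icc 0 L)

/-- The normalising integral. -/
noncomputable def mass (L : ℝ) (g : ℝ → ℝ) : ℝ := ∫ x in (0 : ℝ)..L, Real.exp (-g x)

/-- The normalised density. -/
noncomputable def dens (L : ℝ) (g : ℝ → ℝ) (x : ℝ) : ℝ := Real.exp (-g x) / mass L g

/-- The survival function. -/
noncomputable def tail (L : ℝ) (g : ℝ → ℝ) (x : ℝ) : ℝ := ∫ t in x..L, dens L g t

/-- The mean of `log x`. -/
noncomputable def logMean (L : ℝ) (g : ℝ → ℝ) : ℝ :=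
  ∫ x in (0 : ℝ)..L, dens L g x * Real.log x

/-- The variance of `log x`, minus one. -/
noncomputable def logExcess (L : ℝ) (g : ℝ → ℝ) : ℝ :=
  (∫ x in (0 : ℝ)..L, dens L g x * Real.log x ^ 2) - logMean L g ^ 2 - 1

/-- The second moment. -/
noncomputable def sndMoment (L : ℝ) (g : ℝ → ℝ) : ℝ := ∫ x in (0 : ℝ)..L, dens L g x * x ^ 2

/-- The differential entropy. -/
noncomputable def entropy (L : ℝ) (g : ℝ → ℝ) : ℝ :=
  ∫ x in (0 : ℝ)..L, dens L g x * (g x + Real.log (mass L g))

/-- The weight of the Poincaré inequality `Var φ ≤ ∫ weight * φ'²`. -/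
noncomputable def weight (L : ℝ) (g : ℝ → ℝ) (x : ℝ) : ℝ :=
  -(tail L g x ^ 2 * Real.log (tail L g x)) / dens L g x

/-- The weighted curvature. -/
noncomputable def curvI (L : ℝ) (g : ℝ → ℝ) : ℝ :=
  ∫ x in (0 : ℝ)..L, weight L g x * deriv (deriv g) x

/-- A potential with a choice of supporting slopes. -/
structure Pot (ψ s : ℝ → ℝ) : Prop where
  support : ∀ u v, 0 ≤ u → 0 ≤ v → ψ u + s u * (v - u) ≤ ψ v
  slope_nonneg : ∀ u, 0 ≤ u → 0 ≤ s u
  slope_mono : MonotoneOn s (Ici 0)

/-- The slicing inequality in one variable. -/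
def StepIneq (ψ s : ℝ → ℝ) : Prop :=
  ∀ L g, Marg L g →
    logMean L g + ψ (logExcess L g) + 2 * s (logExcess L g) * curvI L g ≤ entropy L g

/-- The conversion to second moments, with margin `m`. -/
def ConvIneq (ψ : ℝ → ℝ) (m : ℝ) : Prop :=
  ∀ L g, Marg L g →
    Real.log (sndMoment L g) / 2 + 1 - Real.log 2 + m ≤ logMean L g + ψ (logExcess L g)

end Vale.Agent.P254.Unc
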