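import Vale.Agent.P254.Unc.Marg

/-!
# P254: calculus of a one-dimensional profile, and the weighted Poincaré inequality

The Poincaré inequality compares the variance of the truncated measure on `[0, T]` with an explicit
function of `T` having the larger derivative.
-/

open MeasureTheory Set Real intervalIntegral

namespace Vale.Agent.P254.Unc

variable {L : ℝ} {g : ℝ → ℝ}

theorem Marg.cont (h : Marg L g) : Continuous g := h.smooth.continuous

theorem Marg.mass_pos (h : Marg L g) : 0 < mass L g :=
  intervalIntegral_pos_of_pos ((Real.continuous_exp.comp h.cont.neg).intervalIntegrable 0 L)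
    (fun _ => exp_pos _) h.pos

theorem Marg.dens_pos (h : Marg L g) (x : ℝ) : 0 < dens L g x := div_pos (exp_pos _) h.mass_pos

theorem Marg.cont_dens (h : Marg L g) : Continuous (dens L g) :=
  (Real.continuous_exp.comp h.cont.neg).div_const _

theorem Marg.dens_int (h : Marg L g) (a b : ℝ) : IntervalIntegrable (dens L g) volume a b :=
  h.cont_dens.intervalIntegrable a b

theorem Marg.integral_dens (h : Marg L g) : ∫ x in (0 : ℝ)..L, dens L g x = 1 := by
  simp only [dens, intervalIntegral.integral_div]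
  exact div_self h.mass_pos.ne'

theorem tail_top : tail L g L = 0 := integral_same

theorem Marg.tail_zero (h : Marg L g) : tail L g 0 = 1 := h.integral_dens

theorem Marg.hasDerivAt_tail (h : Marg L g) (x : ℝ) : HasDerivAt (tail L g) (-dens L g x) x :=
  integral_hasDerivAt_left (h.dens_int x L) (h.cont_dens.stronglyMeasurableAtFilter _ _)
    h.cont_dens.continuousAt

theorem Marg.cont_tail (h : Marg L g) : Continuous (tail L g) :=
  continuous_iff_continuousAt.2 fun x => (h.hasDerivAt_tail x).continuousAt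

theorem Marg.tail_pos (h : Marg L g) {x : ℝ} (hx : x < L) : 0 < tail L g x :=
  intervalIntegral_pos_of_pos (h.dens_int x L) h.dens_pos hx

theorem Marg.tail_strictAnti (h : Marg L g) {x y : ℝ} (hxy : x < y) :
    tail L g y < tail L g x := by
  have := integral_add_adjacent_intervals (h.dens_int x y) (h.dens_int y L)
  have := intervalIntegral_pos_of_pos (h.dens_int x y) h.dens_pos hxy
  simp only [tail]
  linarith

theorem Marg.tail_nonneg (h : Marg L g) {x : ℝ} (hx : x ≤ L) : 0 ≤ tail L g x :=
  intervalIntegral.integral_nonneg hx fun t _ => (h.dens_pos t).le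

theorem Marg.tail_le_one (h : Marg L g) {x : ℝ} (hx : 0 ≤ x) : tail L g x ≤ 1 := by
  rcases hx.eq_or_lt with rfl | hx
  · exact h.tail_zero.le
  · exact h.tail_zero ▸ (h.tail_strictAnti hx).le

/-- The clock `-ln S`. -/
noncomputable def clock (L : ℝ) (g : ℝ → ℝ) (x : ℝ) : ℝ := -Real.log (tail L g x)

theorem Marg.hasDerivAt_clock (h : Marg L g) {x : ℝ} (hx : x < L) :
    HasDerivAt (clock L g) (dens L g x / tail L g x) x :=
  ((h.hasDerivAt_tail x).log (h.tail_pos hx).ne').fun_neg.congr_deriv (by ring)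

theorem Marg.clock_nonneg (h : Marg L g) {x : ℝ} (h0 : 0 ≤ x) (hx : x ≤ L) : 0 ≤ clock L g x :=
  neg_nonneg.2 (log_nonpos (h.tail_nonneg hx) (h.tail_le_one h0))

/-- The distribution function. -/
noncomputable def cdf (L : ℝ) (g : ℝ → ℝ) (x : ℝ) : ℝ := 1 - tail L g x

theorem Marg.hasDerivAt_cdf (h : Marg L g) (x : ℝ) : HasDerivAt (cdf L g) (dens L g x) x :=
  ((h.hasDerivAt_tail x).const_sub 1).congr_deriv (neg_neg _)

theorem Marg.cont_cdf (h : Marg L g) : Continuous (cdf L g) := continuous_const.sub h.cont_tail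

/-- The integral of `clock` against the density up to `x`, in closed form. -/
noncomputable def clockMass (L : ℝ) (g : ℝ → ℝ) (x : ℝ) : ℝ :=
  1 - tail L g x + tail L g x * Real.log (tail L g x)

theorem Marg.cont_clockMass (h : Marg L g) : Continuous (clockMass L g) :=
  (continuous_const.sub h.cont_tail).add (continuous_mul_log.comp h.cont_tail)

theorem Marg.hasDerivAt_clockMass (h : Marg L g) {x : ℝ} (hx : x < L) :
    HasDerivAt (clockMass L g) (dens L g x * clock L g x) x := by
  have := ((h.hasDerivAt_tail x).const_sub 1).fun_add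
    ((h.hasDerivAt_tail x).fun_mul ((h.hasDerivAt_tail x).log (h.tail_pos hx).ne'))
  refine this.congr_deriv ?_
  have := (h.tail_pos hx).ne'
  rw [clock]
  field_simp
  ring

/-- Comparison of a function with two monotone controls. -/
theorem sq_sub_le_mul {φ G K φ' G' K' : ℝ → ℝ} {a b : ℝ} (hab : a < b)
    (cφ : ContinuousOn φ (Icc a b)) (cG : ContinuousOn G (Icc a b)) (cK : ContinuousOn K (Icc a b))
    (dφ : ∀ x ∈ Ioo a b, HasDerivAt φ (φ' x) x) (dG : ∀ x ∈ Ioo a b, HasDerivAt G (G' x) x)
    (dK : ∀ x ∈ Ioo a b, HasDerivAt K (K' x) x) (hG' : ∀ x ∈ Ioo a b, 0 < G' x)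
    (hsq : ∀ x ∈ Ioo a b, φ' x ^ 2 = G' x * K' x) :
    (φ b - φ a) ^ 2 ≤ (G b - G a) * (K b - K a) := by
  have hK' : ∀ x ∈ Ioo a b, 0 ≤ K' x := fun x hx =>
    (mul_nonneg_iff_of_pos_left (hG' x hx)).1 (hsq x hx ▸ sq_nonneg _)
  have mono : ∀ {u u' : ℝ → ℝ}, ContinuousOn u (Icc a b) →
      (∀ x ∈ Ioo a b, HasDerivAt u (u' x) x) → (∀ x ∈ Ioo a b, 0 ≤ u' x) → u a ≤ u b :=
    fun hc hd hp => monotoneOn_of_hasDerivWithinAt_nonneg (convex_Icc a b) hc
      (fun x hx => (hd x (by rwa [interior_Icc] at hx)).hasDerivWithinAt)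
      (fun x hx => hp x (by rwa [interior_Icc] at hx))
      (left_mem_Icc.2 hab.le) (right_mem_Icc.2 hab.le) hab.le
  have key : ∀ l σ : ℝ, 0 < l → (σ = 1 ∨ σ = -1) →
      2 * σ * (φ b - φ a) ≤ l * (G b - G a) + (K b - K a) / l := by
    intro l σ hl hσ
    have := mono (u := fun x => l * G x + K x / l - 2 * σ * φ x)
      (u' := fun x => l * G' x + K' x / l - 2 * σ * φ' x)
      (((continuousOn_const.mul cG).add (cK.div_const _)).sub (continuousOn_const.mul cφ))
      (fun x hx => ((((dG x hx).const_mul l)).fun_add ((dK x hx).div_const l)).fun_sub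
        ((dφ x hx).const_mul (2 * σ))) fun x hx => by
        have e := hsq x hx
        have := hG' x hx
        have hs : σ ^ 2 = 1 := by rcases hσ with rfl | rfl <;> norm_num
        have h1 : (2 * σ * φ' x) ^ 2 ≤ (l * G' x + K' x / l) ^ 2 := by
          have h2 : l * G' x * (K' x / l) = G' x * K' x := by field_simp
          nlinarith [sq_nonneg (l * G' x - K' x / l)]
        have h3 := sq_le_sq.1 h1
        have h4 := le_abs_self (2 * σ * φ' x)
        have h5 : 0 ≤ l * G' x + K' x / l := by have := hK' x hx; positivity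
        rw [abs_of_nonneg h5] at h3
        linarith
    rw [sub_div]
    linarith
  have hG : G a < G b := by
    by_contra hcon
    obtain ⟨c, hc, e⟩ := exists_hasDerivAt_eq_slope G G' hab cG dG
    have := hG' c hc
    rw [e] at this
    have := (lt_div_iff₀ (sub_pos.2 hab)).1 this
    linarith [not_lt.1 hcon]
  rcases eq_or_ne (φ b - φ a) 0 with hd | hd
  · have hK : K a ≤ K b := mono cK dK hK'
    rw [hd]; nlinarith
  · have hl : 0 < |φ b - φ a| / (G b - G a) := div_pos (abs_pos.2 hd) (sub_pos.2 hG)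
    have h2 : 2 * |φ b - φ a| ≤ |φ b - φ a| / (G b - G a) * (G b - G a) +
        (K b - K a) / (|φ b - φ a| / (G b - G a)) := by
      rcases abs_choice (φ b - φ a) with e | e
      · have := key _ 1 hl (Or.inl rfl); linarith
      · have := key _ (-1) hl (Or.inr rfl); linarith
    rw [div_mul_cancel₀ _ (sub_pos.2 hG).ne', div_div_eq_mul_div] at h2
    have h3 : |φ b - φ a| * |φ b - φ a| ≤ (K b - K a) * (G b - G a) :=
      (le_div_iff₀ (abs_pos.2 hd)).1 (by linarith)
    rw [← sq_abs]; nlinarith

end Vale.Agent.P254.Unc
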