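import Vale.Agent.P254.Unc.OneDimLog

/-!
# P254: calibrations for the slicing inequality in one variable

A function `W (z, r)` whose derivative along the flow `z' = f/S`, `r' = (f/S)(1 + β r)` dominates the
integrand turns the inequality for all profiles into a pointwise one. No bound on the derivatives of
`W` is needed: a derivative bounded below by an integrable function is integrable.
-/

open MeasureTheory Set Real intervalIntegral Filter
open scoped Topology

namespace Vale.Agent.P254.Unc

variable {L : ℝ} {g : ℝ → ℝ}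

/-- The range of the variables `(z, r)`. -/
def calibDom : Set (ℝ × ℝ) := {p | 0 ≤ p.1 ∧ p.1 ≤ p.2 ∧ p.2 ≤ exp p.1 - 1}

/-- A calibration for the slope pair `(κ, s)` with constant `K`. -/
structure Calib (W Wz Wr : ℝ → ℝ → ℝ) (κ s K : ℝ) : Prop where
  cont : ContinuousOn (Function.uncurry W) calibDom
  growth : ∃ (C : ℝ) (k : ℕ), ∀ p ∈ calibDom, |W p.1 p.2| ≤ C * (1 + p.1) ^ k
  deriv : ∀ z r, 0 < z → z ≤ r → r ≤ exp z - 1 →
    HasFDerivAt (Function.uncurry W)
      (Wz z r • ContinuousLinearMap.fst ℝ ℝ ℝ + Wr z r • ContinuousLinearMap.snd ℝ ℝ ℝ) (z, r)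
  ineq : ∀ z r β, 0 < z → z ≤ r → r ≤ exp z - 1 → 0 ≤ β → β ≤ 1 →
    K ≤ -Real.log r - κ * Omega z r - 2 * s * (β - z * β ^ 2) +
      (Wz z r + Wr z r * (1 + β * r) - W z r)

theorem Marg.mem_calibDom (h : Marg L g) {x : ℝ} (h0 : 0 ≤ x) (hx : x < L) :
    (clock L g x, reach L g x) ∈ calibDom :=
  ⟨h.clock_nonneg h0 hx.le, h.clock_le_reach h0 hx, h.reach_le h0 hx⟩

theorem Marg.tendsto_clock (h : Marg L g) : Tendsto (clock L g) (𝓝[<] L) atTop := by
  refine tendsto_neg_atBot_atTop.comp (tendsto_log_nhdsGT_zero.comp ?_)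
  refine tendsto_nhdsWithin_of_tendsto_nhds_of_eventually_within _ ?_ ?_
  · simpa [tail_top] using (h.cont_tail.tendsto L).mono_left nhdsWithin_le_nhds
  · filter_upwards [self_mem_nhdsWithin] with x hx using h.tail_pos hx

/-- Calibration bounds the linearised step functional. -/
theorem Calib.le {W Wz Wr : ℝ → ℝ → ℝ} {κ s K : ℝ} (hW : Calib W Wz Wr κ s K) (h : Marg L g) :
    K + W 0 0 ≤ entropy L g - logMean L g - 1 -
      κ * (∫ x in (0 : ℝ)..L, dens L g x * Omega (clock L g x) (reach L g x)) -
      2 * s * curvI L g := by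
  obtain ⟨C, k, hC⟩ := hW.growth
  have hL := h.pos
  set low : ℝ → ℝ := fun x => K * dens L g x + dens L g x * Real.log (reach L g x) +
    κ * (dens L g x * Omega (clock L g x) (reach L g x)) +
    2 * s * (dens L g x * (betaF L g x - clock L g x * betaF L g x ^ 2)) with hlow
  have ilow : IntervalIntegrable low volume 0 L :=
    ((((h.dens_int 0 L).const_mul K).add h.log_reach_int).add (h.Omega_int.const_mul κ)).add
      (h.step_term_int.const_mul (2 * s))
  set J : ℝ → ℝ := fun x => tail L g x * W (clock L g x) (reach L g x) with hJ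
  set e : ℝ → ℝ := fun x => dens L g x * (Wz (clock L g x) (reach L g x) +
    Wr (clock L g x) (reach L g x) * (1 + betaF L g x * reach L g x) -
      W (clock L g x) (reach L g x)) with he
  have dJ : ∀ x ∈ Ioo 0 L, HasDerivAt J (e x) x := by
    intro x hx
    have hd := hW.deriv _ _ (h.clock_pos hx.1 hx.2) (h.clock_le_reach hx.1.le hx.2)
      (h.reach_le hx.1.le hx.2)
    have hc := hd.comp_hasDerivAt x ((h.hasDerivAt_clock hx.2).prodMk (h.hasDerivAt_reach hx.2))
    refine ((h.hasDerivAt_tail x).fun_mul hc).congr_deriv ?_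
    have := (h.tail_pos hx.2).ne'
    simp [he, Function.uncurry]
    field_simp
    ring
  have cJ : ContinuousOn J (Icc 0 L) := by
    intro x hx
    rcases hx.2.eq_or_lt with rfl | hxL
    · have hJL : J x = 0 := by simp [hJ, tail_top]
      have hsub : ContinuousWithinAt J (Icc 0 x \ {x}) x := by
        rw [ContinuousWithinAt, hJL]
        refine squeeze_zero_norm' (a := fun y => exp 1 * |C| *
          ((1 + clock x g y) ^ k * exp (-(1 + clock x g y)))) ?_ ?_
        · filter_upwards [self_mem_nhdsWithin] with y hy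
          have hyx : y < x := lt_of_le_of_ne hy.1.2 hy.2
          have hb := hC _ (h.mem_calibDom hy.1.1 hyx)
          have hz : 0 ≤ clock x g y := h.clock_nonneg hy.1.1 hy.1.2
          rw [Real.norm_eq_abs, abs_mul, abs_of_pos (h.tail_pos hyx)]
          calc tail x g y * |W (clock x g y) (reach x g y)|
              ≤ tail x g y * (|C| * (1 + clock x g y) ^ k) :=
                mul_le_mul_of_nonneg_left (hb.trans (mul_le_mul_of_nonneg_right (le_abs_self C)
                  (pow_nonneg (by linarith) k))) (h.tail_pos hyx).le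
            _ = exp 1 * |C| * ((1 + clock x g y) ^ k * exp (-(1 + clock x g y))) := by
                rw [← h.exp_neg_clock hyx, neg_add, exp_add]
                have : exp 1 * exp (-1) = 1 := by rw [← exp_add]; simp
                linear_combination -(exp (-clock x g y) * |C| * (1 + clock x g y) ^ k) * this
        · have hle : 𝓝[Icc 0 x \ {x}] x ≤ 𝓝[<] x :=
            nhdsWithin_mono x fun y hy => lt_of_le_of_ne hy.1.2 hy.2
          have ht : Tendsto (fun y => 1 + clock x g y) (𝓝[Icc 0 x \ {x}] x) atTop :=
            tendsto_atTop_add_const_left _ 1 (h.tendsto_clock.mono_left hle)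
          simpa using ((tendsto_pow_mul_exp_neg_atTop_nhds_zero k).comp ht).const_mul (exp 1 * |C|)
      exact continuousWithinAt_sdiff_self.1 hsub
    · have hz : ContinuousAt (fun y => (clock L g y, reach L g y)) x :=
        (h.hasDerivAt_clock hxL).continuousAt.prodMk (h.hasDerivAt_reach hxL).continuousAt
      have hm : MapsTo (fun y => (clock L g y, reach L g y)) (Icc 0 L ∩ Iio L) calibDom :=
        fun y hy => h.mem_calibDom hy.1.1 hy.2
      have := h.cont_tail.continuousWithinAt.mul
        (ContinuousWithinAt.comp (g := Function.uncurry W)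
          (f := fun y => (clock L g y, reach L g y)) (hW.cont _ (h.mem_calibDom hx.1 hxL))
          hz.continuousWithinAt hm)
      exact (continuousWithinAt_inter (Iio_mem_nhds hxL)).1 this
  have hpos : ∀ x ∈ Ioo 0 L, 0 ≤ e x - low x := by
    intro x hx
    have hi := hW.ineq _ _ (betaF L g x) (h.clock_pos hx.1 hx.2) (h.clock_le_reach hx.1.le hx.2)
      (h.reach_le hx.1.le hx.2) (h.betaF_mem (Ioo_subset_Icc_self hx)).1
      (h.betaF_mem (Ioo_subset_Icc_self hx)).2
    have := mul_le_mul_of_nonneg_left hi (h.dens_pos x).le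
    simp only [he, hlow]
    linarith
  have clow : ContinuousOn (fun u => ∫ x in (0 : ℝ)..u, low x) (Icc 0 L) :=
    continuousOn_primitive' hL.le ilow
  have conlow : ContinuousOn low (Ioo 0 L) := by
    have c1 : ContinuousOn (clock L g) (Ioo 0 L) := fun x hx =>
      (h.hasDerivAt_clock hx.2).continuousAt.continuousWithinAt
    have c2 : ContinuousOn (reach L g) (Ioo 0 L) := fun x hx =>
      (h.hasDerivAt_reach hx.2).continuousAt.continuousWithinAt
    have cd := h.cont_dens.continuousOn (s := Ioo 0 L)
    have cΩ : ContinuousOn (fun x => dens L g x * Omega (clock L g x) (reach L g x)) (Ioo 0 L) :=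
      ((continuousOn_const.mul (((continuous_mul_log.comp h.cont_cdf).neg.continuousOn).mul
        h.cont_lnRatio')).add (h.cont_weight.continuousOn.mul (h.cont_lnRatio'.pow 2))).congr
        fun x hx => h.dens_mul_Omega hx
    exact (((continuousOn_const.mul cd).add (cd.mul (c2.log fun x hx =>
      (h.reach_pos hx.1 hx.2).ne'))).add (continuousOn_const.mul cΩ)).add (continuousOn_const.mul
        (cd.mul (h.cont_betaF.continuousOn.sub (c1.mul (h.cont_betaF.continuousOn.pow 2)))))
  obtain ⟨hi, heq⟩ := integral_deriv_of_nonneg (Φ := fun u => J u - ∫ x in (0 : ℝ)..u, low x)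
    hL.le (cJ.sub clow)
    (fun x hx => (dJ x hx).fun_sub (hasDerivAt_primitive ilow conlow hx)) hpos
  have hn : 0 ≤ ∫ x in (0 : ℝ)..L, (e x - low x) := by
    rw [integral_of_le hL.le, integral_Ioc_eq_integral_Ioo]
    exact setIntegral_nonneg measurableSet_Ioo hpos
  rw [heq] at hn
  have c0 : clock L g 0 = 0 := by simp [clock, h.tail_zero]
  have r0 : reach L g 0 = 0 := by simp [reach]
  have hval : ∫ x in (0 : ℝ)..L, low x = K + (∫ x in (0 : ℝ)..L, dens L g x * Real.log (reach L g x)) +
      κ * (∫ x in (0 : ℝ)..L, dens L g x * Omega (clock L g x) (reach L g x)) +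
      2 * s * curvI L g := by
    simp only [hlow]
    rw [intervalIntegral.integral_add ((((h.dens_int 0 L).const_mul K).add h.log_reach_int).add
        (h.Omega_int.const_mul κ)) (h.step_term_int.const_mul (2 * s)),
      intervalIntegral.integral_add (((h.dens_int 0 L).const_mul K).add h.log_reach_int)
        (h.Omega_int.const_mul κ),
      intervalIntegral.integral_add ((h.dens_int 0 L).const_mul K) h.log_reach_int,
      intervalIntegral.integral_const_mul, intervalIntegral.integral_const_mul,
      intervalIntegral.integral_const_mul, h.integral_dens, curvI_eq h, mul_one]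
  simp only [hJ, tail_top, zero_mul, h.tail_zero, one_mul, c0, r0, integral_same, sub_zero, hval] at hn
  linarith [entropy_sub_logMean h]

theorem curvI_nonneg (h : Marg L g) : 0 ≤ curvI L g := by
  rw [curvI, integral_of_le h.pos.le, integral_Ioc_eq_integral_Ioo]
  refine setIntegral_nonneg measurableSet_Ioo fun x hx => mul_nonneg ?_ ?_
  · refine div_nonneg (neg_nonneg.2 (mul_nonpos_of_nonneg_of_nonpos (sq_nonneg _) ?_)) (h.dens_pos x).le
    exact log_nonpos (h.tail_nonneg hx.2.le) (h.tail_le_one hx.1.le)
  · have := h.deriv_mono.derivWithin_nonneg (x := x)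
    rwa [derivWithin_of_mem_nhds (Icc_mem_nhds hx.1 hx.2)] at this

/-- **Reduction of the step inequality to pointwise inequalities**: for every value `u` of the excess
some calibrated line is above `ψ u` and has slope at least `s u` against the curvature. -/
theorem stepIneq_of_calib {ψ s : ℝ → ℝ}
    (H : ∀ u, 0 ≤ u → ∃ (W Wz Wr : ℝ → ℝ → ℝ) (κ σ K : ℝ), Calib W Wz Wr κ σ K ∧ 0 ≤ κ ∧ s u ≤ σ ∧
      ψ u ≤ 1 + K + W 0 0 + κ * u) :
    StepIneq ψ s := by
  intro L g h
  obtain ⟨W, Wz, Wr, κ, σ, K, hW, hκ, hs, hψ⟩ := H _ h.excess_nonneg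
  have h1 := hW.le h
  have h2 := mul_le_mul_of_nonneg_left (logExcess_le h) hκ
  have h3 := mul_le_mul_of_nonneg_right hs (curvI_nonneg h)
  linarith

end Vale.Agent.P254.Unc
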