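import Vale.Agent.P254.Unc.OneDimPoincare

/-!
# P254: the variables `z`, `r`, `β` of a log-concave decreasing profile

`z = -ln S`, `r = x f / S` and `β = 1 - S g' / f` satisfy `z ≤ r ≤ eᶻ - 1`, `0 ≤ β ≤ 1`,
`z' = f / S` and `r' = (f / S) (1 + β r)`.
-/

open MeasureTheory Set Real intervalIntegral

namespace Vale.Agent.P254.Unc

variable {L : ℝ} {g : ℝ → ℝ}

/-- The ratio of `x` to the reciprocal hazard rate. -/
noncomputable def reach (L : ℝ) (g : ℝ → ℝ) (x : ℝ) : ℝ := x * dens L g x / tail L g x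

/-- The logarithmic growth rate of the hazard rate in the clock. -/
noncomputable def betaF (L : ℝ) (g : ℝ → ℝ) (x : ℝ) : ℝ :=
  1 - tail L g x * deriv g x / dens L g x

theorem Marg.hasDerivAt_g (h : Marg L g) (x : ℝ) : HasDerivAt g (deriv g x) x :=
  (h.smooth.differentiable (by norm_num) x).hasDerivAt

theorem Marg.cont_deriv (h : Marg L g) : Continuous (deriv g) :=
  h.smooth.continuous_deriv (by norm_num)

theorem Marg.hasDerivAt_deriv (h : Marg L g) (x : ℝ) :
    HasDerivAt (deriv g) (deriv (deriv g) x) x := by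
  have h2 : ContDiff ℝ 1 (deriv g) :=
    ((contDiff_succ_iff_deriv (n := 1)).1 (by exact_mod_cast h.smooth)).2.2
  exact (h2.differentiable (by norm_num) x).hasDerivAt

theorem Marg.cont_deriv2 (h : Marg L g) : Continuous (deriv (deriv g)) :=
  (((contDiff_succ_iff_deriv (n := 1)).1 (by exact_mod_cast h.smooth)).2.2).continuous_deriv le_rfl

theorem Marg.hasDerivAt_dens (h : Marg L g) (x : ℝ) :
    HasDerivAt (dens L g) (-(deriv g x * dens L g x)) x :=
  (((h.hasDerivAt_g x).fun_neg.exp).div_const _).congr_deriv (by simp only [dens]; ring)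

theorem Marg.deriv_nonneg (h : Marg L g) {x : ℝ} (hx : x ∈ Icc 0 L) : 0 ≤ deriv g x := by
  rw [← ((h.hasDerivAt_g x).hasDerivWithinAt.derivWithin (uniqueDiffOn_Icc h.pos x hx))]
  exact h.mono.derivWithin_nonneg

theorem Marg.deriv_mono (h : Marg L g) : MonotoneOn (deriv g) (Icc 0 L) :=
  h.convex.monotoneOn_deriv fun x _ => (h.hasDerivAt_g x).differentiableAt

theorem Marg.dens_anti (h : Marg L g) : AntitoneOn (dens L g) (Icc 0 L) := fun _ hx _ hy hxy =>
  div_le_div_of_nonneg_right (exp_le_exp.2 (neg_le_neg (h.mono hx hy hxy))) h.mass_pos.le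

theorem Marg.integral_deriv_mul_dens (h : Marg L g) (a b : ℝ) :
    ∫ t in a..b, deriv g t * dens L g t = dens L g a - dens L g b := by
  have := integral_eq_sub_of_hasDerivAt (a := a) (b := b) (f := fun t => -dens L g t)
    (f' := fun t => deriv g t * dens L g t)
    (fun t _ => (h.hasDerivAt_dens t).fun_neg.congr_deriv (neg_neg _))
    ((h.cont_deriv.mul h.cont_dens).intervalIntegrable a b)
  rw [this]; ring

/-- The hazard rate increases. -/
theorem Marg.tail_mul_deriv_le (h : Marg L g) {x : ℝ} (hx : x ∈ Icc 0 L) :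
    tail L g x * deriv g x ≤ dens L g x := by
  have h1 : ∫ t in x..L, deriv g x * dens L g t ≤ ∫ t in x..L, deriv g t * dens L g t :=
    integral_mono_on hx.2 ((continuous_const.mul h.cont_dens).intervalIntegrable _ _)
      ((h.cont_deriv.mul h.cont_dens).intervalIntegrable _ _) fun t ht =>
        mul_le_mul_of_nonneg_right (h.deriv_mono hx ⟨hx.1.trans ht.1, ht.2⟩ ht.1) (h.dens_pos t).le
  rw [intervalIntegral.integral_const_mul, h.integral_deriv_mul_dens] at h1
  have := h.dens_pos L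
  simp only [tail]
  linarith

theorem Marg.betaF_mem (h : Marg L g) {x : ℝ} (hx : x ∈ Icc 0 L) : betaF L g x ∈ Icc 0 1 := by
  refine ⟨sub_nonneg.2 ((div_le_one (h.dens_pos x)).2 (h.tail_mul_deriv_le hx)), sub_le_self _ ?_⟩
  exact div_nonneg (mul_nonneg (h.tail_nonneg hx.2) (h.deriv_nonneg hx)) (h.dens_pos x).le

theorem Marg.cont_betaF (h : Marg L g) : Continuous (betaF L g) :=
  continuous_const.sub ((h.cont_tail.mul h.cont_deriv).div h.cont_dens fun x => (h.dens_pos x).ne')

theorem Marg.integral_dens_upto (h : Marg L g) (x : ℝ) :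
    ∫ t in (0 : ℝ)..x, dens L g t = cdf L g x := by
  have := integral_add_adjacent_intervals (h.dens_int 0 x) (h.dens_int x L)
  have := h.integral_dens
  simp only [cdf, tail] at *
  linarith

/-- The density decreases. -/
theorem Marg.mul_dens_le_cdf (h : Marg L g) {x : ℝ} (hx : x ∈ Icc 0 L) :
    x * dens L g x ≤ cdf L g x := by
  rw [← h.integral_dens_upto]
  have h1 : ∫ _ in (0 : ℝ)..x, dens L g x ≤ ∫ t in (0 : ℝ)..x, dens L g t :=
    integral_mono_on hx.1 (continuous_const.intervalIntegrable _ _) (h.dens_int _ _) fun t ht =>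
      h.dens_anti ⟨ht.1, ht.2.trans hx.2⟩ hx ht.2
  simpa [mul_comm] using h1

theorem Marg.cdf_pos (h : Marg L g) {x : ℝ} (hx : 0 < x) : 0 < cdf L g x := by
  rw [← h.integral_dens_upto]
  exact intervalIntegral_pos_of_pos (h.dens_int _ _) h.dens_pos hx

theorem cdf_le_one_of (h : Marg L g) {x : ℝ} (hx : x ≤ L) : cdf L g x ≤ 1 := by
  have := h.tail_nonneg hx; simp only [cdf]; linarith

theorem Marg.exp_neg_clock (h : Marg L g) {x : ℝ} (hx : x < L) :
    exp (-clock L g x) = tail L g x := by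
  rw [clock, neg_neg, exp_log (h.tail_pos hx)]

theorem Marg.hasDerivAt_reach (h : Marg L g) {x : ℝ} (hx : x < L) :
    HasDerivAt (reach L g)
      (dens L g x / tail L g x * (1 + betaF L g x * reach L g x)) x := by
  refine (((hasDerivAt_id' x).fun_mul (h.hasDerivAt_dens x)).fun_div (h.hasDerivAt_tail x)
    (h.tail_pos hx).ne').congr_deriv ?_
  have := (h.tail_pos hx).ne'
  have := (h.dens_pos x).ne'
  simp only [betaF, reach]
  field_simp
  ring

theorem Marg.reach_nonneg (h : Marg L g) {x : ℝ} (h0 : 0 ≤ x) (hx : x ≤ L) : 0 ≤ reach L g x :=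
  div_nonneg (mul_nonneg h0 (h.dens_pos x).le) (h.tail_nonneg hx)

theorem Marg.clock_le_reach (h : Marg L g) {x : ℝ} (h0 : 0 ≤ x) (hx : x < L) :
    clock L g x ≤ reach L g x := by
  have hd : ∀ y ∈ Icc 0 x, HasDerivAt (fun y => reach L g y - clock L g y)
      (dens L g y / tail L g y * (betaF L g y * reach L g y)) y := fun y hy =>
    ((h.hasDerivAt_reach (hy.2.trans_lt hx)).fun_sub
      (h.hasDerivAt_clock (hy.2.trans_lt hx))).congr_deriv (by ring)
  have := monotoneOn_of_hasDerivWithinAt_nonneg (convex_Icc 0 x)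
    (fun y hy => (hd y hy).continuousAt.continuousWithinAt)
    (fun y hy => (hd y (interior_subset hy)).hasDerivWithinAt)
    (fun y hy => by
      obtain ⟨a, b⟩ := interior_subset hy
      exact mul_nonneg (div_nonneg (h.dens_pos y).le (h.tail_nonneg (b.trans hx.le)))
        (mul_nonneg (h.betaF_mem ⟨a, b.trans hx.le⟩).1 (h.reach_nonneg a (b.trans hx.le))))
    (left_mem_Icc.2 h0) (right_mem_Icc.2 h0) h0
  simp only [reach, clock, h.tail_zero, zero_mul, zero_div, Real.log_one, neg_zero, sub_zero] at this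
  simp only [reach, clock]
  linarith

theorem Marg.reach_le (h : Marg L g) {x : ℝ} (h0 : 0 ≤ x) (hx : x < L) :
    reach L g x ≤ exp (clock L g x) - 1 := by
  rw [clock, exp_neg, exp_log (h.tail_pos hx), reach, div_le_iff₀ (h.tail_pos hx), sub_mul,
    inv_mul_cancel₀ (h.tail_pos hx).ne', one_mul]
  exact h.mul_dens_le_cdf ⟨h0, hx.le⟩

theorem Marg.reach_pos (h : Marg L g) {x : ℝ} (h0 : 0 < x) (hx : x < L) : 0 < reach L g x :=
  div_pos (mul_pos h0 (h.dens_pos x)) (h.tail_pos hx)

theorem Marg.clock_pos (h : Marg L g) {x : ℝ} (h0 : 0 < x) (hx : x < L) : 0 < clock L g x :=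
  neg_pos.2 (log_neg (h.tail_pos hx) (h.tail_zero ▸ h.tail_strictAnti h0))

/-- Integrals only see the open interval. -/
theorem integral_congr_Ioo {F G : ℝ → ℝ} (hL : 0 ≤ L) (e : EqOn F G (Ioo 0 L)) :
    ∫ x in (0 : ℝ)..L, F x = ∫ x in (0 : ℝ)..L, G x := by
  rw [integral_of_le hL, integral_of_le hL, integral_Ioc_eq_integral_Ioo, integral_Ioc_eq_integral_Ioo]
  exact setIntegral_congr_fun measurableSet_Ioo e

theorem intervalIntegrable_congr_Ioo {F G : ℝ → ℝ} (hL : 0 ≤ L)
    (hG : IntervalIntegrable G volume 0 L) (e : EqOn F G (Ioo 0 L)) :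
    IntervalIntegrable F volume 0 L := by
  rw [intervalIntegrable_iff_integrableOn_Ioo_of_le hL] at hG ⊢
  exact hG.congr_fun e.symm measurableSet_Ioo

/-- Integral of a derivative of constant sign. -/
theorem integral_deriv_of_nonneg {Φ φ : ℝ → ℝ} (hL : 0 ≤ L) (hc : ContinuousOn Φ (Icc 0 L))
    (hd : ∀ x ∈ Ioo 0 L, HasDerivAt Φ (φ x) x) (hp : ∀ x ∈ Ioo 0 L, 0 ≤ φ x) :
    IntervalIntegrable φ volume 0 L ∧ ∫ x in (0 : ℝ)..L, φ x = Φ L - Φ 0 := by
  have hi : IntervalIntegrable φ volume 0 L := intervalIntegrable_deriv_of_nonneg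
    (by rwa [uIcc_of_le hL]) (by rwa [min_eq_left hL, max_eq_right hL])
    (by rwa [min_eq_left hL, max_eq_right hL])
  exact ⟨hi, integral_eq_sub_of_hasDerivAt_of_le hL hc hd hi⟩

theorem Marg.dens_mul_clock (h : Marg L g) :
    IntervalIntegrable (fun x => dens L g x * clock L g x) volume 0 L ∧
      ∫ x in (0 : ℝ)..L, dens L g x * clock L g x = 1 := by
  obtain ⟨hi, he⟩ := integral_deriv_of_nonneg h.pos.le h.cont_clockMass.continuousOn
    (fun x hx => h.hasDerivAt_clockMass hx.2)
    (fun x hx => mul_nonneg (h.dens_pos x).le (h.clock_nonneg hx.1.le hx.2.le))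
  exact ⟨hi, by rw [he]; simp [clockMass, tail_top, h.tail_zero]⟩

end Vale.Agent.P254.Unc
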