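import Vale.Agent.P254.Unc.CertCalib
import Mathlib.Data.List.MinMax

/-!
# P254: piecewise linear potentials and the step inequality from finitely many calibrations

The potential is the maximum of the lines `c + s u`. The supporting slope is that of the maximising
line picked by `argmax`: two different maximisers at `u < v` have increasing slopes, so no order of
the pieces is needed.
-/

open Real

namespace Vale.Agent.P254.Unc.Cert

/-- A line, a lower bound `x` of the range where it is maximal, and the calibrations `i`, `j`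
combined with weight `θ`. -/
structure Piece where
  c : ℚ
  s : ℚ
  x : ℚ
  i : ℕ
  j : ℕ
  θ : ℚ
  deriving Inhabited

/-- The value of the line. -/
noncomputable def Piece.line (p : Piece) (u : ℝ) : ℝ := (p.c : ℝ) + (p.s : ℝ) * u

/-- A maximising piece. -/
noncomputable def pick (P : List Piece) (u : ℝ) : Piece :=
  (P.argmax fun p => p.line u).getD default

/-- The potential. -/
noncomputable def plPot (P : List Piece) (u : ℝ) : ℝ := (pick P u).line u

/-- Its slope. -/
noncomputable def plSlope (P : List Piece) (u : ℝ) : ℝ := ((pick P u).s : ℝ)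

theorem pick_mem {P : List Piece} (hP : P ≠ []) (u : ℝ) : pick P u ∈ P := by
  rcases h : P.argmax fun p => p.line u with _ | m
  · exact absurd (List.argmax_eq_none.1 h) hP
  · simp only [pick, h, Option.getD_some]; exact List.argmax_mem h

theorem line_le_plPot {P : List Piece} {p : Piece} (hp : p ∈ P) (u : ℝ) :
    p.line u ≤ plPot P u := by
  rcases h : P.argmax fun p => p.line u with _ | m
  · rw [List.argmax_eq_none.1 h] at hp; simp at hp
  · simp only [plPot, pick, h, Option.getD_some]; exact List.le_of_mem_argmax hp h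

/-- Supporting lines, in the form used by the conversion certificate. -/
theorem cs_le_plPot {P : List Piece} {p : Piece} (hp : p ∈ P) (u : ℝ) :
    (p.c : ℝ) + (p.s : ℝ) * u ≤ plPot P u := line_le_plPot hp u

/-- The piece is not maximal left of its `x`. -/
def Piece.xOk (P : List Piece) (p : Piece) : Bool :=
  decide (p.x = 0) ||
    (decide (0 ≤ p.x) && P.any fun q =>
      decide (q.s < p.s) && decide (p.c + p.s * p.x ≤ q.c + q.s * p.x))

/-- The value of the spline at zero. -/
def Spl.val0 (S : Spl) : ℚ :=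
  S.c + (S.cubes.map fun kv => kv.2 * max kv.1 0 ^ 3).sum + S.e * max S.top 0 ^ 2

theorem Spl.val_zero (S : Spl) : S.val 0 = (S.val0 : ℝ) := by
  have key : ∀ l : List (ℚ × ℚ),
      (l.map fun kv => (kv.2 : ℝ) * max ((kv.1 : ℝ) - 0) 0 ^ 3).sum =
        (((l.map fun kv => kv.2 * max kv.1 0 ^ 3).sum : ℚ) : ℝ) := by
    intro l
    induction l with
    | nil => simp
    | cons kv l ih =>
      simp only [List.map_cons, List.sum_cons, ih]
      push_cast
      simp
  rw [Spl.val, key, Spl.val0]
  push_cast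
  simp

/-- The check of one piece against two calibrations. -/
def Piece.calibOk (p : Piece) (A B : Data) : Bool :=
  decide (0 ≤ p.θ) && decide (p.θ ≤ 1) && decide (p.s ≤ p.θ * A.s + (1 - p.θ) * B.s) &&
    decide (p.s ≤ p.θ * A.kap + (1 - p.θ) * B.kap) &&
    decide (p.c + p.s * p.x ≤ 1 + (p.θ * (A.K + A.a.val0) + (1 - p.θ) * (B.K + B.a.val0)) +
      (p.θ * A.kap + (1 - p.θ) * B.kap) * p.x)

/-- The check of a whole potential. -/
def plOk (P : List Piece) (Cs : List Data) : Bool :=
  !P.isEmpty && (Cs.all fun C => C.tailOk) && P.all fun p =>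
    decide (0 ≤ p.s) && p.xOk P &&
      match Cs[p.i]?, Cs[p.j]? with
      | some A, some B => p.calibOk A B
      | _, _ => false

theorem pot_plPot {P : List Piece} (h0 : ∀ p ∈ P, (0 : ℚ) ≤ p.s) (hP : P ≠ []) :
    Pot (plPot P) (plSlope P) := by
  refine ⟨fun u v _ _ => ?_, fun u _ => ?_, fun u _ v _ huv => ?_⟩
  · have := line_le_plPot (pick_mem hP u) v
    simp only [plPot, plSlope, Piece.line] at *
    linarith
  · exact Rat.cast_nonneg.2 (h0 _ (pick_mem hP u))
  · rcases huv.eq_or_lt with rfl | hlt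
    · exact le_rfl
    have h1 := line_le_plPot (pick_mem hP v) u
    have h2 := line_le_plPot (pick_mem hP u) v
    simp only [plPot, plSlope, Piece.line] at *
    nlinarith

/-- Calibrations form a convex set. -/
theorem Calib.combine {W W' Wz Wz' Wr Wr' : ℝ → ℝ → ℝ} {κ κ' s s' K K' θ : ℝ}
    (h : Calib W Wz Wr κ s K) (h' : Calib W' Wz' Wr' κ' s' K') (h0 : 0 ≤ θ) (h1 : θ ≤ 1) :
    Calib (fun z r => θ * W z r + (1 - θ) * W' z r) (fun z r => θ * Wz z r + (1 - θ) * Wz' z r)
      (fun z r => θ * Wr z r + (1 - θ) * Wr' z r) (θ * κ + (1 - θ) * κ') (θ * s + (1 - θ) * s')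
      (θ * K + (1 - θ) * K') := by
  obtain ⟨C, k, hC⟩ := h.growth
  obtain ⟨C', k', hC'⟩ := h'.growth
  refine ⟨(continuousOn_const.mul h.cont).add (continuousOn_const.mul h'.cont),
    ⟨|C| + |C'|, k + k', fun p hp => ?_⟩, fun z r a b c => ?_, fun z r β a b c d e => ?_⟩
  · have hz : (1 : ℝ) ≤ 1 + p.1 := le_add_of_nonneg_right hp.1
    have e1 : |W p.1 p.2| ≤ |C| * (1 + p.1) ^ (k + k') := (hC p hp).trans
      (mul_le_mul (le_abs_self C) (pow_le_pow_right₀ hz (Nat.le_add_right _ _))
        (pow_nonneg (by linarith) _) (abs_nonneg _))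
    have e2 : |W' p.1 p.2| ≤ |C'| * (1 + p.1) ^ (k + k') := (hC' p hp).trans
      (mul_le_mul (le_abs_self C') (pow_le_pow_right₀ hz (Nat.le_add_left _ _))
        (pow_nonneg (by linarith) _) (abs_nonneg _))
    refine (abs_add_le _ _).trans ?_
    rw [abs_mul, abs_mul, abs_of_nonneg h0, abs_of_nonneg (sub_nonneg.2 h1)]
    have := mul_le_of_le_one_left (abs_nonneg (W p.1 p.2)) h1
    have := mul_le_of_le_one_left (abs_nonneg (W' p.1 p.2)) (sub_le_self 1 h0)
    linarith
  · refine (((h.deriv z r a b c).const_mul θ).fun_add ((h'.deriv z r a b c).const_mul (1 - θ))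
      ).congr_fderiv (ContinuousLinearMap.ext fun v => ?_)
    simp
    ring
  · have := mul_le_mul_of_nonneg_left (h.ineq z r β a b c d e) h0
    have := mul_le_mul_of_nonneg_left (h'.ineq z r β a b c d e) (sub_nonneg.2 h1)
    linarith

/-- The step inequality and the convexity data from the check. -/
theorem pot_and_stepIneq_of_plOk {P : List Piece} {Cs : List Data} (h : plOk P Cs = true)
    (hM : ∀ C ∈ Cs, C.Main) :
    Pot (plPot P) (plSlope P) ∧ StepIneq (plPot P) (plSlope P) := by
  simp only [plOk, Bool.and_eq_true, List.all_eq_true, decide_eq_true_eq, Bool.not_eq_true',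
    List.isEmpty_eq_false_iff] at h
  obtain ⟨⟨hne, hT⟩, hp⟩ := h
  refine ⟨pot_plPot (fun p hp' => (hp p hp').1.1) hne, stepIneq_of_calib fun u hu => ?_⟩
  obtain ⟨⟨-, hx⟩, hm⟩ := hp _ (pick_mem hne u)
  set p := pick P u with hpu
  rcases hA : Cs[p.i]? with _ | A <;> rcases hB : Cs[p.j]? with _ | B <;>
    simp [hA, hB] at hm
  simp only [Piece.calibOk, Bool.and_eq_true, decide_eq_true_eq] at hm
  obtain ⟨⟨⟨⟨t0, t1⟩, hs⟩, hk⟩, hc⟩ := hm
  have hAm := List.mem_of_getElem? hA
  have hBm := List.mem_of_getElem? hB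
  have t0' : (0 : ℝ) ≤ p.θ := Rat.cast_nonneg.2 t0
  have t1' : (p.θ : ℝ) ≤ 1 := by exact_mod_cast t1
  have hs' : (p.s : ℝ) ≤ p.θ * A.s + (1 - p.θ) * B.s := by exact_mod_cast hs
  have hk' : (p.s : ℝ) ≤ p.θ * A.kap + (1 - p.θ) * B.kap := by exact_mod_cast hk
  have hc' : (p.c : ℝ) + p.s * p.x ≤ 1 + (p.θ * (A.K + A.a.val0) + (1 - p.θ) * (B.K + B.a.val0)) +
      (p.θ * A.kap + (1 - p.θ) * B.kap) * p.x := by exact_mod_cast hc
  have hxu : (p.x : ℝ) ≤ u := by
    simp only [Piece.xOk, Bool.or_eq_true, Bool.and_eq_true, decide_eq_true_eq,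
      List.any_eq_true] at hx
    rcases hx with h0 | ⟨-, q, hq, hs, hqc⟩
    · rw [h0, Rat.cast_zero]; exact hu
    · have h1 : q.line u ≤ p.line u := line_le_plPot hq u
      have h2 : (q.s : ℝ) < p.s := Rat.cast_lt.2 hs
      have h3 : (p.c : ℝ) + p.s * p.x ≤ q.c + q.s * p.x := by exact_mod_cast hqc
      simp only [Piece.line] at h1
      nlinarith
  have hx0 : (0 : ℝ) ≤ p.x := by
    simp only [Piece.xOk, Bool.or_eq_true, Bool.and_eq_true, decide_eq_true_eq] at hx
    rcases hx with h0 | ⟨h0, -⟩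
    · rw [h0, Rat.cast_zero]
    · exact Rat.cast_nonneg.2 h0
  have hA0 := hT A hAm
  have hB0 := hT B hBm
  refine ⟨_, _, _, _, _, _,
    Calib.combine (A.calib hA0 (hM A hAm)) (B.calib hB0 (hM B hBm)) t0' t1', ?_, hs', ?_⟩
  · exact (Rat.cast_nonneg.2 (hp _ (pick_mem hne u)).1.1).trans hk'
  · rw [A.W_zero, B.W_zero, A.a.val_zero, B.a.val_zero]
    have := mul_le_mul_of_nonneg_right hk' (sub_nonneg.2 hxu)
    show (pick P u).line u ≤ _
    rw [← hpu, Piece.line]
    linarith

/-- The lines of the potential with value `c` at zero whose slope becomes `s` at `u`. -/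
def mkPieces (c : ℚ) (s : ℚ) : List (ℚ × ℚ × ℕ × ℕ × ℚ) → List Piece
  | [] => []
  | (u, s', i, j, θ) :: l => ⟨c - (s' - s) * u, s', u, i, j, θ⟩ :: mkPieces (c - (s' - s) * u) s' l

end Vale.Agent.P254.Unc.Cert
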