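import Vale.Agent.P254.Unc.Marg
import Vale.Agent.P254.Unc.Gap
import Vale.Agent.P254.Unc.Log

/-!
# P254: marginals and slices of a smooth log-concave decreasing density on `[0, L]ⁿ`
-/

open MeasureTheory Set Filter
open scoped Topology

namespace Vale.Agent.P254.Unc

variable {n : ℕ} {L : ℝ}

/-- A smooth convex potential, nondecreasing on the box. -/
structure Potential (L : ℝ) (W : (Fin n → ℝ) → ℝ) : Prop where
  smooth : ContDiff ℝ 2 W
  convex : ConvexOn ℝ univ W
  mono : MonotoneOn W (box 0 L n)

/-- The partition function. -/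
noncomputable def part (L : ℝ) (W : (Fin n → ℝ) → ℝ) : ℝ :=
  ∫ x in box 0 L n, Real.exp (-W x)

/-- The mean of `g` for the density `exp (-W) / part` on the box. -/
noncomputable def pMean (L : ℝ) (W g : (Fin n → ℝ) → ℝ) : ℝ :=
  (∫ x in box 0 L n, Real.exp (-W x) * g x) / part L W

/-- The mean of `ln xᵢ`. -/
noncomputable def lnMean (L : ℝ) (W : (Fin n → ℝ) → ℝ) (i : Fin n) : ℝ :=
  pMean L W fun x => Real.log (x i)

/-- The excess of the variance of `ln xᵢ` over one. -/
noncomputable def lnExcess (L : ℝ) (W : (Fin n → ℝ) → ℝ) (i : Fin n) : ℝ :=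
  pMean L W (fun x => Real.log (x i) ^ 2) - lnMean L W i ^ 2 - 1

/-- The entropy of the density. -/
noncomputable def energy (L : ℝ) (W : (Fin n → ℝ) → ℝ) : ℝ :=
  pMean L W W + Real.log (part L W)

/-- The slice at height `s` of the coordinate `k`. -/
def sliceAt (W : (Fin (n + 1) → ℝ) → ℝ) (k : Fin (n + 1)) (s : ℝ) (y : Fin n → ℝ) : ℝ :=
  W (k.insertNth s y)

/-- The potential of the marginal of the coordinate `k`. -/
noncomputable def margPot (L : ℝ) (W : (Fin (n + 1) → ℝ) → ℝ) (k : Fin (n + 1)) (s : ℝ) : ℝ :=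
  -Real.log (part L (sliceAt W k s))

theorem contDiff_insertNth {E : Type*} [NormedAddCommGroup E] [NormedSpace ℝ E] {m : WithTop ℕ∞}
    (k : Fin (n + 1)) {f : E → ℝ} {g : E → Fin n → ℝ} (hf : ContDiff ℝ m f)
    (hg : ContDiff ℝ m g) : ContDiff ℝ m fun q => (k.insertNth (f q) (g q) : Fin (n + 1) → ℝ) := by
  refine contDiff_pi.2 fun i => ?_
  refine k.succAboveCases ?_ (fun j => ?_) i
  · simpa using hf
  · simpa using contDiff_pi.1 hg j

theorem insertNth_mem_box {δ : ℝ} {k : Fin (n + 1)} {s : ℝ} (hs : s ∈ Icc δ L) {y : Fin n → ℝ}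
    (hy : y ∈ box δ L n) : (k.insertNth s y : Fin (n + 1) → ℝ) ∈ box δ L (n + 1) := fun i _ =>
  k.succAboveCases (by simpa using hs) (fun j => by simpa using hy j trivial) i

theorem part_pos (hL : 0 < L) {W : (Fin n → ℝ) → ℝ} (hW : Continuous W) : 0 < part L W :=
  setIntegral_box_pos hL hW.neg.rexp.continuousOn fun _ _ => Real.exp_pos _

namespace Potential

variable {W : (Fin (n + 1) → ℝ) → ℝ}

theorem slice (hW : Potential L W) (k : Fin (n + 1)) {s : ℝ} (hs : s ∈ Icc 0 L) :
    Potential L (sliceAt W k s) := by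
  refine ⟨hW.smooth.comp (contDiff_insertNth k contDiff_const contDiff_id), ?_, ?_⟩
  · refine ⟨convex_univ, fun x _ y _ a b ha hb hab => ?_⟩
    have e : (k.insertNth s (a • x + b • y) : Fin (n + 1) → ℝ) =
        a • k.insertNth s x + b • k.insertNth s y := by
      refine funext fun i => k.succAboveCases ?_ (fun j => ?_) i
      · simp [← add_mul, hab]
      · simp
    simp only [sliceAt, e]
    exact hW.convex.2 trivial trivial ha hb hab
  · intro x hx y hy hxy
    refine hW.mono (insertNth_mem_box hs hx) (insertNth_mem_box hs hy) fun i => ?_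
    exact k.succAboveCases (by simp) (fun j => by simpa using hxy j) i

theorem contDiff_sliceFamily (hW : Potential L W) (k : Fin (n + 1)) :
    ContDiff ℝ 2 fun z : ℝ × (Fin n → ℝ) => sliceAt W k z.1 z.2 :=
  hW.smooth.comp (contDiff_insertNth k contDiff_fst contDiff_snd)

theorem contDiff_slicePart (hW : Potential L W) (k : Fin (n + 1)) :
    ContDiff ℝ 2 fun s => part L (sliceAt W k s) :=
  contDiff_two_setIntegral (isCompact_box n) fun _ _ _ =>
    (hW.contDiff_sliceFamily k).neg.exp.contDiffAt

theorem slicePart_pos (hW : Potential L W) (hL : 0 < L) (k : Fin (n + 1)) (s : ℝ) :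
    0 < part L (sliceAt W k s) :=
  part_pos hL (hW.smooth.continuous.comp
    (contDiff_insertNth (m := 1) k contDiff_const contDiff_id).continuous)

theorem contDiff_margPot (hW : Potential L W) (hL : 0 < L) (k : Fin (n + 1)) :
    ContDiff ℝ 2 (margPot L W k) :=
  ((hW.contDiff_slicePart k).log fun s => (hW.slicePart_pos hL k s).ne').neg

end Potential

/-- Translation of a box integral. -/
theorem setIntegral_box_shift (δ : ℝ) (F : (Fin n → ℝ) → ℝ) :
    ∫ y in box δ (L + δ) n, F (y - fun _ => δ) = ∫ y in box 0 L n, F y := by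
  have hmp := measurePreserving_sub_right (volume : Measure (Fin n → ℝ)) (fun _ => δ)
  have hemb : MeasurableEmbedding fun y : Fin n → ℝ => y - fun _ => δ := by
    simp only [sub_eq_add_neg]
    exact measurableEmbedding_addRight _
  have e : (fun y : Fin n → ℝ => y - fun _ => δ) ⁻¹' box 0 L n = box δ (L + δ) n := by
    ext y
    simp only [box, mem_preimage, mem_univ_pi, mem_Icc, Pi.sub_apply, sub_nonneg, sub_le_iff_le_add]
  rw [← e]
  exact hmp.setIntegral_preimage_emb hemb F _

/-- The mean of `ln (yⱼ + δ)` in the slice at height `s`. -/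
noncomputable def shiftMean (L : ℝ) (W : (Fin (n + 1) → ℝ) → ℝ) (k : Fin (n + 1)) (δ : ℝ)
    (j : Fin n) (s : ℝ) : ℝ :=
  pMean L (sliceAt W k s) fun y => Real.log (y j + δ)

theorem contDiff_shiftMean {W : (Fin (n + 1) → ℝ) → ℝ} (hW : Potential L W) (hL : 0 < L)
    (k : Fin (n + 1)) {δ : ℝ} (hδ : 0 < δ) (j : Fin n) :
    ContDiff ℝ 1 (shiftMean L W k δ j) := by
  refine (contDiff_one_setIntegral (isCompact_box n)
    (g := fun z : ℝ × (Fin n → ℝ) => Real.exp (-sliceAt W k z.1 z.2) * Real.log (z.2 j + δ))
    fun s y hy => ?_).fun_div ((hW.contDiff_slicePart k).of_le one_le_two)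
      fun s => (hW.slicePart_pos hL k s).ne'
  refine ((hW.contDiff_sliceFamily k).of_le one_le_two).neg.exp.contDiffAt.mul ?_
  refine ((((contDiff_apply ℝ ℝ j).comp contDiff_snd).add contDiff_const).contDiffAt).log ?_
  simp only [Function.comp_apply]
  linarith [(hy j trivial).1]

/-- The curvature lemma for the slices. -/
theorem slice_curvature {W : (Fin (n + 1) → ℝ) → ℝ} (hW : Potential L W) (hL : 0 < L)
    (k : Fin (n + 1)) {δ : ℝ} (hδ : 0 < δ) {s : ℝ} (hs : s ∈ Icc 0 L) :
    ∑ j, deriv (shiftMean L W k δ j) s ^ 2 ≤ 2 * deriv (deriv (margPot L W k)) s := by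
  set W' : ℝ × (Fin n → ℝ) → ℝ := fun z => sliceAt W k z.1 (z.2 - fun _ => δ)
  have hW' : ContDiff ℝ 2 W' :=
    (hW.contDiff_sliceFamily k).comp (contDiff_fst.prodMk (contDiff_snd.sub contDiff_const))
  have hconv : ConvexOn ℝ univ W' := by
    refine ⟨convex_univ, fun x _ y _ a b ha hb hab => ?_⟩
    have e : (k.insertNth (a • x + b • y).1 ((a • x + b • y).2 - fun _ => δ) : Fin (n + 1) → ℝ) =
        a • k.insertNth x.1 (x.2 - fun _ => δ) + b • k.insertNth y.1 (y.2 - fun _ => δ) := by
      refine funext fun i => k.succAboveCases ?_ (fun j => ?_) i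
      · simp
      · simp; linear_combination δ * hab
    simp only [W', sliceAt, e]
    exact hW.convex.2 trivial trivial ha hb hab
  have hmono : MonotoneOn (fun x => W' (s, x)) (box δ (L + δ) n) := by
    intro x hx y hy hxy
    have hm : ∀ z ∈ box δ (L + δ) n, (z - fun _ => δ) ∈ box 0 L n := fun z hz i _ =>
      ⟨sub_nonneg.2 (hz i trivial).1, sub_le_iff_le_add.2 (hz i trivial).2⟩
    exact (hW.slice k hs).mono (hm x hx) (hm y hy) (sub_le_sub_right hxy _)
  have h := sum_sq_deriv_le hδ (show δ < L + δ by linarith) hW' hconv s (1 : ℝ) hmono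
  have eE : sliceEnergy δ (L + δ) W' s (1 : ℝ) = fun τ => margPot L W k (s + τ) := by
    funext τ
    simp only [sliceEnergy, margPot, part, W', smul_eq_mul, mul_one]
    rw [setIntegral_box_shift δ fun y => Real.exp (-sliceAt W k (s + τ) y)]
  have eM : ∀ j, sliceMean δ (L + δ) W' s (1 : ℝ) (Pi.single j 1) =
      fun τ => shiftMean L W k δ j (s + τ) := fun j => by
    funext τ
    simp only [sliceMean, shiftMean, pMean, part, W', smul_eq_mul, mul_one]
    rw [← setIntegral_box_shift δ fun y => Real.exp (-sliceAt W k (s + τ) y) * Real.log (y j + δ),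
      ← setIntegral_box_shift δ fun y => Real.exp (-sliceAt W k (s + τ) y)]
    simp [logForm, Pi.single_apply]
  have e2 : deriv (fun τ => margPot L W k (s + τ)) = fun τ => deriv (margPot L W k) (s + τ) :=
    funext fun τ => deriv_comp_const_add (f := margPot L W k) (a := s) (x := τ)
  simp only [eE, eM, e2, deriv_comp_const_add, add_zero] at h
  exact h

namespace Potential

variable {W : (Fin (n + 1) → ℝ) → ℝ}

theorem deriv2_margPot_nonneg (hW : Potential L W) (hL : 0 < L) (k : Fin (n + 1)) {s : ℝ}
    (hs : s ∈ Icc 0 L) : 0 ≤ deriv (deriv (margPot L W k)) s := by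
  have := slice_curvature hW hL k one_pos hs
  have : (0 : ℝ) ≤ ∑ j, deriv (shiftMean L W k 1 j) s ^ 2 :=
    Finset.sum_nonneg fun _ _ => sq_nonneg _
  linarith

theorem marg (hW : Potential L W) (hL : 0 < L) (k : Fin (n + 1)) : Marg L (margPot L W k) := by
  have h2 := hW.contDiff_margPot hL k
  have hd : Differentiable ℝ (margPot L W k) := h2.differentiable two_ne_zero
  have hd' : Differentiable ℝ (deriv (margPot L W k)) :=
    (contDiff_succ_iff_deriv.1 (show ContDiff ℝ (1 + 1) (margPot L W k) from h2)).2.2.differentiable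
      one_ne_zero
  refine ⟨hL, h2, convexOn_of_deriv2_nonneg (convex_Icc 0 L) hd.continuous.continuousOn
    hd.differentiableOn hd'.differentiableOn fun s hs => ?_, fun x hx y hy hxy => ?_⟩
  · simpa using hW.deriv2_margPot_nonneg hL k (interior_subset hs)
  · refine neg_le_neg (Real.log_le_log (hW.slicePart_pos hL k y) ?_)
    have hc : ∀ z, IntegrableOn (fun u => Real.exp (-sliceAt W k z u)) (box 0 L n) := fun z =>
      ((hW.smooth.continuous.comp
        (contDiff_insertNth (m := 1) k contDiff_const contDiff_id).continuous).neg.rexp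
        ).continuousOn.integrableOn_compact (isCompact_box n)
    refine setIntegral_mono_on (hc y) (hc x) (isCompact_box n).measurableSet fun u hu => ?_
    refine Real.exp_le_exp.2 (neg_le_neg (hW.mono (insertNth_mem_box hx hu)
      (insertNth_mem_box hy hu) fun i => ?_))
    exact k.succAboveCases (by simpa using hxy) (fun j => by simp) i

theorem exp_neg_margPot (hW : Potential L W) (hL : 0 < L) (k : Fin (n + 1)) (s : ℝ) :
    Real.exp (-margPot L W k s) = part L (sliceAt W k s) := by
  rw [margPot, neg_neg, Real.exp_log (hW.slicePart_pos hL k s)]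

/-- Integrals over the box, slice by slice. -/
theorem integral_slices (hW : Potential L W) (k : Fin (n + 1)) {g : (Fin (n + 1) → ℝ) → ℝ}
    (hg : IntegrableOn (fun x => Real.exp (-W x) * g x) (box 0 L (n + 1))) (hL : 0 < L) :
    IntervalIntegrable (fun s => part L (sliceAt W k s) *
        pMean L (sliceAt W k s) fun y => g (k.insertNth s y)) volume 0 L ∧
      ∫ x in box 0 L (n + 1), Real.exp (-W x) * g x =
        ∫ s in (0 : ℝ)..L, part L (sliceAt W k s) *
          pMean L (sliceAt W k s) fun y => g (k.insertNth s y) := by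
  have h := setIntegral_box_insert k hg
  have e : ∀ s, (∫ y in box 0 L n, Real.exp (-W (k.insertNth s y)) * g (k.insertNth s y)) =
      part L (sliceAt W k s) * pMean L (sliceAt W k s) fun y => g (k.insertNth s y) := fun s => by
    rw [pMean, mul_div_cancel₀ _ (hW.slicePart_pos hL k s).ne']
    rfl
  simp only [e] at h
  rw [intervalIntegrable_iff_integrableOn_Icc_of_le hL.le, intervalIntegral.integral_of_le hL.le,
    ← integral_Icc_eq_integral_Ioc]
  exact h

theorem mass_margPot (hW : Potential L W) (hL : 0 < L) (k : Fin (n + 1)) :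
    mass L (margPot L W k) = part L W := by
  have h := (hW.integral_slices k (g := fun _ => 1)
    (by simpa using (hW.smooth.continuous.neg.rexp.continuousOn.integrableOn_compact
      (isCompact_box _))) hL).2
  simp only [mul_one] at h
  rw [mass, part, h]
  refine intervalIntegral.integral_congr fun s _ => ?_
  simp only [hW.exp_neg_margPot hL k, pMean]
  simp only [part, mul_one]
  rw [div_self, mul_one]
  exact (hW.slicePart_pos hL k s).ne'

/-- The mean over the box as an average of the slice means. -/
theorem pMean_eq (hW : Potential L W) (k : Fin (n + 1)) (hL : 0 < L) {g : (Fin (n + 1) → ℝ) → ℝ}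
    (hg : IntegrableOn (fun x => Real.exp (-W x) * g x) (box 0 L (n + 1))) :
    IntervalIntegrable (fun s => dens L (margPot L W k) s *
        pMean L (sliceAt W k s) fun y => g (k.insertNth s y)) volume 0 L ∧
      pMean L W g = ∫ s in (0 : ℝ)..L, dens L (margPot L W k) s *
        pMean L (sliceAt W k s) fun y => g (k.insertNth s y) := by
  obtain ⟨h1, h2⟩ := hW.integral_slices k hg hL
  simp only [dens, hW.exp_neg_margPot hL, hW.mass_margPot hL]
  constructor
  · simpa only [div_mul_eq_mul_div] using h1.div_const (part L W)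
  · rw [pMean, h2, ← intervalIntegral.integral_div]
    exact intervalIntegral.integral_congr fun s _ => by ring

end Potential

/-- A slice mean of a function of the kept coordinate. -/
theorem pMean_const (hL : 0 < L) {W : (Fin n → ℝ) → ℝ} (hW : Continuous W) (c : ℝ) :
    pMean L W (fun _ => c) = c := by
  rw [pMean, integral_mul_const, ← part, mul_div_cancel_left₀ _ (part_pos hL hW).ne']

end Vale.Agent.P254.Unc
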