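import Mathlib

/-!
# P254: the one-dimensional step of the curvature lemma

On `[δ, L]`, `δ > 0`, for a decreasing probability density `p = exp (-U)` and a `C¹` function `f`,
`v = p⁻¹ ∫ₓᴸ (f - f̄) p` vanishes at both ends, `Var f = E (f' v) = E (U'' v² + v'²)`, and
`(E (v / x))² ≤ 2 E v'²`. Hence integrating out a variable preserves the curvature invariant.
-/

open MeasureTheory Set intervalIntegral
open scoped Interval

namespace Vale.Agent.P254.Unc

variable {δ L : ℝ}

/-- Cauchy–Schwarz for interval integrals with a positive weight. -/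
theorem sq_integral_mul_le {a b : ℝ} (hab : a ≤ b) {p g h : ℝ → ℝ}
    (hp : ContinuousOn p (Icc a b)) (hg : ContinuousOn g (Icc a b)) (hh : ContinuousOn h (Icc a b))
    (hpos : ∀ x ∈ Icc a b, 0 ≤ p x) :
    (∫ x in a..b, p x * (g x * h x)) ^ 2 ≤
      (∫ x in a..b, p x * g x ^ 2) * ∫ x in a..b, p x * h x ^ 2 := by
  set A := ∫ x in a..b, p x * g x ^ 2
  set B := ∫ x in a..b, p x * (g x * h x)
  set C := ∫ x in a..b, p x * h x ^ 2
  have key : ∀ s : ℝ, 0 ≤ A * (s * s) + 2 * B * s + C := fun s => by
    have i1 : IntervalIntegrable (fun x => p x * g x ^ 2 * (s * s)) volume a b :=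
      ((hp.mul (hg.pow 2)).mul continuousOn_const).intervalIntegrable_of_Icc hab
    have i2 : IntervalIntegrable (fun x => p x * (g x * h x) * (2 * s)) volume a b :=
      ((hp.mul (hg.mul hh)).mul continuousOn_const).intervalIntegrable_of_Icc hab
    have i3 : IntervalIntegrable (fun x => p x * h x ^ 2) volume a b :=
      (hp.mul (hh.pow 2)).intervalIntegrable_of_Icc hab
    have e : A * (s * s) + 2 * B * s + C = ∫ x in a..b,
        (p x * g x ^ 2 * (s * s) + p x * (g x * h x) * (2 * s) + p x * h x ^ 2) := by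
      rw [integral_add (i1.add i2) i3, integral_add i1 i2, intervalIntegral.integral_mul_const,
        intervalIntegral.integral_mul_const]
      ring
    rw [e]
    refine integral_nonneg hab fun x hx => ?_
    nlinarith [mul_nonneg (hpos x hx) (sq_nonneg (s * g x + h x))]
  have h := discrim_le_zero key
  rw [discrim] at h
  nlinarith

/-- The logarithmic kernel of the Hardy inequality. -/
theorem hardy_kernel (hδ : 0 < δ) (hL : δ ≤ L) {p R : ℝ → ℝ}
    (hp : ContinuousOn p (Icc δ L)) (hR : ∀ x ∈ Icc δ L, HasDerivAt R (-(p x / x)) x)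
    (hRL : R L = 0) (hpos : ∀ x ∈ Icc δ L, 0 < p x) (hanti : AntitoneOn p (Icc δ L)) :
    ∫ x in δ..L, R x ^ 2 / p x ≤ 2 * ∫ x in δ..L, p x := by
  have hRc : ContinuousOn R (Icc δ L) := fun x hx => (hR x hx).continuousAt.continuousWithinAt
  have hlog : ContinuousOn Real.log (Icc δ L) :=
    Real.continuousOn_log.mono fun x hx => (hδ.trans_le hx.1).ne'
  have hx0 : ∀ x ∈ Icc δ L, x ≠ 0 := fun x hx => (hδ.trans_le hx.1).ne'
  -- `T t = ∫ₜᴸ (p y / y) (log y - log t)`, so `R² / p ≤ 2 T` and `∫ T ≤ ∫ p`
  set T : ℝ → ℝ := fun t => ∫ y in t..L, R y / y with hTdef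
  have hRd : ContinuousOn (fun y => R y / y) (Icc δ L) := hRc.div continuousOn_id hx0
  have hTd : ∀ t ∈ Ioo δ L, HasDerivAt T (-(R t / t)) t := fun t ht =>
    integral_hasDerivAt_left ((hRd.mono (Icc_subset_Icc ht.1.le le_rfl)).intervalIntegrable_of_Icc
      ht.2.le) ((hRd.mono Ioo_subset_Icc_self).stronglyMeasurableAtFilter isOpen_Ioo t ht)
      (hRd.continuousAt (Icc_mem_nhds ht.1 ht.2))
  have hTc : ContinuousOn T (Icc δ L) := by
    have h := continuousOn_primitive_interval_left (a := δ) (b := L) (f := fun y => R y / y)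
      (μ := volume) (hRd.integrableOn_Icc.mono_set (uIcc_of_le hL).le)
    rwa [uIcc_of_le hL] at h
  have hR0 : ∀ t ∈ Icc δ L, 0 ≤ R t := fun t ht => by
    have h := integral_eq_sub_of_hasDerivAt (a := t) (b := L) (f := R)
      (f' := fun x => -(p x / x)) (fun x hx => hR x ?_) ?_
    · rw [hRL, intervalIntegral.integral_neg] at h
      have : (0 : ℝ) ≤ ∫ x in t..L, p x / x := integral_nonneg ht.2 fun x hx =>
        div_nonneg (hpos x ⟨ht.1.trans hx.1, hx.2⟩).le (hδ.le.trans (ht.1.trans hx.1))
      linarith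
    · rw [uIcc_of_le ht.2] at hx; exact ⟨ht.1.trans hx.1, hx.2⟩
    · exact (((hp.div continuousOn_id hx0).neg).mono
        (Icc_subset_Icc ht.1 le_rfl)).intervalIntegrable_of_Icc ht.2
  -- the pointwise bound `R² ≤ 2 p T`
  have hpt : ∀ t ∈ Icc δ L, R t ^ 2 ≤ 2 * p t * T t := fun t ht => by
    have hsub : Icc t L ⊆ Icc δ L := Icc_subset_Icc ht.1 le_rfl
    have h := integral_eq_sub_of_hasDerivAt (a := t) (b := L) (f := fun x => R x ^ 2)
      (f' := fun x => 2 * R x * -(p x / x)) (fun x hx => ?_) ?_
    · have hle : ∫ x in t..L, 2 * R x * (p x / x) ≤ ∫ x in t..L, 2 * p t * (R x / x) := by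
        refine integral_mono_on ht.2 ?_ ?_ fun x hx => ?_
        · exact (((continuousOn_const.mul hRc).mul (hp.div continuousOn_id hx0)).mono
            hsub).intervalIntegrable_of_Icc ht.2
        · exact ((continuousOn_const.mul hRd).mono hsub).intervalIntegrable_of_Icc ht.2
        · have h1 := hanti ht (hsub hx) hx.1
          have h2 : 0 ≤ R x / x := div_nonneg (hR0 x (hsub hx)) (hδ.le.trans (hsub hx).1)
          calc 2 * R x * (p x / x) = 2 * p x * (R x / x) := by ring
            _ ≤ 2 * p t * (R x / x) := by gcongr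
      rw [intervalIntegral.integral_const_mul] at hle
      simp only [mul_neg, intervalIntegral.integral_neg, hRL] at h
      nlinarith
    · rw [uIcc_of_le ht.2] at hx
      simpa using (hR x (hsub hx)).fun_pow 2
    · exact (((continuousOn_const.mul hRc).mul ((hp.div continuousOn_id hx0).neg)).mono
        hsub).intervalIntegrable_of_Icc ht.2
  calc ∫ x in δ..L, R x ^ 2 / p x ≤ ∫ x in δ..L, 2 * T x := by
        refine integral_mono_on hL ?_ ?_ fun x hx => ?_
        · exact ((hRc.pow 2).div hp fun x hx => (hpos x hx).ne').intervalIntegrable_of_Icc hL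
        · exact (continuousOn_const.mul hTc).intervalIntegrable_of_Icc hL
        · rw [div_le_iff₀ (hpos x hx)]
          linarith [hpt x hx]
    _ ≤ 2 * ∫ x in δ..L, p x := by
        rw [intervalIntegral.integral_const_mul]
        refine mul_le_mul_of_nonneg_left ?_ zero_le_two
        have h1 := integral_mul_deriv_eq_deriv_mul_of_hasDerivAt (a := δ) (b := L)
          (u := T) (v := fun x => x) (u' := fun t => -(R t / t)) (v' := fun _ => 1)
          (uIcc_of_le hL ▸ hTc) continuousOn_id (fun t ht => hTd t (by simpa [hL] using ht))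
          (fun t _ => hasDerivAt_id t) (hRd.neg.intervalIntegrable_of_Icc hL) intervalIntegrable_const
        have h2 := integral_mul_deriv_eq_deriv_mul (a := δ) (b := L)
          (u := R) (v := fun x => x) (u' := fun t => -(p t / t)) (v' := fun _ => 1)
          (fun t ht => hR t (uIcc_of_le hL ▸ ht)) (fun t _ => hasDerivAt_id t)
          ((hp.div continuousOn_id hx0).neg.intervalIntegrable_of_Icc hL) intervalIntegrable_const
        have e1 : ∫ t in δ..L, -(R t / t) * t = -∫ t in δ..L, R t := by
          rw [← intervalIntegral.integral_neg]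
          refine integral_congr fun t ht => ?_
          rw [uIcc_of_le hL] at ht
          have := hx0 t ht
          field_simp
        have e2 : ∫ t in δ..L, -(p t / t) * t = -∫ t in δ..L, p t := by
          rw [← intervalIntegral.integral_neg]
          refine integral_congr fun t ht => ?_
          rw [uIcc_of_le hL] at ht
          have := hx0 t ht
          field_simp
        have hTL : T L = 0 := by simp [hTdef]
        simp only [mul_one, hRL, hTL, zero_mul, zero_sub, e1, e2] at h1 h2
        have hT0 : 0 ≤ T δ := integral_nonneg hL fun y hy =>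
          div_nonneg (hR0 y hy) (hδ.le.trans hy.1)
        nlinarith [mul_nonneg hT0 hδ.le, mul_nonneg (hR0 δ (left_mem_Icc.2 hL)) hδ.le]

/-- The Hardy inequality for a function vanishing at both ends. -/
theorem hardy (hδ : 0 < δ) (hL : δ < L) {p v v' : ℝ → ℝ} (hp : ContinuousOn p (Icc δ L))
    (hpos : ∀ x ∈ Icc δ L, 0 < p x) (hanti : AntitoneOn p (Icc δ L))
    (hv : ContinuousOn v (Icc δ L)) (hvd : ∀ x ∈ Ioo δ L, HasDerivAt v (v' x) x)
    (hv' : ContinuousOn v' (Icc δ L)) (h0 : v δ = 0) (h1 : v L = 0) :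
    (∫ x in δ..L, p x * (v x / x)) ^ 2 ≤
      2 * (∫ x in δ..L, p x) * ∫ x in δ..L, p x * v' x ^ 2 := by
  have hx0 : ∀ x ∈ Icc δ L, x ≠ 0 := fun x hx => (hδ.trans_le hx.1).ne'
  -- extend continuously to differentiate the primitive on the closed interval
  set q : ℝ → ℝ := IccExtend hL.le ((Icc δ L).restrict fun y => p y / y) with hq
  have hqc : Continuous q := (hp.div continuousOn_id hx0).restrict.Icc_extend'
  have hqe : ∀ x ∈ Icc δ L, q x = p x / x := fun x hx => by
    rw [hq, IccExtend_of_mem _ _ hx]; rfl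
  set R : ℝ → ℝ := fun t => ∫ y in t..L, q y with hRdef
  have hR : ∀ x ∈ Icc δ L, HasDerivAt R (-(p x / x)) x := fun x hx => by
    rw [← hqe x hx]
    exact integral_hasDerivAt_left (hqc.intervalIntegrable _ _)
      (hqc.stronglyMeasurableAtFilter _ _) hqc.continuousAt
  have hRL : R L = 0 := by simp [hRdef]
  have hRc : ContinuousOn R (Icc δ L) := fun x hx => (hR x hx).continuousAt.continuousWithinAt
  have hparts := integral_mul_deriv_eq_deriv_mul_of_hasDerivAt (a := δ) (b := L) (u := v) (v := R)
    (u' := v') (v' := fun x => -(p x / x)) (uIcc_of_le hL.le ▸ hv) (uIcc_of_le hL.le ▸ hRc)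
    (fun x hx => hvd x (by simpa [hL.le] using hx))
    (fun x hx => hR x (Ioo_subset_Icc_self (by simpa [hL.le] using hx)))
    (hv'.intervalIntegrable_of_Icc hL.le)
    ((hp.div continuousOn_id hx0).neg.intervalIntegrable_of_Icc hL.le)
  rw [h0, h1, zero_mul, zero_mul, sub_zero, zero_sub] at hparts
  have e : ∫ x in δ..L, p x * (v x / x) = ∫ x in δ..L, p x * (v' x * (R x / p x)) := by
    have e1 : ∫ x in δ..L, v x * -(p x / x) = -∫ x in δ..L, p x * (v x / x) := by
      rw [← intervalIntegral.integral_neg]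
      exact integral_congr fun x _ => by ring
    rw [e1, neg_inj] at hparts
    rw [hparts]
    refine integral_congr fun x hx => ?_
    rw [uIcc_of_le hL.le] at hx
    have := (hpos x hx).ne'
    field_simp
  rw [e]
  have hdiv : ContinuousOn (fun x => R x / p x) (Icc δ L) := hRc.div hp fun x hx => (hpos x hx).ne'
  refine (sq_integral_mul_le hL.le hp hv' hdiv fun x hx => (hpos x hx).le).trans ?_
  rw [mul_comm (2 * _)]
  refine mul_le_mul_of_nonneg_left ?_
    (integral_nonneg hL.le fun x hx => mul_nonneg (hpos x hx).le (sq_nonneg _))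
  refine le_trans (le_of_eq (integral_congr fun x hx => ?_))
    (hardy_kernel hδ hL.le hp hR hRL hpos hanti)
  rw [uIcc_of_le hL.le] at hx
  have := (hpos x hx).ne'
  field_simp

/-- The variance step: the curvature lost in integrating out one variable is controlled. -/
theorem variance_step (hδ : 0 < δ) (hL : δ < L) {U U' U'' f f' : ℝ → ℝ}
    (hU : ∀ x ∈ Icc δ L, HasDerivAt U (U' x) x) (hU' : ∀ x ∈ Icc δ L, HasDerivAt U' (U'' x) x)
    (hU'' : ContinuousOn U'' (Icc δ L)) (hf : ∀ x ∈ Icc δ L, HasDerivAt f (f' x) x)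
    (hf' : ContinuousOn f' (Icc δ L)) (hmono : ∀ x ∈ Icc δ L, 0 ≤ U' x)
    (hnorm : ∫ x in δ..L, Real.exp (-U x) = 1) {m : ℝ}
    (hm : ∫ x in δ..L, Real.exp (-U x) * f x = m) :
    ∃ v : ℝ → ℝ, ContinuousOn v (Icc δ L) ∧
      ∀ a : ℝ, (∫ x in δ..L, Real.exp (-U x) * (f x - m) ^ 2) ≤
        2 * a ^ 2 + ∫ x in δ..L, Real.exp (-U x) *
          (2 * (f' x - a / x) * v x - U'' x * v x ^ 2) := by
  have hUc : ContinuousOn U (Icc δ L) := fun x hx => (hU x hx).continuousAt.continuousWithinAt
  have hU'c : ContinuousOn U' (Icc δ L) := fun x hx => (hU' x hx).continuousAt.continuousWithinAt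
  have hfc : ContinuousOn f (Icc δ L) := fun x hx => (hf x hx).continuousAt.continuousWithinAt
  have hx0 : ∀ x ∈ Icc δ L, x ≠ 0 := fun x hx => (hδ.trans_le hx.1).ne'
  set p : ℝ → ℝ := fun x => Real.exp (-U x)
  have hpc : ContinuousOn p (Icc δ L) := hUc.neg.rexp
  have hpd : ∀ x ∈ Icc δ L, HasDerivAt p (-(p x * U' x)) x := fun x hx => by
    simpa [p] using (hU x hx).fun_neg.exp
  have hgc : ContinuousOn (fun x => (f x - m) * p x) (Icc δ L) :=
    (hfc.sub continuousOn_const).mul hpc
  set q : ℝ → ℝ := IccExtend hL.le ((Icc δ L).restrict fun x => (f x - m) * p x) with hq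
  have hqc : Continuous q := hgc.restrict.Icc_extend'
  have hqe : ∀ x ∈ Icc δ L, q x = (f x - m) * p x := fun x hx => by
    rw [hq, IccExtend_of_mem _ _ hx]; rfl
  set G : ℝ → ℝ := fun t => ∫ y in t..L, q y with hG
  have hGd : ∀ x, HasDerivAt G (-q x) x := fun x =>
    integral_hasDerivAt_left (hqc.intervalIntegrable _ _)
      (hqc.stronglyMeasurableAtFilter _ _) hqc.continuousAt
  have ip : IntervalIntegrable p volume δ L := hpc.intervalIntegrable_of_Icc hL.le
  have hG0 : G δ = 0 := by
    have e : G δ = ∫ x in δ..L, (p x * f x - m * p x) := integral_congr fun x hx => by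
      rw [hqe x (uIcc_of_le hL.le ▸ hx)]; ring
    have i1 : IntervalIntegrable (fun x => p x * f x) volume δ L :=
      (hpc.mul hfc).intervalIntegrable_of_Icc hL.le
    rw [e, integral_sub i1 (ip.const_mul m),
      intervalIntegral.integral_const_mul]
    simp only [p] at hm hnorm ⊢
    rw [hm, hnorm, mul_one, sub_self]
  set v : ℝ → ℝ := fun x => Real.exp (U x) * G x with hvdef
  set v' : ℝ → ℝ := fun x => U' x * v x - (f x - m) with hv'def
  have hpe : ∀ x, p x * Real.exp (U x) = 1 := fun x => by
    rw [← Real.exp_add]; simp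
  have hvd : ∀ x ∈ Icc δ L, HasDerivAt v (v' x) x := fun x hx => by
    refine ((hU x hx).exp.fun_mul (hGd x)).congr_deriv ?_
    simp only [hv'def, hvdef, hqe x hx]
    linear_combination (-(f x - m)) * hpe x
  have hvc : ContinuousOn v (Icc δ L) := fun x hx => (hvd x hx).continuousAt.continuousWithinAt
  have hv'c : ContinuousOn v' (Icc δ L) := (hU'c.mul hvc).sub (hfc.sub continuousOn_const)
  have hv0 : v δ = 0 := by simp [hvdef, hG0]
  have hv1 : v L = 0 := by simp [hvdef, hG]
  refine ⟨v, hvc, fun a => ?_⟩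
  have hcI : ∀ {g : ℝ → ℝ}, ContinuousOn g (Icc δ L) → IntervalIntegrable g volume δ L :=
    fun hg => hg.intervalIntegrable_of_Icc hL.le
  set V := ∫ x in δ..L, p x * (f x - m) ^ 2
  -- first identity
  have A : V = ∫ x in δ..L, p x * (f' x * v x) := by
    have h := integral_eq_sub_of_hasDerivAt (a := δ) (b := L)
      (f := fun x => p x * v x * (f x - m))
      (f' := fun x => p x * (f' x * v x) - p x * (f x - m) ^ 2) (fun x hx => ?_) ?_
    · have i1 : IntervalIntegrable (fun x => p x * (f' x * v x)) volume δ L :=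
        hcI (hpc.mul (hf'.mul hvc))
      have i2 : IntervalIntegrable (fun x => p x * (f x - m) ^ 2) volume δ L :=
        hcI (hpc.mul ((hfc.sub continuousOn_const).pow 2))
      rw [hv0, hv1, integral_sub i1 i2] at h
      simp only [mul_zero, zero_mul, sub_zero] at h
      exact (sub_eq_zero.1 h).symm
    · rw [uIcc_of_le hL.le] at hx
      refine (((hpd x hx).fun_mul (hvd x hx)).fun_mul ((hf x hx).sub_const m)).congr_deriv ?_
      simp only [hv'def]; ring
    · exact hcI ((hpc.mul (hf'.mul hvc)).sub (hpc.mul ((hfc.sub continuousOn_const).pow 2)))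
  -- second identity
  have B : V = (∫ x in δ..L, p x * (U'' x * v x ^ 2)) + ∫ x in δ..L, p x * v' x ^ 2 := by
    have c1 : ContinuousOn (fun x => p x * (U'' x * v x ^ 2) + p x * v' x ^ 2) (Icc δ L) :=
      (hpc.mul (hU''.mul (hvc.pow 2))).add (hpc.mul (hv'c.pow 2))
    have c2 : ContinuousOn (fun x => p x * (f x - m) ^ 2) (Icc δ L) :=
      hpc.mul ((hfc.sub continuousOn_const).pow 2)
    have h := integral_eq_sub_of_hasDerivAt (a := δ) (b := L)
      (f := fun x => p x * U' x * v x ^ 2)
      (f' := fun x => (p x * (U'' x * v x ^ 2) + p x * v' x ^ 2) - p x * (f x - m) ^ 2)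
      (fun x hx => ?_) ?_
    · have i1 : IntervalIntegrable (fun x => p x * (U'' x * v x ^ 2)) volume δ L :=
        hcI (hpc.mul (hU''.mul (hvc.pow 2)))
      have i2 : IntervalIntegrable (fun x => p x * v' x ^ 2) volume δ L :=
        hcI (hpc.mul (hv'c.pow 2))
      rw [hv0, hv1, integral_sub (hcI c1) (hcI c2), integral_add i1 i2] at h
      norm_num at h
      linarith
    · rw [uIcc_of_le hL.le] at hx
      refine (((hpd x hx).fun_mul (hU' x hx)).fun_mul ((hvd x hx).fun_pow 2)).congr_deriv ?_
      simp only [hv'def]; push_cast; ring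
    · exact hcI (c1.sub c2)
  have hanti : AntitoneOn p (Icc δ L) := by
    intro x hx y hy hxy
    have hm' : MonotoneOn U (Icc δ L) := monotoneOn_of_hasDerivWithinAt_nonneg (convex_Icc δ L) hUc
      (fun z hz => (hU z (interior_subset hz)).hasDerivWithinAt)
      fun z hz => hmono z (interior_subset hz)
    exact Real.exp_le_exp.2 (neg_le_neg (hm' hx hy hxy))
  have H := hardy hδ hL hpc (fun x _ => Real.exp_pos _) hanti hvc
    (fun x hx => hvd x (Ioo_subset_Icc_self hx)) hv'c hv0 hv1
  simp only [p] at H hnorm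
  rw [hnorm, mul_one] at H
  set J := ∫ x in δ..L, p x * (v x / x)
  set W := ∫ x in δ..L, p x * v' x ^ 2
  have hW : 0 ≤ W := integral_nonneg hL.le fun x _ =>
    mul_nonneg (Real.exp_pos _).le (sq_nonneg _)
  have e : ∫ x in δ..L, p x * (2 * (f' x - a / x) * v x - U'' x * v x ^ 2) =
      2 * V - 2 * a * J - (V - W) := by
    have e' : ∀ x, p x * (2 * (f' x - a / x) * v x - U'' x * v x ^ 2) =
        2 * (p x * (f' x * v x)) - 2 * a * (p x * (v x / x)) - p x * (U'' x * v x ^ 2) :=
      fun x => by ring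
    simp only [e']
    have j1 : IntervalIntegrable (fun x => p x * (f' x * v x)) volume δ L :=
      hcI (hpc.mul (hf'.mul hvc))
    have j2 : IntervalIntegrable (fun x => p x * (v x / x)) volume δ L :=
      hcI (hpc.mul (hvc.div continuousOn_id hx0))
    have j3 : IntervalIntegrable (fun x => p x * (U'' x * v x ^ 2)) volume δ L :=
      hcI (hpc.mul (hU''.mul (hvc.pow 2)))
    rw [integral_sub ((j1.const_mul 2).sub (j2.const_mul (2 * a))) j3,
      integral_sub (j1.const_mul 2) (j2.const_mul (2 * a)),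
      intervalIntegral.integral_const_mul, intervalIntegral.integral_const_mul, ← A]
    linarith [B]
  show V ≤ 2 * a ^ 2 + ∫ x in δ..L, p x * _
  rw [e]
  have hJ : J ^ 2 ≤ 2 * W := H
  nlinarith [sq_nonneg (2 * a - J)]

end Vale.Agent.P254.Unc
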